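import Vale.Agent.P022F.Eis1
import Vale.Agent.P022D.G.Defs

/-!
# P022F: Eisenstein series with two characters are eigenforms
-/

set_option linter.all false

open Complex UpperHalfPlane EisensteinSeries Matrix Filter Topology CongruenceSubgroup
open scoped MatrixGroups ModularForm Manifold UpperHalfPlane

noncomputable section

namespace Vale.Agent.P022F.Eis

open Vale.Agent.P022

variable {u v : ℕ} (χ : DirichletCharacter ℂ u) (ψ : DirichletCharacter ℂ v)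

/-- the coefficients -/
def ph (x : Fin 2 → ℤ) : ℂ :=
  if (v : ℤ) ∣ x 0 then χ ((x 0 / v : ℤ) : ZMod u) * ψ⁻¹ ((x 1 : ℤ) : ZMod v) else 0

theorem ph_pos (hv : v ≠ 0) (c d : ℤ) :
    ph χ ψ ![v * c, d] = χ (c : ZMod u) * ψ⁻¹ (d : ZMod v) := by
  have hv' : (v : ℤ) ≠ 0 := by exact_mod_cast hv
  simp only [ph, cons_val_zero, cons_val_one, dvd_mul_right, if_true,
    Int.mul_ediv_cancel_left _ hv']

theorem ph_neg {c : ℤ} (h : ¬ (v : ℤ) ∣ c) (d : ℤ) : ph χ ψ ![c, d] = 0 := by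
  simp only [ph, cons_val_zero, h, if_false]

theorem ph_norm (x : Fin 2 → ℤ) : ‖ph χ ψ x‖ ≤ 1 := by
  rw [ph]
  split_ifs
  · rw [norm_mul]
    exact mul_le_one₀ (χ.norm_le_one _) (norm_nonneg _)
      (DirichletCharacter.norm_le_one (ψ⁻¹ : DirichletCharacter ℂ v) _)
  · simp

theorem inv_mul {d : ZMod v} (h : IsUnit d) : ψ d * ψ⁻¹ d = 1 := by
  rw [← MulChar.mul_apply, mul_inv_cancel, MulChar.one_apply h]

theorem ph_act (hv : v ≠ 0) {A B C D : ℤ} (h : A * D - B * C = 1) (hC : ((u * v : ℕ) : ℤ) ∣ C)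
    (c d : ℤ) : ph χ ψ ![c, d] =
      χ (D : ZMod u) * ψ (D : ZMod v) * ph χ ψ ![c * A + d * C, c * B + d * D] := by
  obtain ⟨C', rfl⟩ := hC
  push_cast at h ⊢
  by_cases hc : (v : ℤ) ∣ c
  · obtain ⟨c, rfl⟩ := hc
    rw [show v * c * A + d * (u * v * C') = v * (c * A + d * u * C') by ring, ph_pos _ _ hv,
      ph_pos _ _ hv]
    have h1 := congrArg (fun x : ℤ => (x : ZMod u)) h
    have h2 := congrArg (fun x : ℤ => (x : ZMod v)) h
    push_cast at h1 h2 ⊢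
    simp only [CharP.cast_eq_zero, zero_mul, mul_zero, sub_zero, add_zero, zero_add] at h1 h2 ⊢
    have h3 : χ (A : ZMod u) * χ (D : ZMod u) = 1 := by rw [← map_mul, h1, map_one]
    have h4 := inv_mul ψ (IsUnit.of_mul_eq_one_right _ h2)
    rw [map_mul, map_mul]
    linear_combination (-(χ (c : ZMod u) * ψ⁻¹ (d : ZMod v))) * h4 -
      (χ (c : ZMod u) * ψ⁻¹ (d : ZMod v) * (ψ (D : ZMod v) * ψ⁻¹ (D : ZMod v))) * h3
  · rw [ph_neg _ _ hc, ph_neg, mul_zero]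
    rintro ⟨e, he⟩
    exact hc ⟨e * D - d * u * C' * D - c * B * u * C', by linear_combination D * he - c * h⟩

theorem slash_ph (hv : v ≠ 0) (k : ℤ) (γ : SL(2, ℤ)) (hγ : ((u * v : ℕ) : ℤ) ∣ γ 1 0) :
    Gs k (ph χ ψ) ∣[k] γ =
      (χ ((γ 1 1 : ℤ) : ZMod u) * ψ ((γ 1 1 : ℤ) : ZMod v)) • Gs k (ph χ ψ) := by
  have hd := γ.det_coe
  rw [Matrix.det_fin_two] at hd
  have h1 : ph χ ψ = fun x => (fun y => χ ((γ 1 1 : ℤ) : ZMod u) * ψ ((γ 1 1 : ℤ) : ZMod v) *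
      ph χ ψ y) (vE γ x) := by
    funext x
    have e : vE γ x = ![x 0 * γ 0 0 + x 1 * γ 1 0, x 0 * γ 0 1 + x 1 * γ 1 1] := by
      funext i
      fin_cases i <;> simp [vE, vecMul, dotProduct, Fin.sum_univ_two]
    beta_reduce
    rw [e, ← ph_act χ ψ hv hd hγ, ← vec_eq]
  conv_lhs => rw [h1]
  refine (slash k (fun y => χ ((γ 1 1 : ℤ) : ZMod u) * ψ ((γ 1 1 : ℤ) : ZMod v) *
      ph χ ψ y) γ).trans ?_
  funext z
  rw [Pi.smul_apply, smul_eq_mul, Gs, Gs, ← tsum_mul_left]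
  exact tsum_congr fun x => mul_assoc _ _ _

/-- the Eisenstein series as a modular form -/
def eF [NeZero (u * v)] {k : ℕ} (hk : 3 ≤ k) : MF (u * v) k where
  toFun := Gs k (ph χ ψ)
  slash_action_eq' γ hγ := by
    obtain ⟨A, (hA : A ∈ Gamma1 (u * v)), rfl⟩ := hγ
    have hv : v ≠ 0 := right_ne_zero_of_mul (NeZero.ne (u * v))
    rw [Gamma1_mem] at hA
    change Gs k (ph χ ψ) ∣[(k : ℤ)] A = _
    rw [slash_ph χ ψ hv k A ((ZMod.intCast_zmod_eq_zero_iff_dvd _ _).1 hA.2.2)]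
    have h1 := congrArg (ZMod.castHom (dvd_mul_right u v) (ZMod u)) hA.2.1
    have h2 := congrArg (ZMod.castHom (dvd_mul_left v u) (ZMod v)) hA.2.1
    rw [map_intCast, map_one] at h1 h2
    rw [h1, h2, map_one, map_one, one_mul, one_smul]
  holo' := holo (by exact_mod_cast hk) (ph_norm χ ψ)
  bdd_at_cusps' {c} hc := by
    rw [Subgroup.IsArithmetic.isCusp_iff_isCusp_SL2Z] at hc
    rw [OnePoint.isBoundedAt_iff_forall_SL2Z hc]
    intro γ _
    change IsBoundedAtImInfty (Gs k (ph χ ψ) ∣[(k : ℤ)] γ)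
    rw [slash']
    exact bdd (by exact_mod_cast hk) fun x => ph_norm χ ψ _

theorem eF_coe [NeZero (u * v)] {k : ℕ} (hk : 3 ≤ k) :
    (eF χ ψ hk : ℍ → ℂ) = Gs k (ph χ ψ) := rfl

theorem eF_ne [NeZero (u * v)] {k : ℕ} (hk : 3 ≤ k) (hp : χ (-1) * ψ (-1) = (-1) ^ k) :
    eF χ ψ hk ≠ 0 := by
  intro h
  have hv : v ≠ 0 := right_ne_zero_of_mul (NeZero.ne (u * v))
  have h0 : Gs k (ph χ ψ) = 0 := by rw [← eF_coe χ ψ hk, h]; rfl
  let γ : SL(2, ℤ) := ⟨!![1, 0; (v : ℤ), 1], by simp [Matrix.det_fin_two]⟩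
  have e : ∀ d : ℤ, vE γ ![0, d] = ![v * d, d] := by
    intro d
    funext i
    fin_cases i <;> simp [vE, γ, vecMul, dotProduct, Fin.sum_univ_two, mul_comm]
  refine ne_zero (k := k) (φ := fun x => ph χ ψ (vE γ x)) (by exact_mod_cast hk)
    (fun x => ph_norm χ ψ _) ?_ ?_ ?_
  · rw [e, ph_pos _ _ hv]
    simp
  · rw [e, ph_pos _ _ hv]
    push_cast
    have h1 := inv_mul ψ (d := -1) isUnit_one.neg
    have h2 : ψ (-1) * ψ (-1) = 1 := by rw [← map_mul]; simp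
    rw [zpow_natCast, ← hp]
    linear_combination (χ (-1) * ψ (-1)) * h1 - (χ (-1) * ψ⁻¹ (-1)) * h2
  · have h3 := slash k (ph χ ψ) γ
    rw [h0] at h3
    have h4 := congrArg (fun f => f ∣[(k : ℤ)] γ⁻¹) h3
    simpa only [← SlashAction.slash_mul, mul_inv_cancel, SlashAction.slash_one,
      SlashAction.zero_slash] using h4

theorem dFun_ph [NeZero (u * v)] (k : ℕ) (ℓ : PA (u * v)) :
    dFun (u * v) k ℓ (Gs k (ph χ ψ)) =
      (χ (ℓ.1 : ZMod u) * ψ (ℓ.1 : ZMod v)) • Gs k (ph χ ψ) := by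
  have hv : v ≠ 0 := right_ne_zero_of_mul (NeZero.ne (u * v))
  obtain ⟨a, b, -, e⟩ := H783.gd_coe ℓ.coprime
  rw [dFun, slash_ph χ ψ hv k _ (by rw [e]; simp), e]
  simp

/-- **the Eisenstein series is an eigenform** -/
theorem eis (u v κ : ℕ) [NeZero (u * v)] (hk : 3 ≤ κ + 1) (χ : DirichletCharacter ℂ u)
    (ψ : DirichletCharacter ℂ v) (hp : χ (-1) * ψ (-1) = (-1) ^ (κ + 1)) :
    ∃ f : MF (u * v) (κ + 1), f ≠ 0 ∧ ∀ ℓ : PA (u * v),
      H783.Tl (κ + 1) ℓ f = (χ (ℓ.1 : ZMod u) + ψ (ℓ.1 : ZMod v) * (ℓ.1 : ℂ) ^ κ) • f ∧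
      H783.dia (κ + 1) ℓ f = (χ (ℓ.1 : ZMod u) * ψ (ℓ.1 : ZMod v)) • f := by
  have hv : v ≠ 0 := right_ne_zero_of_mul (NeZero.ne (u * v))
  refine ⟨eF χ ψ hk, eF_ne χ ψ hk hp, fun ℓ => ⟨?_, ?_⟩⟩
  · have hc : Nat.Coprime ℓ.1 v := Nat.Coprime.coprime_dvd_right (dvd_mul_left v u) ℓ.coprime
    refine DFunLike.coe_injective ?_
    beta_reduce
    rw [FunLike.coe_smul, H783.Tl_coe, eF_coe]
    refine tFun_eq hk ℓ (ph_norm χ ψ) _ _ (dFun_ph χ ψ (κ + 1) ℓ) (fun c d => ?_)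
      fun c d j => ?_
    · by_cases h : (v : ℤ) ∣ c
      · obtain ⟨c, rfl⟩ := h
        rw [mul_left_comm, ph_pos _ _ hv, ph_pos _ _ hv]
        push_cast
        rw [map_mul, mul_assoc]
      · rw [ph_neg _ _ h, ph_neg, mul_zero]
        intro h'
        exact h ((Nat.isCoprime_iff_coprime.2 hc).symm.dvd_of_dvd_mul_left h')
    · by_cases h : (v : ℤ) ∣ c
      · obtain ⟨c, rfl⟩ := h
        rw [ph_pos _ _ hv, ph_pos _ _ hv]
        push_cast
        have h1 := inv_mul ψ ((ZMod.isUnit_iff_coprime ℓ.1 v).2 hc)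
        rw [ZMod.natCast_self, zero_mul, zero_mul, zero_add, map_mul]
        linear_combination (-(χ (c : ZMod u) * ψ⁻¹ (d : ZMod v))) * h1
      · rw [ph_neg _ _ h, ph_neg _ _ h, mul_zero]
  · refine DFunLike.coe_injective ?_
    beta_reduce
    rw [FunLike.coe_smul, H783.dia_coe, eF_coe]
    exact dFun_ph χ ψ (κ + 1) ℓ

open Vale.Agent.P022D.G (Wd sg)

/-- a word which kills the forms of weight `κ + 1` vanishes on the Eisenstein system -/
theorem eis_word {O : Type} [CommRing O] (j : O →+* ℂ) (hj : Function.Injective j) (u v κ : ℕ)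
    [NeZero (u * v)] (hk : 3 ≤ κ + 1) (χ : DirichletCharacter O u) (ψ : DirichletCharacter O v)
    (hp : χ (-1) * ψ (-1) = (-1) ^ (κ + 1)) (X : Wd (u * v)) (hX : sg (u * v) κ X = 0) :
    FreeAlgebra.lift ℤ (Sum.elim
      (fun ℓ : PA (u * v) => χ (ℓ.1 : ZMod u) + ψ (ℓ.1 : ZMod v) * (ℓ.1 : O) ^ κ)
      fun ℓ : PA (u * v) => (ℓ.1 : O) ^ κ * (χ (ℓ.1 : ZMod u) * ψ (ℓ.1 : ZMod v))) X = 0 := by
  obtain ⟨f, hf, h⟩ := eis u v κ hk (χ.ringHomComp j) (ψ.ringHomComp j) (by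
    have := congrArg j hp
    simpa using this)
  have key : ∀ Y : Wd (u * v), sg (u * v) κ Y f = j (FreeAlgebra.lift ℤ (Sum.elim
      (fun ℓ : PA (u * v) => χ (ℓ.1 : ZMod u) + ψ (ℓ.1 : ZMod v) * (ℓ.1 : O) ^ κ)
      fun ℓ : PA (u * v) => (ℓ.1 : O) ^ κ * (χ (ℓ.1 : ZMod u) * ψ (ℓ.1 : ZMod v))) Y) • f := by
    intro Y
    induction Y using FreeAlgebra.induction with
    | grade0 r =>
      rw [AlgHom.commutes, AlgHom.commutes, eq_intCast, eq_intCast, map_intCast,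
        Module.End.intCast_apply, Int.cast_smul_eq_zsmul]
    | grade1 s =>
      rw [sg, FreeAlgebra.lift_ι_apply, FreeAlgebra.lift_ι_apply]
      rcases s with ℓ | ℓ
      · rw [gHk, (h ℓ).1]
        simp
      · rw [gHk, LinearMap.smul_apply, (h ℓ).2, smul_smul]
        simp
    | mul a b ha hb =>
      rw [map_mul, map_mul, map_mul, Module.End.mul_apply, hb, map_smul, ha, smul_smul]
      exact congrArg (· • f) (mul_comm _ _)
    | add a b ha hb => rw [map_add, map_add, map_add, LinearMap.add_apply, ha, hb, add_smul]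
  have h1 := key X
  rw [hX, LinearMap.zero_apply] at h1
  exact hj (by rw [map_zero]; exact (smul_eq_zero.1 h1.symm).resolve_right hf)

/-- **residual modularity of a reducible system** -/
theorem eis_res {O : Type} [CommRing O] (j : O →+* ℂ) (hj : Function.Injective j) (u v : ℕ)
    [NeZero (u * v)] (χ : DirichletCharacter O u) (ψ : DirichletCharacter O v) (ϖ : O)
    (h2 : ϖ ∣ 2) (s : Gen (u * v) → O)
    (hT : ∀ ℓ : PA (u * v), ϖ ∣ s (Sum.inl ℓ) - (χ (ℓ.1 : ZMod u) + ψ (ℓ.1 : ZMod v)))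
    (hS : ∀ ℓ : PA (u * v), ϖ ∣ s (Sum.inr ℓ) - χ (ℓ.1 : ZMod u) * ψ (ℓ.1 : ZMod v)) :
    ∃ k : ℕ, ∀ X : Wd (u * v), (∀ i < k, sg (u * v) i X = 0) →
      ϖ ∣ FreeAlgebra.lift ℤ s X := by
  have hsq : (χ (-1) * ψ (-1) - 1) * (χ (-1) * ψ (-1) + 1) = 0 := by
    have e1 : χ (-1) * χ (-1) = 1 := by rw [← map_mul]; simp
    have e2 : ψ (-1) * ψ (-1) = 1 := by rw [← map_mul]; simp
    linear_combination (ψ (-1) * ψ (-1)) * e1 + e2
  haveI : NoZeroDivisors O := hj.noZeroDivisors j (map_zero j) (map_mul j)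
  obtain ⟨κ, h3, h4, hp⟩ : ∃ κ : ℕ, 3 ≤ κ + 1 ∧ κ < 4 ∧ χ (-1) * ψ (-1) = (-1) ^ (κ + 1) := by
    rcases mul_eq_zero.1 hsq with h | h
    · exact ⟨3, by omega, by omega, by linear_combination h⟩
    · exact ⟨2, by omega, by omega, by linear_combination h⟩
  refine ⟨4, fun X hX => ?_⟩
  have h5 := eis_word j hj u v κ h3 χ ψ hp X (hX κ h4)
  have hl : ∀ ℓ : PA (u * v), ϖ ∣ (ℓ.1 : O) ^ κ - 1 := by
    intro ℓ
    have ho : Odd ℓ.1 := ℓ.2.1.odd_of_ne_two fun h => ℓ.2.2 (by rw [h]; exact dvd_mul_right 2 _)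
    obtain ⟨m, hm⟩ := ho
    refine Dvd.dvd.trans (h2.trans ⟨m, ?_⟩) (sub_one_dvd_pow_sub_one (ℓ.1 : O) κ)
    rw [hm]
    push_cast
    ring
  have key : ∀ Y : Wd (u * v), ϖ ∣ FreeAlgebra.lift ℤ s Y - FreeAlgebra.lift ℤ (Sum.elim
      (fun ℓ : PA (u * v) => χ (ℓ.1 : ZMod u) + ψ (ℓ.1 : ZMod v) * (ℓ.1 : O) ^ κ)
      fun ℓ : PA (u * v) => (ℓ.1 : O) ^ κ * (χ (ℓ.1 : ZMod u) * ψ (ℓ.1 : ZMod v))) Y := by
    intro Y
    induction Y using FreeAlgebra.induction with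
    | grade0 r => rw [AlgHom.commutes, AlgHom.commutes, sub_self]; exact dvd_zero _
    | grade1 t =>
      rw [FreeAlgebra.lift_ι_apply, FreeAlgebra.lift_ι_apply]
      rcases t with ℓ | ℓ
      · have := (hT ℓ).sub ((hl ℓ).mul_left (ψ (ℓ.1 : ZMod v)))
        convert this using 1
        simp only [Sum.elim_inl]
        ring
      · have := (hS ℓ).sub ((hl ℓ).mul_right (χ (ℓ.1 : ZMod u) * ψ (ℓ.1 : ZMod v)))
        convert this using 1
        simp only [Sum.elim_inr]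
        ring
    | mul a b ha hb =>
      rw [map_mul, map_mul]
      have := (ha.mul_right (FreeAlgebra.lift ℤ s b)).add (hb.mul_left (FreeAlgebra.lift ℤ
        (Sum.elim (fun ℓ : PA (u * v) => χ (ℓ.1 : ZMod u) + ψ (ℓ.1 : ZMod v) * (ℓ.1 : O) ^ κ)
          fun ℓ : PA (u * v) => (ℓ.1 : O) ^ κ * (χ (ℓ.1 : ZMod u) * ψ (ℓ.1 : ZMod v))) a))
      convert this using 1
      ring
    | add a b ha hb =>
      rw [map_add, map_add]
      convert ha.add hb using 1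
      ring
  have h6 := key X
  rwa [h5, sub_zero] at h6

end Vale.Agent.P022F.Eis
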