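import Vale.Agent.P022F.OkF

/-!
P022F: the local relations at the odd primes without a global representation.
-/

set_option linter.all false

noncomputable section

namespace Vale.Agent.P022F.WR

open NumberField IsLocalRing
open Vale.Agent.P022 Vale.Agent.P022.H443 Vale.Agent.P022D Vale.Agent.P022D.R Vale.Agent.P022D.W
open Vale.Agent.P022.H346 (TF)
open Vale.Agent.P027M.S (mx)
open Vale.Agent.P022D.Sel (M2 IsDec)
open Vale.Agent.P022E.Loc (Pl Wc th th_map th_dd yW yW_map open_of rbm tame_res Tst rA rA_tr rA_dt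
  WRel cW zW yW_c sq_two)

variable {O F : Type} [CommRing O] [Field F] {S : Dat O F} {L : Pl O} {l : ℕ} {e v : Fin 2 → O}
  {u : O}

section ring

/-- a trace function over a local `O`-algebra with nilpotent maximal ideal -/
structure Ts (S : Dat O F) (L : Pl O) {A : Type} [CommRing A] (ι : O →+* A) (π : A →+* F)
    (t d : GQ → A) : Prop where
  lr : LR π
  alg : ∀ c, π (ι c) = S.red c
  tf : ∃ d' : GQ →* Aˣ, TF t d' ∧ ∀ g, (d' g : A) = d g
  rt : ∀ g, π (t g) = (mx S.rb g).trace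
  rd : ∀ g, π (d g) = (mx S.rb g).det
  opn : ∃ U : Subgroup GQ, IsOpen (U : Set GQ) ∧ ∀ u ∈ U, ∀ g, t (g * u) = t g

variable {A : Type} [CommRing A] {ι : O →+* A} {π : A →+* F} {t d : GQ → A}

theorem tst_pt [IsLocalRing O] (hL : OkF L S) (hA : LR π) (alg : ∀ c, π (ι c) = S.red c) :
    Tst S ι π (rA L ι) := by
  refine ⟨hA, alg, fun g => ?_, ?_⟩
  · rw [← hL.lift]; ext i j; exact alg _
  · obtain ⟨n, hn⟩ := hA.nil
    have hk : maximalIdeal O ^ n ≤ RingHom.ker ι := by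
      have h1 : (maximalIdeal O).map ι ≤ RingHom.ker π := Ideal.map_le_iff_le_comap.2 fun c hc => by
        rw [Ideal.mem_comap, RingHom.mem_ker, alg]; exact (hL.ker c).2 hc
      have h2 := Ideal.pow_right_mono h1 n
      rw [hn, ← Ideal.map_pow] at h2
      exact Ideal.map_le_iff_le_comap.1 h2
    refine open_of (f := (Ideal.Quotient.mk (maximalIdeal O ^ n)).mapMatrix.toMonoidHom.comp L.r)
      (fun g hg => ?_) (hL.cont n)
    ext i j
    have h1 : Ideal.Quotient.mk (maximalIdeal O ^ n) (L.r g i j) =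
        Ideal.Quotient.mk (maximalIdeal O ^ n) ((1 : M2 O) i j) := by
      refine (congrFun (congrFun hg i) j).trans ?_
      simp only [Matrix.one_apply]; split_ifs <;> simp
    have h2 := hk (Ideal.Quotient.eq.1 h1)
    rw [RingHom.mem_ker, map_sub, sub_eq_zero] at h2
    refine h2.trans ?_
    simp only [Matrix.one_apply]; split_ifs <;> simp

theorem Ts.pr [IsLocalRing O] [CharP F 2] (hL : OkF L S) (hl : l ∈ L.W) (h : Ts S L ι π t d)
    (hodd : ProOdd (L.g0 l)) :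
    ∃ (σ : dec (L.P l) →* Mt A) (N : Subgroup (dec (L.P l)))
      (h1 : L.τ l ∈ dec (L.P l)) (h2 : L.φ l ∈ dec (L.P l)),
      Pr π l ⊤ ((inP (L.P l)).subgroupOf (dec (L.P l))) N (L.Hd l) ⟨L.τ l, h1⟩ ⟨L.φ l, h2⟩
        ⟨L.g0 l, (hL.reg l hl).1⟩ (L.rr S l) σ (L.rs l ι (rA L ι)) ∧
      (∀ g, trc σ g = t g) ∧ (∀ g, dtm σ g = d g) ∧
      ∃ m, Odd m ∧ σ ⟨L.g0 l, (hL.reg l hl).1⟩ ^ m = 1 ∧
        L.rs l ι (rA L ι) ⟨L.g0 l, (hL.reg l hl).1⟩ ^ m = 1 := by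
  have h' := tst_pt hL h.lr h.alg
  obtain ⟨d', T, hd⟩ := h.tf
  obtain ⟨U, hU, hu⟩ := h.opn
  let K : Subgroup GQ := ⟨⟨⟨{u | ∀ g, t (g * u) = t g}, fun {a b} ha hb g => by
    rw [← mul_assoc, hb, ha]⟩, fun g => by rw [mul_one]⟩, fun {a} ha g => by
    rw [← ha (g * a⁻¹), inv_mul_cancel_right]⟩
  haveI : K.Normal := ⟨fun a ha b g => by
    rw [← mul_assoc, T.comm, ← mul_assoc, ← mul_assoc, ha, mul_assoc, T.comm,
      mul_inv_cancel_right]⟩
  have := galQb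
  have hK : IsOpen (K : Set GQ) := Subgroup.isOpen_mono (fun u k => hu u k) hU
  let f : GQ →* (GQ ⧸ K) × M2 A := (QuotientGroup.mk' K).prod (rA L ι)
  have ho : IsOpen {g | f g = 1} := by
    convert hK.inter h'.opn using 1
    exact Set.ext fun g => Prod.ext_iff.trans (and_congr (QuotientGroup.eq_one_iff g) Iff.rfl)
  have hf : ∀ g k : GQ, f g = f k → (∀ y, t (g * y) = t (k * y)) ∧ rA L ι g = rA L ι k := by
    intro g k e
    refine ⟨fun y => ?_, congrArg Prod.snd e⟩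
    have e1 : g⁻¹ * k ∈ K := QuotientGroup.eq.1 (congrArg Prod.fst e)
    rw [T.comm g, T.comm k, ← e1 (y * g), mul_assoc, mul_inv_cancel_left]
  obtain ⟨N, hT⟩ := (hL.tm l (Finset.mem_union_left _ hl)).tame _ _ ho
  obtain ⟨σ, s1, s2, s3, s4⟩ := Wl.locdiag (hL.wd hl) h.lr (tame_res hT)
    (fun g => hL.all l hl g g.2) (fun x => by
      obtain ⟨c, rfl⟩ := S.surj x
      exact ⟨_, h.alg c⟩) (t := fun g => t g) (d := d'.comp (dec (L.P l)).subtype)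
    ⟨T.one, fun g k => T.comm g k, fun g k => T.mul g k⟩
    (fun g => (h.rt g).trans (L.rb_tr l g).symm)
    (fun g => (congrArg π (hd g)).trans ((h.rd g).trans (L.rb_det l g).symm))
    fun g k e y => (hf g k e).1 y
  have hf' : ∀ g k : dec (L.P l), f g = f k →
      (σ.prod (L.rs l ι (rA L ι))) g = (σ.prod (L.rs l ι (rA L ι))) k := fun g k e =>
    Prod.ext (s4 g k fun y => (hf g k e).1 y) (congrArg (L.ch l ι) (hf g k e).2)
  refine ⟨σ, _, _, _, ⟨hL.wd hl, h.lr, s1, L.rs_lift l h.alg h'.res,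
    Wl.tame_of (tame_res hT) hf'⟩, s2, fun g => (s3 g).trans (hd g), ?_⟩
  obtain ⟨m, hm, e⟩ := hodd.pow f ho
  have := hf' (⟨L.g0 l, (hL.reg l hl).1⟩ ^ m) 1 (by
    rw [Subgroup.coe_pow, map_pow, e, Subgroup.coe_one, map_one])
  rw [map_pow, map_one] at this
  exact ⟨m, hm, congrArg Prod.fst this, congrArg Prod.snd this⟩

/-- **the relations in every test ring** -/
theorem ringF [IsLocalRing O] [CharP F 2] (hc : Wc S L l e u v) (hL : OkF L S) (hl : l ∈ L.W)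
    (h : Ts S L ι π t d) :
    (t (L.g0 l) = ι (L.r (L.g0 l)).trace ∧ d (L.g0 l) = ι (L.r (L.g0 l)).det) ∧
    (L.τ l ∉ L.Hl l → t (L.τ l) = ι (L.r (L.τ l)).trace ∧
      t (L.τ l * L.g0 l) = ι (L.r (L.τ l * L.g0 l)).trace) ∧
    (L.τ l ∈ L.Hl l → ∀ y : Fin 2 → A, y = yW L l e u v ι t →
      (∀ i, π (y i) = 1) ∧ d (L.τ l) = y 0 * y 1 * ι (L.r (L.τ l)).det ∧
      (L.φ l ∈ L.Hl l → ∀ a m, Odd m → l = 2 ^ a * m + 1 → ∀ i, y i ^ 2 ^ a = 1) ∧
      (L.φ l ∉ L.Hl l → y 1 = y 0 ^ l ∧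
        ∀ c m, Odd m → l ^ 2 = 2 ^ c * m + 1 → y 0 ^ 2 ^ c = 1)) := by
  obtain ⟨σ1, N, m1, m2, hP, t1, d1, o⟩ := h.pr hL hl hc.odd
  set g0 : dec (L.P l) := ⟨L.g0 l, (hL.reg l hl).1⟩ with hg0
  set τ : dec (L.P l) := ⟨L.τ l, m1⟩ with hτ0
  have he : W.Tm π (L.rr S l) g0 fun i => ι (e i) := by
    obtain ⟨m, hm, k⟩ := hc.tm
    exact ⟨m, hm, fun i => ⟨by rw [← map_pow, (k i).1, map_one], by rw [h.alg, (k i).2]; rfl⟩⟩
  have o1 : ∃ m, Odd m ∧ σ1 g0 ^ m = 1 := o.imp fun m hm => ⟨hm.1, hm.2.1⟩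
  have o2 : ∃ m, Odd m ∧ L.rs l ι (rA L ι) g0 ^ m = 1 := o.imp fun m hm => ⟨hm.1, hm.2.2⟩
  have T1 := hP.T.comp (MonoidHom.fst _ _)
  have T2 := hP.T.comp (MonoidHom.snd _ _)
  have hD := hP.T.ID hP.T.tau
  have t2 : ∀ g : dec (L.P l), trc (L.rs l ι (rA L ι)) g = ι (L.r g).trace := fun g =>
    (L.rs_tr l ι _ g).trans (rA_tr _)
  have d2 : ∀ g : dec (L.P l), dtm (L.rs l ι (rA L ι)) g = ι (L.r g).det := fun g =>
    (L.rs_dt l ι _ g).trans (rA_dt _)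
  have k0 : ∀ {σ : dec (L.P l) →* M2 A}, Lift π (L.rr S l) σ →
      TameAt l ⊤ ((inP (L.P l)).subgroupOf (dec (L.P l))) N τ ⟨L.φ l, m2⟩ σ →
      (∃ m, Odd m ∧ σ g0 ^ m = 1) →
      trc σ g0 = ι (e 0) + ι (e 1) ∧ dtm σ g0 = ι (e 0) * ι (e 1) := by
    intro σ hσ hT o
    obtain ⟨P, Q, h1, h2, hP', hM⟩ := exists_mon hP.W hP.A hσ hT
    have eg := hM.eig hP.W hP.A (hσ.cj h1 h2 hP') he (o.imp fun m hm => ⟨hm.1, by
      rw [MonoidHom.comp_apply, ← map_pow, hm.2, map_one]⟩)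
    rw [← trc_cj σ P Q h1 h2, ← dtm_cj σ P Q h1 h2]
    simp only [trc, dtm, Matrix.trace_fin_two, Matrix.det_fin_two, eg,
      hM.off _ hP.W.g0D hP.W.g0H 0 1 (by decide), zero_mul, sub_zero, and_self]
  refine ⟨?_, fun hτ => ?_, fun hτ y hy => ?_⟩
  · exact ⟨(t1 g0).symm.trans ((k0 hP.l1 T1 o1).1.trans ((k0 hP.l2 T2 o2).1.symm.trans (t2 g0))),
      (d1 g0).symm.trans ((k0 hP.l1 T1 o1).2.trans ((k0 hP.l2 T2 o2).2.symm.trans (d2 g0)))⟩
  · obtain ⟨a1, a2⟩ := (dd_lin hP.W hP.A hP.l1 T1 he o1 hD).2.2 hτ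
    obtain ⟨b1, b2⟩ := (dd_lin hP.W hP.A hP.l2 T2 he o2 hD).2.2 hτ
    refine ⟨(t1 τ).symm.trans (a1.trans (b1.symm.trans (t2 τ))), ?_⟩
    have c : ∀ σ : dec (L.P l) →* M2 A, trc σ (τ * g0) = trc σ (g0 * τ) := fun σ => by
      simp only [trc, map_mul]; exact Matrix.trace_mul_comm _ _
    exact (t1 (τ * g0)).symm.trans ((c _).trans (a2.trans (b2.symm.trans
      ((c _).symm.trans (t2 (τ * g0))))))
  · have k : y = yy π (L.rr S l g0 0 0) g0 τ (trc σ1) (dtm σ1)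
        (trc (L.rs l ι (rA L ι))) (dtm (L.rs l ι (rA L ι))) := by
      funext i
      have c := congrArg ι (hc.chi hτ i)
      have q2 := th_dd (dec (L.P l)).subtype (t := fun g => ι (L.r g).trace) t2 hP.W hP.A hP.l2 T2
        he hc.inv o2 hD hτ i
      have q1 := th_dd (dec (L.P l)).subtype (t := t) t1 hP.W hP.A hP.l1 T1
        he hc.inv o1 hD hτ i
      rw [map_mul, map_one, th_map ι (ι' := ι) (t' := fun g => ι (L.r g).trace) (fun _ => rfl)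
        (fun g => rfl)] at c
      erw [q2] at c
      rw [hy, yy]
      erw [← q1]
      rw [yW, mul_comm]
      congr 1
      have hu := IsUnit.of_mul_eq_one_right _ c
      apply hu.mul_right_cancel
      rw [c]
      exact (Ring.inverse_mul_cancel _ hu).symm
    obtain ⟨p1, p2, -, p4, p5⟩ := hP.unr hτ y k
    rw [d1, d2] at p2
    exact ⟨p1, p2, p4, p5⟩

/-- the normalised determinant of `τ` has order dividing the `2`-part of `l - 1` -/
theorem Ts.dl [IsLocalRing O] [CharP F 2] (hc : Wc S L l e u v) (hL : OkF L S) (hl : l ∈ L.W)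
    (h : Ts S L ι π t d) {a m : ℕ} (hm : Odd m) (ha : l = 2 ^ a * m + 1) {x : O}
    (hx : x * (L.r (L.τ l)).det = 1) : (d (L.τ l) * ι x) ^ 2 ^ a = 1 := by
  have hτ := hL.all l hl _ (inP_le_dec (hL.tm l (Finset.mem_union_left _ hl)).tau)
  have hφ := hL.all l hl _ (phi_mem (hL.pr l (Finset.mem_union_left _ hl)).1
    (hL.hP l (Finset.mem_union_left _ hl)).1 (hL.tm l (Finset.mem_union_left _ hl)).frob)
  obtain ⟨-, b2, b3, -⟩ := (ringF hc hL hl h).2.2 hτ _ rfl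
  have hx' := congrArg ι hx
  rw [map_mul, map_one] at hx'
  rw [b2, mul_assoc, mul_comm _ (ι x), hx', mul_one, mul_pow, b3 hφ a m hm ha, b3 hφ a m hm ha,
    mul_one]

/-- **WLOC**, ring level -/
theorem wloc [IsLocalRing O] [CharP F 2] (hc : Wc S L l e u v) (hL : OkF L S) (hl : l ∈ L.W)
    {a b m w : ℕ} (hm : Odd m) (hw : Odd w) (ha : l = 2 ^ a * m + 1) (hb : l + 1 = 2 ^ b * w)
    {x : O} (hx : x * (L.r (L.τ l)).det = 1) (h : Ts S L ι π t d) :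
    WRel L l a b x (cW e u v) (zW L l e u) ι t d Eq
      (yW L l e u v ι t 0) (yW L l e u v ι t 1)
      (d (L.τ l) * ι x) := by
  obtain ⟨⟨a1, a2⟩, a3, a4⟩ := ringF hc hL hl h
  have hx' := congrArg ι hx
  rw [map_mul, map_one] at hx'
  have d : L.τ l ∈ L.Hl l → d (L.τ l) * ι x = yW L l e u v ι t 0 *
      yW L l e u v ι t 1 := fun hτ => by
    rw [(a4 hτ _ rfl).2.1, mul_assoc, mul_comm _ (ι x), hx', mul_one]
  refine ⟨(yW_c _ _).1, (yW_c _ _).2, rfl, a1, a2,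
    h.dl hc hL hl hm ha hx,
    fun hτ => hc.t_eq hτ ι t,
    fun hτ hφ => ?_, fun hτ hφ => ?_, a3⟩
  · have := (a4 hτ _ rfl).2.2.1 hφ a m hm ha
    exact ⟨this 0, this 1, d hτ⟩
  · obtain ⟨b1, b2⟩ := (a4 hτ _ rfl).2.2.2 hφ
    exact ⟨b2 _ _ (hm.mul hw) (sq_two ha hb), b1, by rw [d hτ, b1, pow_succ']⟩

end ring

open Vale.Agent.P022E.As (Tg cc tt yy ev0 Gp0 yT)

variable {a : Ideal (Tg O)}

/-- the test ring of a good ideal -/
theorem tstF [IsLocalRing O] (hL : OkF L S) (h : Gp0 L.r a) (ha : a ≠ ⊤) :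
    ∃ π : Tg O ⧸ a →+* F, Ts S L ((Ideal.Quotient.mk a).comp MvPolynomial.C) π
      (fun g => Ideal.Quotient.mk a (tt g)) fun g => Ideal.Quotient.mk a (As.dd g) := by
  have un : ∀ b, S.red (ev0 L.r b) ≠ 0 → IsUnit (Ideal.Quotient.mk a b) := by
    intro b hb
    have h1 : IsUnit (ev0 L.r b) := by
      by_contra hn
      exact hb ((hL.ker _).2 hn)
    obtain ⟨k, hk⟩ := h.rad b
    have h2 : IsNilpotent (Ideal.Quotient.mk a (b - cc (ev0 L.r b))) :=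
      ⟨k, by rw [← map_pow]; exact Ideal.Quotient.eq_zero_iff_mem.2 hk⟩
    have h3 := h2.isUnit_add_right_of_commute
      ((h1.map (MvPolynomial.C (σ := GQ ⊕ GQ ⊕ ℕ))).map (Ideal.Quotient.mk a)) (Commute.all _ _)
    rwa [← map_add, cc, sub_add_cancel] at h3
  let π : Tg O ⧸ a →+* F := Ideal.Quotient.lift a (S.red.comp (ev0 L.r)) fun b hb => by
    by_contra hn
    have := un b hn
    rw [Ideal.Quotient.eq_zero_iff_mem.2 hb, isUnit_zero_iff, Ideal.Quotient.zero_eq_one_iff] at this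
    exact ha this
  have loc : ∀ x, π x ≠ 0 → IsUnit x := fun x => by
    obtain ⟨x, rfl⟩ := Ideal.Quotient.mk_surjective x
    exact un x
  have alg : ∀ c, π (((Ideal.Quotient.mk a).comp MvPolynomial.C) c) = S.red c := fun c => by
    show S.red (ev0 L.r (MvPolynomial.C c)) = _
    simp [ev0]
  have := h.fin
  let d' : GQ →* Tg O ⧸ a := ⟨⟨fun g => Ideal.Quotient.mk a (As.dd g), Ideal.Quotient.eq.2 h.d1⟩,
    fun g k => Ideal.Quotient.eq.2 (h.dm g k)⟩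
  obtain ⟨U, hU, hu⟩ := h.opn
  refine ⟨π, W.LR.of_finite π loc, alg, ⟨d'.toHomUnits,
    ⟨(Ideal.Quotient.eq.2 h.t1).trans (map_ofNat _ 2), fun g k => Ideal.Quotient.eq.2 (h.tc g k),
      fun g k => Ideal.Quotient.eq.2 (h.tm g k)⟩, fun _ => rfl⟩, fun g => ?_, fun g => ?_,
    U, hU, fun u k g => Ideal.Quotient.eq.2 (hu u k g)⟩
  · show S.red (ev0 L.r (tt g)) = _
    rw [show ev0 L.r (tt g) = (L.r g).trace by simp [ev0, tt]]
    exact (W.trc_map S.red (ρ := L.r) (ρ' := rbm S) hL.lift g).symm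
  · show S.red (ev0 L.r (As.dd g)) = _
    rw [show ev0 L.r (As.dd g) = (L.r g).det by simp [ev0, As.dd]]
    exact (W.dtm_map S.red (ρ := L.r) (ρ' := rbm S) hL.lift g).symm

/-- **the relations modulo a good ideal** -/
theorem relF [IsLocalRing O] [CharP F 2] (hc : Wc S L l e u v) (hL : OkF L S) (hl : l ∈ L.W)
    (h : Gp0 L.r a) :
    (tt (L.g0 l) - cc (L.r (L.g0 l)).trace ∈ a ∧ As.dd (L.g0 l) - cc (L.r (L.g0 l)).det ∈ a) ∧
    (L.τ l ∉ L.Hl l → tt (L.τ l) - cc (L.r (L.τ l)).trace ∈ a ∧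
      tt (L.τ l * L.g0 l) - cc (L.r (L.τ l * L.g0 l)).trace ∈ a) ∧
    (L.τ l ∈ L.Hl l → (∀ i, ∃ k : ℕ, (yT L l e u v i - 1) ^ k ∈ a) ∧
      As.dd (L.τ l) - yT L l e u v 0 * yT L l e u v 1 * cc (L.r (L.τ l)).det ∈ a ∧
      (L.φ l ∈ L.Hl l → ∀ n m, Odd m → l = 2 ^ n * m + 1 → ∀ i, yT L l e u v i ^ 2 ^ n - 1 ∈ a) ∧
      (L.φ l ∉ L.Hl l → yT L l e u v 1 - yT L l e u v 0 ^ l ∈ a ∧
        ∀ c m, Odd m → l ^ 2 = 2 ^ c * m + 1 → yT L l e u v 0 ^ 2 ^ c - 1 ∈ a)) := by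
  by_cases ha : a = ⊤
  · subst ha
    simp
  obtain ⟨π, hT⟩ := tstF hL h ha
  obtain ⟨⟨a1, a2⟩, a3, a4⟩ := ringF hc hL hl hT
  have hy : ∀ i, Ideal.Quotient.mk a (yT L l e u v i) =
      yW L l e u v ((Ideal.Quotient.mk a).comp MvPolynomial.C) (fun g => Ideal.Quotient.mk a (tt g)) i :=
    yW_map (Ideal.Quotient.mk a) (fun _ => rfl) (fun g => rfl) L l e u v
  simp only [← Ideal.Quotient.eq, map_mul (Ideal.Quotient.mk a), map_pow (Ideal.Quotient.mk a),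
    map_one (Ideal.Quotient.mk a)]
  refine ⟨⟨a1, a2⟩, a3, fun hτ => ?_⟩
  obtain ⟨b1, b2, b3, b4⟩ := a4 hτ _ (funext hy)
  refine ⟨fun i => ?_, b2, b3, b4⟩
  obtain ⟨k, hk⟩ := hT.lr.isNilpotent (a := Ideal.Quotient.mk a (yT L l e u v i - 1)) (by
    rw [map_sub, map_sub, b1, map_one, map_one, sub_self])
  exact ⟨k, Ideal.Quotient.eq_zero_iff_mem.1 (by rw [map_pow, hk])⟩

/-- **after the cut the class conditions hold** -/
theorem clsF [IsLocalRing O] [CharP F 2] {e v : ℕ → Fin 2 → O} {u : ℕ → O}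
    (hc : ∀ l ∈ L.W, Wc S L l (e l) (u l) (v l)) (hL : OkF L S) (h : Gp0 L.r a)
    (hy : ∀ l ∈ L.W, L.τ l ∈ L.Hl l → ∀ i, yT L l (e l) (u l) (v l) i - 1 ∈ a)
    (h2 : ∀ g ∈ W.dec (L.P 2), As.dd g - cc (L.r g).det ∈ a) (h0 : As.dd L.c + 1 ∈ a)
    (hC : ∀ l ∈ L.C, As.dd (L.τ l) - cc (L.r (L.τ l)).det ∈ a)
    (hW : ∀ l ∈ L.W, L.τ l ∉ L.Hl l → As.dd (L.τ l) - cc (L.r (L.τ l)).det ∈ a) :
    (∀ g ∈ L.TT, tt g - cc (L.r g).trace ∈ a) ∧ ∀ g ∈ L.DD, As.dd g - cc (L.r g).det ∈ a := by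
  constructor
  · rintro g ⟨l, hl, hg⟩
    obtain ⟨⟨a1, -⟩, a3, -⟩ := relF (hc l hl) hL hl h
    have key : tt (L.τ l) - cc (L.r (L.τ l)).trace ∈ a ∧
        tt (L.τ l * L.g0 l) - cc (L.r (L.τ l * L.g0 l)).trace ∈ a := by
      by_cases hτ : L.τ l ∈ L.Hl l
      · have := (hc l hl).cut hτ (X := Tg O ⧸ a) MvPolynomial.C tt (w := Ideal.Quotient.mk a 1)
          fun i => Ideal.Quotient.eq.2 (by simpa [yT] using hy l hl hτ i)
        exact ⟨by simpa [cc] using Ideal.Quotient.eq.1 this.1,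
          by simpa [cc] using Ideal.Quotient.eq.1 this.2⟩
      · exact a3 hτ
    rcases hg with rfl | rfl | rfl
    exacts [key.1, key.2, a1]
  · rintro g (hg | rfl | ⟨l, hl, rfl⟩ | ⟨l, hl, rfl⟩)
    · exact h2 g hg
    · rw [hL.odd]
      simpa [cc] using h0
    · rcases Finset.mem_union.1 hl with hl | hl
      · by_cases hτ : L.τ l ∈ L.Hl l
        · have b := ((relF (hc l hl) hL hl h).2.2 hτ).2.1
          have := a.add_mem b (a.mul_mem_right (cc (L.r (L.τ l)).det) (a.add_mem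
            (a.mul_mem_right (yT L l (e l) (u l) (v l) 1) (hy l hl hτ 0)) (hy l hl hτ 1)))
          convert this using 1; ring
        · exact hW l hl hτ
      · exact hC l hl
    · exact (relF (hc l hl) hL hl h).1.2

/-- **WLOC** modulo a good ideal of the ring of symbols -/
theorem wlocI [IsLocalRing O] [CharP F 2] (hc : Wc S L l e u v) (hL : OkF L S) (hl : l ∈ L.W)
    {a b m w : ℕ} (hm : Odd m) (hw : Odd w) (ha : l = 2 ^ a * m + 1) (hb : l + 1 = 2 ^ b * w)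
    {x : O} (hx : x * (L.r (L.τ l)).det = 1) {I : Ideal (Tg O)} (h : Gp0 L.r I) :
    WRel L l a b x (cW e u v) (zW L l e u) MvPolynomial.C tt As.dd (fun p q => p - q ∈ I)
      (yT L l e u v 0) (yT L l e u v 1) (As.dd (L.τ l) * cc x) := by
  by_cases hI : I = ⊤
  · subst hI
    exact ⟨(yW_c _ _).1, (yW_c _ _).2, rfl, trivial, trivial, trivial, fun hτ => hc.t_eq hτ _ _,
      fun _ _ => ⟨trivial, trivial, trivial⟩, fun _ _ => ⟨trivial, trivial, trivial⟩,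
      fun _ => ⟨trivial, trivial⟩⟩
  obtain ⟨π, hT⟩ := tstF hL h hI
  have k := wloc hc hL hl hm hw ha hb hx hT
  have hy : ∀ i, yW L l e u v ((Ideal.Quotient.mk I).comp MvPolynomial.C) (fun g => Ideal.Quotient.mk I (tt g)) i
      = Ideal.Quotient.mk I (yT L l e u v i) := fun i =>
    (yW_map (Ideal.Quotient.mk I) (fun _ => rfl) (fun g => rfl) L l e u v i).symm
  rw [hy, hy] at k
  have q : ∀ {p q : Tg O}, Ideal.Quotient.mk I p = Ideal.Quotient.mk I q → p - q ∈ I :=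
    Ideal.Quotient.eq.1
  refine ⟨(yW_c _ _).1, (yW_c _ _).2, rfl, q k.tg, q k.dg,
    q k.dl_pow, fun hτ => hc.t_eq hτ _ _, fun h1 h2 => ?_, fun h1 h2 => ?_, fun h1 => ?_⟩
  · obtain ⟨b1, b2, b3⟩ := k.split h1 h2
    exact ⟨q b1, q b2, q b3⟩
  · obtain ⟨b1, b2, b3⟩ := k.inert h1 h2
    exact ⟨q b1, q b2, q b3⟩
  · obtain ⟨b1, b2⟩ := k.ram h1
    exact ⟨q b1, q b2⟩

/-- **WLOC** on a vector of a module over the ring of symbols -/
theorem wlocM [IsLocalRing O] [CharP F 2] (hc : Wc S L l e u v) (hL : OkF L S) (hl : l ∈ L.W)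
    {a b m w : ℕ} (hm : Odd m) (hw : Odd w) (ha : l = 2 ^ a * m + 1) (hb : l + 1 = 2 ^ b * w)
    {x : O} (hx : x * (L.r (L.τ l)).det = 1) {Y : Type*} [AddCommGroup Y] [Module (Tg O) Y]
    {y : Y} (h : Gp0 L.r (Ideal.torsionOf (Tg O) Y y)) :
    WRel L l a b x (cW e u v) (zW L l e u) MvPolynomial.C tt As.dd (fun p q => p • y = q • y)
      (yT L l e u v 0) (yT L l e u v 1) (As.dd (L.τ l) * cc x) :=
  (wlocI hc hL hl hm hw ha hb hx h).imp fun p q k => by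
    rwa [Ideal.mem_torsionOf_iff, sub_smul, sub_eq_zero] at k

/-- the determinant at any odd prime of the level, on a vector -/
theorem dlM [IsLocalRing O] [CharP F 2] (hc : Wc S L l e u v) (hL : OkF L S) (hl : l ∈ L.W)
    {a m : ℕ} (hm : Odd m) (ha : l = 2 ^ a * m + 1) {x : O} (hx : x * (L.r (L.τ l)).det = 1)
    {Y : Type*} [AddCommGroup Y] [Module (Tg O) Y] {y : Y}
    (h : Gp0 L.r (Ideal.torsionOf (Tg O) Y y)) :
    ((As.dd (L.τ l) * cc x) ^ 2 ^ a : Tg O) • y = y := by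
  obtain ⟨b, w, hw, hb⟩ := Nat.exists_eq_two_pow_mul_odd (Nat.succ_ne_zero l)
  exact (wlocM hc hL hl hm hw ha hb hx h).dl_pow.trans (one_smul _ _)

end Vale.Agent.P022F.WR
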