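import Vale.Agent.P022F.Gen

/-!
P022F: the good quotients are generated by two traces (Nakayama).
-/

set_option linter.all false

open IsLocalRing NumberField TrivSqZeroExt

noncomputable section

namespace Vale.Agent.P022F.Gen

open Vale.Agent.P022 Vale.Agent.P022D
open Vale.Agent.P022E.As (Tg cc tt dd yy ev0 mT Gw)
open Vale.Agent.P022E.Loc (Pl)

/-- a nilpotent ideal which is generated by `J` modulo its square -/
theorem le_of_sq {R : Type} [CommRing R] {m J : Ideal R} (hm : ∃ k : ℕ, m ^ k ≤ J)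
    (h : m ≤ J ⊔ m ^ 2) : m ≤ J := by
  have key : ∀ k : ℕ, m ≤ J ⊔ m ^ (k + 1) := fun k => by
    induction k with
    | zero => rw [zero_add, pow_one]; exact le_sup_right
    | succ k ih =>
      refine h.trans (sup_le le_sup_left ?_)
      calc m ^ 2 = m * m := sq m
        _ ≤ m * (J ⊔ m ^ (k + 1)) := Ideal.mul_mono_right ih
        _ ≤ J ⊔ m ^ (k + 1 + 1) := by
          rw [Ideal.mul_sup, ← pow_succ']
          exact sup_le_sup_right Ideal.mul_le_right _
  obtain ⟨k, hk⟩ := hm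
  exact (key k).trans (sup_le le_rfl ((Ideal.pow_le_pow_right (Nat.le_succ k)).trans hk))

/-- points with values in the dual numbers detect the cotangent space -/
theorem dual {O F R : Type} [CommRing O] [Field F] [CommRing R] (red : O →+* F)
    (hs : Function.Surjective red) (ι : O →+* R) (π : R →+* F) (hπ : ∀ c, π (ι c) = red c)
    (I : Ideal R) (hI : I ≤ RingHom.ker π) (h2 : RingHom.ker π ^ 2 ≤ I)
    (h0 : ∀ c, red c = 0 → ι c ∈ I) {u : R} (hu : π u = 0) (hn : u ∉ I) :
    ∃ φ : R →+* DualNumber F, (∀ v ∈ I, φ v = 0) ∧ (∀ c, φ (ι c) = inl (red c)) ∧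
      (φ u).snd ≠ 0 := by
  let j : F →+* R ⧸ I := red.liftOfSurjective hs ⟨(Ideal.Quotient.mk I).comp ι, fun c hc =>
    Ideal.Quotient.eq_zero_iff_mem.2 (h0 c hc)⟩
  have hj : ∀ c, j (red c) = Ideal.Quotient.mk I (ι c) := fun c =>
    red.liftOfSurjective_comp_apply hs _ c
  letI : Algebra F (R ⧸ I) := j.toAlgebra
  obtain ⟨l, hl⟩ : ∃ l : Module.Dual F (R ⧸ I), l (Ideal.Quotient.mk I u) ≠ 0 := by
    by_contra h
    push Not at h
    exact hn (Ideal.Quotient.eq_zero_iff_mem.1 ((Module.forall_dual_apply_eq_zero_iff F _).1 h))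
  let n : R → R ⧸ I := fun v => Ideal.Quotient.mk I v - j (π v)
  have nn : ∀ v w, n v * n w = 0 := fun v w => by
    obtain ⟨c, hc⟩ := hs (π v)
    obtain ⟨e, he⟩ := hs (π w)
    show (Ideal.Quotient.mk I v - j (π v)) * (Ideal.Quotient.mk I w - j (π w)) = 0
    rw [← hc, ← he, hj, hj, ← map_sub, ← map_sub, ← map_mul, Ideal.Quotient.eq_zero_iff_mem]
    refine h2 ?_
    rw [sq]
    exact Ideal.mul_mem_mul (by rw [RingHom.mem_ker, map_sub, hπ, hc, sub_self])
      (by rw [RingHom.mem_ker, map_sub, hπ, he, sub_self])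
  have nm : ∀ v w, n (v * w) = π v • n w + π w • n v := fun v w => by
    have := nn v w
    simp only [n, Algebra.smul_def, map_mul, RingHom.algebraMap_toAlgebra] at this ⊢
    linear_combination this
  refine ⟨{ toFun := fun v => inl (π v) + inr (l (n v))
            map_one' := ?_, map_mul' := fun v w => ?_, map_zero' := ?_
            map_add' := fun v w => ?_ }, fun v hv => ?_, fun c => ?_, ?_⟩
  · simp [n]
  · ext
    · simp
    · simp only [DualNumber.snd_mul, fst_add, snd_add, fst_inl, fst_inr, snd_inl, snd_inr, add_zero,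
        zero_add, nm, map_add, map_smul, smul_eq_mul]
      ring
  · simp [n]
  · have : n (v + w) = n v + n w := by simp only [n, map_add]; ring
    ext <;> simp [this]
  · have h1 : π v = 0 := hI hv
    simp [n, h1, Ideal.Quotient.eq_zero_iff_mem.2 hv]
  · simp [n, hπ, hj]
  · simpa [n, hu] using hl

variable {O F : Type} [CommRing O] [IsLocalRing O] [Field F] [CharP F 2] {red : O →+* F}
  {L : Pl O} {T : Finset ℕ} {χ ψ : GQ →* Fˣ} {ϖ : O}

/-- **GEN** -/
theorem gen (H : Hy red L T χ ψ) (hϖ : maximalIdeal O = Ideal.span {ϖ}) : ∃ g₁ g₂ : GQ,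
    ∀ a : Ideal (Tg O), Gw ϖ L T ∅ 0 a → ∀ p : Tg O, ∃ f : MvPolynomial (Fin 2) O,
      p - MvPolynomial.aeval ![tt g₁ - cc (L.r g₁).trace, tt g₂ - cc (L.r g₂).trace] f ∈ a := by
  obtain ⟨g₁, g₂, hg⟩ := tanG (ϖ := ϖ) H
  refine ⟨g₁, g₂, fun a h => ?_⟩
  set X : Fin 2 → Tg O := ![tt g₁ - cc (L.r g₁).trace, tt g₂ - cc (L.r g₂).trace] with hX
  by_cases ha : a = ⊤
  · exact fun p => ⟨0, by rw [ha]; trivial⟩
  let π : Tg O →+* F := red.comp (ev0 L.r)
  have hm : RingHom.ker π = mT L.r := Ideal.ext fun u => H.ker _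
  have hr : mT L.r ≤ a.radical := fun b hb => P022E.As.Bas.rad h hϖ hb
  have hmax : (mT L.r).IsMaximal := by
    rw [← hm]
    exact RingHom.ker_isMaximal_of_surjective π fun x => by
      obtain ⟨c, rfl⟩ := H.surj x
      exact ⟨cc c, congrArg red (As.ev0_cc _ c)⟩
  have ham : a ≤ mT L.r := by
    rw [hmax.eq_of_le (fun e => ha (Ideal.radical_eq_top.1 e)) hr]
    exact Ideal.le_radical
  have hk : ∃ k : ℕ, mT L.r ^ k ≤ a := by
    have := h.fin
    obtain ⟨k, hk⟩ : IsNilpotent (nilradical (Tg O ⧸ a)) := IsNoetherianRing.isNilpotent_nilradical _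
    refine ⟨k, ?_⟩
    rw [← Ideal.mk_ker (I := a), ← Ideal.map_eq_bot_iff_le_ker, Ideal.map_pow, eq_bot_iff]
    refine le_trans (Ideal.pow_right_mono ?_ k) hk.le
    rw [Ideal.map_le_iff_le_comap]
    intro b hb
    obtain ⟨n, hn⟩ := hr hb
    exact ⟨n, by rw [← map_pow]; exact Ideal.Quotient.eq_zero_iff_mem.2 hn⟩
  let K : Ideal (Tg O) := Ideal.span {cc ϖ, X 0, X 1}
  have hϖm : ϖ ∈ maximalIdeal O := hϖ ▸ Ideal.mem_span_singleton_self ϖ
  have hK : K ≤ mT L.r := by
    rw [Ideal.span_le]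
    rintro _ (rfl | rfl | rfl)
    · show ev0 L.r (cc ϖ) ∈ maximalIdeal O
      rwa [As.ev0_cc]
    · show ev0 L.r (tt g₁ - cc _) ∈ maximalIdeal O
      rw [map_sub, As.ev0_cc, As.ev0_tt, sub_self]; exact zero_mem _
    · show ev0 L.r (tt g₂ - cc _) ∈ maximalIdeal O
      rw [map_sub, As.ev0_cc, As.ev0_tt, sub_self]; exact zero_mem _
  have hJ : mT L.r ≤ a ⊔ K := le_of_sq (hk.imp fun k e => e.trans le_sup_left) fun u hu => by
    by_contra hn
    obtain ⟨φ, h1, h2, h3⟩ := dual red H.surj MvPolynomial.C π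
      (fun c => congrArg red (As.ev0_cc _ c)) (a ⊔ K ⊔ mT L.r ^ 2)
      (by rw [hm]; exact sup_le (sup_le ham hK) (Ideal.pow_le_self two_ne_zero))
      (by rw [hm]; exact le_sup_right)
      (fun c hc => by
        obtain ⟨e, rfl⟩ := Ideal.mem_span_singleton'.1 (hϖ ▸ (H.ker c).1 hc)
        rw [map_mul]
        exact Ideal.mul_mem_left _ _ (Ideal.mem_sup_left (Ideal.mem_sup_right
          (Ideal.subset_span (Or.inl rfl))))) ((H.ker _).2 hu) hn
    have z : ∀ {g : GQ}, tt g - cc (L.r g).trace ∈ K → (φ (tt g)).snd = 0 := fun hx => by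
      have := h1 _ (Ideal.mem_sup_left (Ideal.mem_sup_right hx))
      rw [map_sub, sub_eq_zero] at this
      rw [this, show φ (cc _) = _ from h2 _, snd_inl]
    exact h3 (hg a h φ (fun v hv => h1 v (Ideal.mem_sup_left (Ideal.mem_sup_left hv))) h2
      (z (Ideal.subset_span (Or.inr (Or.inl rfl)))) (z (Ideal.subset_span (Or.inr (Or.inr rfl)))) u)
  have key : ∀ (k : ℕ) (p : Tg O), ∃ f : MvPolynomial (Fin 2) O,
      p - MvPolynomial.aeval X f ∈ a ⊔ mT L.r ^ k := fun k => by
    induction k with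
    | zero => exact fun p => ⟨0, Ideal.mem_sup_right (by rw [pow_zero, Ideal.one_eq_top]; trivial)⟩
    | succ k ih =>
      intro p
      have h1 : p - cc (ev0 L.r p) ∈ mT L.r := by
        show ev0 L.r (p - cc _) ∈ maximalIdeal O
        rw [map_sub, As.ev0_cc, sub_self]; exact zero_mem _
      obtain ⟨v, hv, w, hw, e⟩ := Submodule.mem_sup.1 (hJ h1)
      obtain ⟨b0, w1, hw1, rfl⟩ := Ideal.mem_span_insert.1 hw
      obtain ⟨b1, b2, rfl⟩ := Ideal.mem_span_pair.1 hw1
      obtain ⟨f0, e0⟩ := ih b0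
      obtain ⟨f1, e1⟩ := ih b1
      obtain ⟨f2, e2⟩ := ih b2
      have st : ∀ {x y : Tg O}, x ∈ a ⊔ mT L.r ^ k → y ∈ K → x * y ∈ a ⊔ mT L.r ^ (k + 1) :=
        fun hx hy => by
          obtain ⟨x1, a1, x2, a2, rfl⟩ := Submodule.mem_sup.1 hx
          rw [add_mul, pow_succ]
          exact add_mem (Ideal.mem_sup_left (Ideal.mul_mem_right _ _ a1))
            (Ideal.mem_sup_right (Ideal.mul_mem_mul a2 (hK hy)))
      refine ⟨MvPolynomial.C (ev0 L.r p) + (f0 * MvPolynomial.C ϖ + (f1 * MvPolynomial.X 0 +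
        f2 * MvPolynomial.X 1)), ?_⟩
      have e3 : p - MvPolynomial.aeval X (MvPolynomial.C (ev0 L.r p) + (f0 * MvPolynomial.C ϖ +
          (f1 * MvPolynomial.X 0 + f2 * MvPolynomial.X 1))) =
          v + ((b0 - MvPolynomial.aeval X f0) * cc ϖ + ((b1 - MvPolynomial.aeval X f1) * X 0 +
            (b2 - MvPolynomial.aeval X f2) * X 1)) := by
        simp only [map_add, map_mul, MvPolynomial.aeval_C, MvPolynomial.aeval_X,
          MvPolynomial.algebraMap_eq]
        simp only [cc] at e ⊢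
        linear_combination -e
      rw [e3]
      exact add_mem (Ideal.mem_sup_left hv) (add_mem (st e0 (Ideal.subset_span (Or.inl rfl)))
        (add_mem (st e1 (Ideal.subset_span (Or.inr (Or.inl rfl))))
          (st e2 (Ideal.subset_span (Or.inr (Or.inr rfl))))))
  obtain ⟨k, hk⟩ := hk
  exact fun p => (key k p).imp fun f e => sup_le le_rfl hk e

end Vale.Agent.P022F.Gen
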