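import Vale.Agent.P022F.Wl
import Vale.Agent.P022E.W.Loc

/-!
P022F: the local data of a representation which is residually triangular.
-/

set_option linter.all false

noncomputable section

namespace Vale.Agent.P022F

open NumberField IsLocalRing
open Vale.Agent.P022 Vale.Agent.P022.H443 Vale.Agent.P022D Vale.Agent.P022D.R Vale.Agent.P022D.W
open Vale.Agent.P027M.S (mx)
open Vale.Agent.P022D.Sel (M2 IsDec)
open Vale.Agent.P022E.Loc (Pl Rt En Wc th th_map open_of rbm ex_ty tame_res UniF)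

variable {O F : Type} [CommRing O] [Field F]

/-- the residual representation has open kernel -/
structure DhF (ρ : GQ →* GL (Fin 2) F) : Prop where
  opn : IsOpen {g : GQ | ρ g = 1}

/-- the hypotheses on the data -/
structure OkF [IsLocalRing O] (L : Pl O) (S : Dat O F) : Prop where
  ker : ∀ c, S.red c = 0 ↔ c ∈ maximalIdeal O
  dh : DhF S.rb
  lo : ∀ g, mx S.rb g 1 0 = 0
  hC : L.C = ∅
  all : ∀ l ∈ L.W, ∀ g ∈ W.dec (L.P l), g ∈ L.Hl l
  det : ∀ g, (mx S.rb g).det = 1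
  hT : S.T = insert 0 (insert 2 (L.W ∪ L.C))
  dj : Disjoint L.W L.C
  pr : ∀ l ∈ L.W ∪ L.C, l.Prime ∧ l ≠ 2
  hP : ∀ l ∈ L.W ∪ L.C, (L.P l).IsPrime ∧ (l : 𝓞 Qb) ∈ L.P l
  h2 : L.P 2 = Loc2.PP 2
  cj : IsConj L.c
  tm : ∀ l ∈ L.W ∪ L.C, P022E.Loc.Tm l (L.P l) (L.τ l) (L.φ l)
  dg : ∀ l ∈ L.W, ∀ g ∈ L.Hl l, L.rb S l g 0 1 = 0 ∧ L.rb S l g 1 0 = 0
  ad : ∀ l ∈ L.W, ∀ g ∈ W.dec (L.P l), g ∉ L.Hl l → L.rb S l g 0 0 = 0 ∧ L.rb S l g 1 1 = 0
  reg : ∀ l ∈ L.W, L.g0 l ∈ W.dec (L.P l) ∧ L.g0 l ∈ L.Hl l ∧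
    L.rb S l (L.g0 l) 0 0 ≠ L.rb S l (L.g0 l) 1 1
  uni : ∀ l ∈ L.C, ∀ g ∈ W.dec (L.P l), (mx S.rb g).trace = 0
  lift : ∀ g, (L.r g).map S.red = mx S.rb g
  cont : ∀ k : ℕ, IsOpen {g : GQ | (L.r g).map (Ideal.Quotient.mk (maximalIdeal O ^ k)) = 1}
  odd : (L.r L.c).det = -1
  ty : ∀ l ∈ L.W, ∃ y : O, Rt L.r (L.g0 l) y ∧ S.red y = L.rb S l (L.g0 l) 1 1 ∧
    En L.r (L.g0 l) (L.τ l) y (L.a l)
  d0 : ∀ l g, L.rb S l g 0 0 = mx S.rb g 0 0
  d1 : ∀ l g, L.rb S l g 1 1 = mx S.rb g 1 1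

variable {S : Dat O F} {L : Pl O}

theorem OkF.nC [IsLocalRing O] (h : OkF L S) {l : ℕ} (hl : l ∈ L.C) : False := by
  rw [h.hC] at hl
  exact Finset.notMem_empty l hl

theorem OkF.memW [IsLocalRing O] (h : OkF L S) {l : ℕ} (hl : l ∈ L.W ∪ L.C) : l ∈ L.W :=
  (Finset.mem_union.1 hl).resolve_right h.nC

theorem OkF.wd' [IsLocalRing O] [CharP F 2] (h : OkF L S) {l : ℕ}
    (hl : l ∈ L.W) {g : GQ} (h1 : g ∈ dec (L.P l)) (h2 : g ∈ L.Hl l)
    (h3 : L.rb S l g 0 0 ≠ L.rb S l g 1 1) : WD l ⊤ (L.Hd l) ⟨g, h1⟩ (L.rr S l) :=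
  have hp := h.pr l (Finset.mem_union_left _ hl)
  ⟨hp.1.odd_of_ne_two hp.2, CharTwo.two_eq_zero, fun x hx => h.dg l hl x hx,
    fun x hx => h.ad l hl x x.2 hx, trivial, h2, h3⟩

theorem OkF.wd [IsLocalRing O] [CharP F 2] (h : OkF L S) {l : ℕ}
    (hl : l ∈ L.W) : WD l ⊤ (L.Hd l) ⟨L.g0 l, (h.reg l hl).1⟩ (L.rr S l) :=
  h.wd' hl _ (h.reg l hl).2.1 (h.reg l hl).2.2

/-- the regular elements can be replaced -/
theorem setG [IsLocalRing O] [IsAdicComplete (maximalIdeal O) O] (hL : OkF L S)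
    (g1 : ℕ → GQ) (h : ∀ l ∈ L.W, g1 l ∈ W.dec (L.P l) ∧ g1 l ∈ L.Hl l ∧
      L.rb S l (g1 l) 0 0 ≠ L.rb S l (g1 l) 1 1) :
    ∃ a : ℕ → O, OkF { L with g0 := g1, a := a } S := by
  have key : ∀ l ∈ L.W, ∃ a y : O, Rt L.r (g1 l) y ∧ S.red y = L.rb S l (g1 l) 1 1 ∧
      En L.r (g1 l) (L.τ l) y a := fun l hl =>
    ex_ty hL.ker hL.lift (hL.dg l hl _ (h l hl).2.1).1 (h l hl).2.2 _
  choose! a ha using key
  exact ⟨a, hL.ker, hL.dh, hL.lo, hL.hC, hL.all, hL.det, hL.hT, hL.dj, hL.pr, hL.hP, hL.h2, hL.cj,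
    hL.tm, hL.dg, hL.ad, h, hL.uni, hL.lift, hL.cont, hL.odd, ha, hL.d0, hL.d1⟩

/-- **existence of the constants**, after a change of the regular elements -/
theorem exists_wc [IsLocalRing O] [IsAdicComplete (maximalIdeal O) O] [CharP F 2] (hL : OkF L S) :
    ∃ (g1 : ℕ → GQ) (a : ℕ → O) (e : ℕ → Fin 2 → O) (u : ℕ → O) (v : ℕ → Fin 2 → O),
      OkF { L with g0 := g1, a := a } S ∧
      ∀ l ∈ L.W, Wc S { L with g0 := g1, a := a } l (e l) (u l) (v l) := by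
  have hk : RingHom.ker S.red = maximalIdeal O := Ideal.ext fun c => hL.ker c
  have loc : ∀ a : O, S.red a ≠ 0 → IsUnit a := fun a ha => by
    by_contra hn
    exact ha ((hL.ker a).2 hn)
  haveI : HenselianRing O (RingHom.ker S.red) := by rw [hk]; infer_instance
  have key : ∀ l ∈ L.W, ∃ (g1 : GQ) (e : Fin 2 → O) (u : O) (v : Fin 2 → O),
      (g1 ∈ dec (L.P l) ∧ g1 ∈ L.Hl l ∧ L.rb S l g1 0 0 ≠ L.rb S l g1 1 1) ∧ ProOdd g1 ∧
      W.Tm S.red (L.rb S l) g1 e ∧ u * (e 0 - e 1) = 1 ∧ (L.τ l ∈ L.Hl l → ∀ i,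
        v i * th (RingHom.id O) (fun g => (L.r g).trace) g1 (L.τ l) e u i = 1) := by
    intro l hl
    have ho : IsOpen {g : GQ | L.rb S l g = 1} :=
      open_of (f := S.rb) (fun g hg => by
        rw [Pl.rb_apply, show mx S.rb g = 1 from congrArg Units.val hg, mul_one, L.cu_mul])
        hL.dh.opn
    obtain ⟨r1, r2, r3⟩ := hL.reg l hl
    obtain ⟨h01, h10⟩ := hL.dg l hl _ r2
    obtain ⟨m, hm, em⟩ := odd_order CharTwo.two_eq_zero ho h01 h10
    obtain ⟨g1, hg, e1, hp⟩ := exists_proOdd (L.rb S l) ho (dec (L.P l)) (isClosed_dec _) r1 hm em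
    have hH : g1 ∈ L.Hl l := ((hL.wd hl).mem_iff (g := ⟨g1, hg⟩)).2 (by
      show L.rb S l g1 0 1 = 0
      rw [e1, h01])
    have hne : L.rb S l g1 0 0 ≠ L.rb S l g1 1 1 := by rw [e1]; exact r3
    have hW := hL.wd' hl hg hH hne
    obtain ⟨k01, k10⟩ := hL.dg l hl _ hH
    have h1 : ∀ i, L.rb S l g1 i i ^ m = 1 := fun i => by
      have key : ∀ n : ℕ, (L.rb S l g1 ^ n) i i = L.rb S l g1 i i ^ n := by
        intro n
        induction n with
        | zero => simp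
        | succ n ih =>
          rw [pow_succ', pow_succ', ← ih]
          fin_cases i <;> simp [Matrix.mul_apply, Fin.sum_univ_two, k01, k10]
      rw [← key, e1, em, Matrix.one_apply_eq]
    choose e he using fun i => exists_teich S.red S.surj loc hW.two hm (h1 i)
    obtain ⟨u, hu⟩ := (loc (e 0 - e 1) (by
      rw [map_sub, (he 0).2, (he 1).2, sub_ne_zero]; exact hne)).exists_left_inv
    have hv : ∀ i, ∃ v : O, L.τ l ∈ L.Hl l →
        v * th (RingHom.id O) (fun g => (L.r g).trace) g1 (L.τ l) e u i = 1 := by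
      intro i
      by_cases hτ : L.τ l ∈ L.Hl l
      · refine (loc _ ?_).exists_left_inv.imp fun v hv _ => hv
        rw [th_map S.red (ι := RingHom.id O) (t := fun g => (L.r g).trace) (ι' := S.red)
          (t' := trc (L.rb S l)) (fun _ => rfl) (fun g =>
            (trc_map S.red (ρ := L.r) (ρ' := rbm S) hL.lift g).symm.trans (L.rb_tr l g).symm)]
        have c := congrArg S.red hu
        rw [map_mul, map_sub, map_one, (he 0).2, (he 1).2] at c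
        have e0 : th S.red (trc (L.rb S l)) g1 (L.τ l) e u i = L.rb S l (L.τ l) i i := by
          fin_cases i <;>
            simp only [th, trc, map_mul, Matrix.trace_fin_two, Matrix.mul_apply, Fin.sum_univ_two,
              (he 0).2, (he 1).2, k01, k10, Fin.zero_eta,
              Fin.mk_one, Matrix.cons_val_zero, Matrix.cons_val_one, Matrix.cons_val_fin_one]
          · linear_combination (L.rb S l (L.τ l) 0 0) * c
          · linear_combination (L.rb S l (L.τ l) 1 1) * c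
        rw [e0]
        obtain ⟨N, hT⟩ := (hL.tm l (Finset.mem_union_left _ hl)).tame _ _ ho
        exact hW.dne i (g := ⟨L.τ l, hT.ID hT.tau⟩) hτ
      · exact ⟨0, fun h => absurd h hτ⟩
    choose v hv using hv
    exact ⟨g1, e, u, v, ⟨hg, hH, hne⟩, hp, ⟨m, hm, he⟩, hu, fun h i => hv i h⟩
  choose! g1 e u v h1 h2 h3 h4 h5 using key
  obtain ⟨a, ha⟩ := setG hL g1 h1
  exact ⟨g1, a, e, u, v, ha, fun l hl => ⟨h2 l hl, h3 l hl, h4 l hl, h5 l hl⟩⟩

end Vale.Agent.P022F
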