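import Vale.Agent.P022F.OkF

/-!
P022F: existence of the local data.
-/

set_option linter.all false

noncomputable section

namespace Vale.Agent.P022F

open NumberField IsLocalRing
open Vale.Agent.P022 Vale.Agent.P022.H443 Vale.Agent.P022D Vale.Agent.P022D.R Vale.Agent.P022D.W
open Vale.Agent.P027M.S (mx)
open Vale.Agent.P022D.Sel (M2 IsDec)
open Vale.Agent.P022E.Loc (Pl Rt En Wc tame_res UniF)
open Vale.Agent.P022E.Loc.Expl (mem_dec)

/-- a triangular representation of a tame group with two different characters is split -/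
theorem tri_split {G F : Type} [Group G] [Field F] {ℓ : ℕ} (ho : Odd ℓ) (two : (2 : F) = 0)
    {I N : Subgroup G} {τ φ g0 : G} {f : G →* Mt F} (hT : TameAt ℓ ⊤ I N τ φ f)
    (lo : ∀ g, f g 1 0 = 0) (ne : f g0 0 0 ≠ f g0 1 1) :
    ∃ x : F, ∀ g, f g 0 1 + x * (f g 1 1 - f g 0 0) = 0 := by
  have m0 : ∀ g k, f (g * k) 0 0 = f g 0 0 * f k 0 0 := fun g k => by
    rw [map_mul, ent1 _ _ (show (0 : Fin 2) ≠ 1 by decide), lo, mul_zero, add_zero]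
  have m1 : ∀ g k, f (g * k) 1 1 = f g 1 1 * f k 1 1 := fun g k => by
    rw [map_mul, ent1 _ _ (show (1 : Fin 2) ≠ 0 by decide), lo, zero_mul, add_zero]
  let rb : G →* Mt F := ⟨⟨fun g => !![f g 0 0, 0; 0, f g 1 1], by
    show !![f 1 0 0, 0; 0, f 1 1 1] = _
    rw [map_one, Matrix.one_apply_eq, Matrix.one_apply_eq, Matrix.one_fin_two]⟩, fun g k => by
    show !![f (g * k) 0 0, 0; 0, f (g * k) 1 1] = !![_, 0; 0, _] * !![_, 0; 0, _]
    rw [m0, m1, Matrix.mul_fin_two]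
    simp⟩
  have hW : WD ℓ ⊤ ⊤ g0 rb := ⟨ho, two, fun g _ => ⟨rfl, rfl⟩, fun g hg => absurd trivial hg,
    trivial, trivial, ne⟩
  have hA : LR (RingHom.id F) := ⟨⟨1, by
    rw [pow_one]; exact (RingHom.injective_iff_ker_eq_bot _).1 Function.injective_id⟩,
    fun a ha => Ne.isUnit ha⟩
  have ne' := sub_ne_zero.2 ne
  refine ⟨f g0 0 1 / (f g0 0 0 - f g0 1 1), Wl.zero hW hA hT (fun _ => trivial)
    (a := fun g => f g 0 0) (b := fun g => f g 1 1) (fun _ => rfl) (fun _ => rfl)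
    (fun g k => ?_) (by simp) (by field_simp; ring) fun g k e => ⟨?_, by simp only [e]⟩⟩
  · rw [m0, m1, map_mul, ent2 _ _ (show (0 : Fin 2) ≠ 1 by decide)]
    ring
  · show !![f g 0 0, 0; 0, f g 1 1] = !![f k 0 0, 0; 0, f k 1 1]
    rw [e]

/-- **existence of the data** -/
theorem explF0 (O F : Type) [CommRing O] [IsLocalRing O] [IsAdicComplete (maximalIdeal O) O]
    [Field F] [CharP F 2] (S : Dat O F) (H : Subgroup GQ) (r : GQ →* M2 O) (c : GQ)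
    (Sf : Finset ℕ) (hk : ∀ c, S.red c = 0 ↔ c ∈ maximalIdeal O) (hD : DhF S.rb)
    (lo : ∀ g, mx S.rb g 1 0 = 0) (hU : ∀ l ∈ Sf, ¬ UniF S.rb l)
    (hdet : ∀ g, (mx S.rb g).det = 1) (hT : S.T = insert 0 (insert 2 Sf))
    (hS : ∀ l ∈ Sf, l.Prime ∧ l ≠ 2) (hc : IsConj c) (hr : ∀ g, (r g).map S.red = mx S.rb g)
    (hcont : ∀ k : ℕ, IsOpen {g : GQ | (r g).map (Ideal.Quotient.mk (maximalIdeal O ^ k)) = 1})
    (hodd : (r c).det = -1) :
    ∃ L : Pl O, OkF L S ∧ L.H = H ∧ L.r = r ∧ L.c = c ∧ L.W = Sf := by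
  classical
  let f : GQ →* M2 F := (Units.coeHom _).comp S.rb
  have ho : IsOpen {g : GQ | f g = 1} := by
    convert hD.opn using 2
    exact funext fun g => propext ⟨fun e => Units.ext e, fun e => congrArg Units.val e⟩
  have key : ∀ l ∈ Sf, ∃ (P : Ideal (𝓞 Qb)) (τ φ g0 : GQ) (x : O),
      (P.IsPrime ∧ (l : 𝓞 Qb) ∈ P) ∧ P022E.Loc.Tm l P τ φ ∧ g0 ∈ dec P ∧
      mx S.rb g0 0 0 ≠ mx S.rb g0 1 1 ∧
      ∀ g ∈ dec P, mx S.rb g 0 1 + S.red x * (mx S.rb g 1 1 - mx S.rb g 0 0) = 0 := fun l hl => by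
    obtain ⟨l1, l2⟩ := hS l hl
    have hU' := hU l hl
    simp only [UniF, not_forall] at hU'
    obtain ⟨P, p1, p2, g, hg, ht⟩ := hU'
    obtain ⟨τ, φ, t⟩ := P022E.Loc.Expl.tm l1 l2 p1 p2
    obtain ⟨N, hN⟩ := t.tame _ f ho
    have hg' := mem_dec l1 p1 p2 hg
    have ne : mx S.rb g 0 0 ≠ mx S.rb g 1 1 := fun e => ht (by
      rw [Matrix.trace_fin_two, e, CharTwo.add_self_eq_zero])
    obtain ⟨x, hx⟩ := tri_split (l1.odd_of_ne_two l2) CharTwo.two_eq_zero (tame_res hN)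
      (g0 := ⟨g, hg'⟩) (fun g => lo g) ne
    obtain ⟨x, rfl⟩ := S.surj x
    exact ⟨P, τ, φ, g, x, ⟨p1, p2⟩, t, hg', ne, fun k hk => hx ⟨k, hk⟩⟩
  choose! P τ φ g0 x h1 h2 h3 h4 h5 using key
  let U : ℕ → GL (Fin 2) O := fun l => ⟨!![1, x l; 0, 1], !![1, -x l; 0, 1],
    by rw [Matrix.mul_fin_two, Matrix.one_fin_two]; simp,
    by rw [Matrix.mul_fin_two, Matrix.one_fin_two]; simp⟩
  let P' : ℕ → Ideal (𝓞 Qb) := fun l => if l = 2 then Loc2.PP 2 else P l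
  have e : ∀ l ∈ Sf, P' l = P l := fun l hl => if_neg (hS l hl).2
  let L : (ℕ → O) → Pl O := fun a => ⟨H, fun l => dec (P l), U, Sf, ∅, P', c, τ, φ, g0, r, a⟩
  have hrb : ∀ a l g, (L a).rb S l g = !![mx S.rb g 0 0,
      mx S.rb g 0 1 + S.red (x l) * (mx S.rb g 1 1 - mx S.rb g 0 0); 0, mx S.rb g 1 1] := by
    intro a l g
    rw [Pl.rb_apply]
    show (!![1, x l; 0, 1] : M2 O).map S.red * mx S.rb g * (!![1, -x l; 0, 1] : M2 O).map S.red = _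
    ext i j
    fin_cases i <;> fin_cases j <;>
      simp [Matrix.mul_apply, Fin.sum_univ_two, lo] <;> ring
  have d0 : ∀ a l g, (L a).rb S l g 0 0 = mx S.rb g 0 0 := fun a l g => by rw [hrb]; rfl
  have d1 : ∀ a l g, (L a).rb S l g 1 1 = mx S.rb g 1 1 := fun a l g => by rw [hrb]; rfl
  have dg : ∀ a, ∀ l ∈ Sf, ∀ g ∈ dec (P l), (L a).rb S l g 0 1 = 0 ∧ (L a).rb S l g 1 0 = 0 :=
    fun a l hl g hg => by rw [hrb]; exact ⟨h5 l hl g hg, rfl⟩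
  have key : ∀ l ∈ Sf, ∃ a y : O, Rt r (g0 l) y ∧ S.red y = (L 0).rb S l (g0 l) 1 1 ∧
      En r (g0 l) (τ l) y a := fun l hl =>
    P022E.Loc.ex_ty hk hr (dg 0 l hl _ (h3 l hl)).1 (by rw [d0, d1]; exact h4 l hl) _
  choose! a ha using key
  have un : ∀ {l}, l ∈ Sf ∪ ∅ → l ∈ Sf := fun h => by rwa [Finset.union_empty] at h
  refine ⟨L a, ⟨hk, hD, lo, rfl, fun l hl g hg => ?_, hdet, ?_, Finset.disjoint_empty_right _,
    fun l hl => hS l (un hl), fun l hl => ?_, (if_pos rfl : (if 2 = 2 then Loc2.PP 2 else P 2) = _),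
    hc, fun l hl => ?_, dg a, fun l hl g hg hn => absurd ?_ hn, fun l hl => ⟨?_, h3 l hl, ?_⟩,
    fun l hl => absurd hl (Finset.notMem_empty l), hr, hcont, hodd, ha, d0 a, d1 a⟩,
    rfl, rfl, rfl, rfl⟩
  · have : g ∈ dec (P' l) := hg
    rwa [e l hl] at this
  · show S.T = insert 0 (insert 2 (Sf ∪ ∅))
    rw [Finset.union_empty, hT]
  · show (P' l).IsPrime ∧ _ ∈ P' l
    rw [e l (un hl)]
    exact h1 l (un hl)
  · show P022E.Loc.Tm l (P' l) _ _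
    rw [e l (un hl)]
    exact h2 l (un hl)
  · have : g ∈ dec (P' l) := hg
    rwa [e l hl] at this
  · show g0 l ∈ dec (P' l)
    rw [e l hl]
    exact h3 l hl
  · rw [d0, d1]
    exact h4 l hl

/-- **existence of the data with pro-odd regular elements** -/
theorem explF (O F : Type) [CommRing O] [IsLocalRing O] [IsAdicComplete (maximalIdeal O) O]
    [Field F] [CharP F 2] (S : Dat O F) (H : Subgroup GQ) (r : GQ →* M2 O) (c : GQ)
    (Sf : Finset ℕ) (hk : ∀ c, S.red c = 0 ↔ c ∈ maximalIdeal O) (hD : DhF S.rb)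
    (lo : ∀ g, mx S.rb g 1 0 = 0) (hU : ∀ l ∈ Sf, ¬ UniF S.rb l)
    (hdet : ∀ g, (mx S.rb g).det = 1) (hT : S.T = insert 0 (insert 2 Sf))
    (hS : ∀ l ∈ Sf, l.Prime ∧ l ≠ 2) (hc : IsConj c) (hr : ∀ g, (r g).map S.red = mx S.rb g)
    (hcont : ∀ k : ℕ, IsOpen {g : GQ | (r g).map (Ideal.Quotient.mk (maximalIdeal O ^ k)) = 1})
    (hodd : (r c).det = -1) :
    ∃ (L : Pl O) (e : ℕ → Fin 2 → O) (u : ℕ → O) (v : ℕ → Fin 2 → O), OkF L S ∧ L.H = H ∧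
      L.r = r ∧ L.c = c ∧ L.W = Sf ∧ ∀ l ∈ L.W, Wc S L l (e l) (u l) (v l) := by
  obtain ⟨L, a1, a2, a3, a4, a5⟩ := explF0 O F S H r c Sf hk hD lo hU hdet hT hS hc hr hcont hodd
  obtain ⟨g1, a, e, u, v, b1, b2⟩ := exists_wc a1
  exact ⟨_, e, u, v, b1, a2, a3, a4, a5, b2⟩

end Vale.Agent.P022F
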