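import Vale.Agent.P022E.St
import Vale.Agent.P022.H565.StG

/-!
P022: unobstructed residually reducible representations (words of the statement). `ℚ̄` is the
algebraic closure of `ℚ` of Mathlib, `E` a finite extension of `ℚ₂`, `k` a field.
-/

open NumberField Matrix

noncomputable section

namespace Vale.Agent.P022.St

/-- the semisimplified residual representation of `r` is `χ₁ ⊕ χ₂`: the traces and determinants
of `r` are in the ring `O` of integers of `E`, and a ring map `O → k` sends them to `χ₁ + χ₂` and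
`χ₁ χ₂` -/
def IsEis {E : Type} [NontriviallyNormedField E]
    (r : (AlgebraicClosure ℚ ≃ₐ[ℚ] AlgebraicClosure ℚ) →* GL (Fin 2) E) {k : Type} [Field k]
    (χ₁ χ₂ : (AlgebraicClosure ℚ ≃ₐ[ℚ] AlgebraicClosure ℚ) →* kˣ) : Prop :=
  ∃ (O : Subring E) (π : O →+* k), (∀ x : E, x ∈ O ↔ ‖x‖ ≤ 1) ∧
    ∀ g, ∃ t d : O, (t : E) = (r g : Matrix (Fin 2) (Fin 2) E).trace ∧
      (d : E) = (r g : Matrix (Fin 2) (Fin 2) E).det ∧
      π t = (χ₁ g : k) + (χ₂ g : k) ∧ π d = (χ₁ g : k) * (χ₂ g : k)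

/-- every continuous 1-cocycle with values in `k(ψ)` which vanishes on the inertia groups at the
odd primes where `r` is unramified and at a complex conjugation is a coboundary -/
def Unob {E : Type} [NontriviallyNormedField E]
    (r : (AlgebraicClosure ℚ ≃ₐ[ℚ] AlgebraicClosure ℚ) →* GL (Fin 2) E) {k : Type} [Field k]
    (ψ : (AlgebraicClosure ℚ ≃ₐ[ℚ] AlgebraicClosure ℚ) →* kˣ) : Prop :=
  ∀ f : (AlgebraicClosure ℚ ≃ₐ[ℚ] AlgebraicClosure ℚ) → k, IsLocallyConstant f →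
    (∀ g h, f (g * h) = f g + (ψ g : k) * f h) →
    (∀ p : ℕ, p.Prime → p ≠ 2 → UnrAt r p → ∀ P : Ideal (𝓞 (AlgebraicClosure ℚ)), P.IsPrime →
      (p : 𝓞 (AlgebraicClosure ℚ)) ∈ P →
      ∀ g : AlgebraicClosure ℚ ≃ₐ[ℚ] AlgebraicClosure ℚ,
        (∀ x : 𝓞 (AlgebraicClosure ℚ), g • x - x ∈ P) → f g = 0) →
    (∃ c, IsConj c ∧ f c = 0) → ∃ v : k, ∀ g, f g = ((ψ g : k) - 1) * v

end Vale.Agent.P022.St
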