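import Vale.Agent.P022D.End.Cg
import Vale.Agent.P022D.Loc2.Dec
import Vale.Agent.P022D.W.Tame
import Vale.Agent.P027M.S.Defs
import Vale.Agent.P022.H297.L3.Inert

/-!
P022F: additive characters in characteristic `2` unramified at the odd primes are determined by
two values.
-/

set_option linter.all false

open NumberField

noncomputable section

namespace Vale.Agent.P022F.Quad

open Vale.Agent.P022 Vale.Agent.P022.H853 Vale.Agent.P022.H790.CT Vale.Agent.P022D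
open Vale.Agent.P027M.S (Inert)

theorem sq8 (n : ℤ) (h : 8 ∣ n - 1) (r : ℕ) : ∃ w : ℤ, Odd w ∧ 2 ^ (r + 3) ∣ w ^ 2 - n := by
  induction r with
  | zero => exact ⟨1, odd_one, by rw [one_pow, ← neg_sub]; exact (dvd_neg).2 h⟩
  | succ r ih =>
    obtain ⟨w, ⟨j, hj⟩, k, hk⟩ := ih
    rcases Int.even_or_odd' k with ⟨i, hi | hi⟩
    · exact ⟨w, ⟨j, hj⟩, i, by rw [hk, hi]; ring⟩
    · refine ⟨w + 2 ^ (r + 2), ⟨j + 2 ^ (r + 1), by rw [hj]; ring⟩, i + j + 1 + 2 ^ r, ?_⟩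
      rw [hi] at hk
      linear_combination hk + 2 ^ (r + 3) * hj

/-- the case of `ZMod 2` -/
theorem ker8 (p : GQ → ZMod 2) (hp : ∀ g h, p (g * h) = p g + p h)
    (ho : ∃ U : Subgroup GQ, IsOpen (U : Set GQ) ∧ ∀ u ∈ U, p u = 0)
    (hu : ∀ l : ℕ, l.Prime → l ≠ 2 → ∀ P : Ideal (𝓞 Qb), P.IsPrime → (l : 𝓞 Qb) ∈ P →
      ∀ s, Inert P s → p s = 0) {g : GQ} (hg : cyc (2 ^ 3) g = 1) : p g = 0 := by
  have p1 : p 1 = 0 := by
    have := hp 1 1
    rw [mul_one] at this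
    exact left_eq_add.1 this
  have k0 : ∀ x : ZMod 2, x = 0 ∨ x = 1 := by decide
  have k1 : ∀ x : ZMod 2, x + x = 0 := by decide
  let ψ : GQ →* ℚ_[2]ˣ :=
    { toFun := fun g => if p g = 0 then 1 else -1
      map_one' := if_pos p1
      map_mul' := fun g h => by
        rw [hp]
        rcases k0 (p g) with a | a <;> rcases k0 (p h) with b | b <;> rw [a, b]
        · rw [add_zero, if_pos rfl, one_mul]
        · rw [zero_add, if_pos rfl, one_mul]
        · rw [add_zero, if_pos (rfl : (0 : ZMod 2) = 0), mul_one]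
        · rw [k1, if_pos rfl, if_neg one_ne_zero, neg_mul_neg, one_mul] }
  have e1 : ∀ g, p g = 0 → ψ g = 1 := fun g h => if_pos h
  have e2 : ∀ g, p g ≠ 0 → ψ g = -1 := fun g h => if_neg h
  obtain ⟨U, hU, hU0⟩ := ho
  have hc : Continuous ψ := by
    refine continuous_of_continuousAt_one ψ ?_
    rw [ContinuousAt, map_one]
    refine tendsto_const_nhds.congr' ?_
    filter_upwards [hU.mem_nhds U.one_mem] with u hu
    exact (e1 u (hU0 u hu)).symm
  obtain ⟨r, hr⟩ := End.kw2_of hc (fun l hl h2 P hP hlP s hs => e1 s (hu l hl h2 P hP hlP s hs))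
    ‖(2 : ℚ_[2])‖ (norm_pos_iff.2 two_ne_zero)
  have hk : ∀ g, cyc (2 ^ (r + 3)) g = 1 → p g = 0 := fun g h => by
    by_contra hne
    have := hr g (cyc_of_dvd (pow_dvd_pow 2 (Nat.le_add_right r 3)) h)
    rw [e2 g hne, Units.val_neg, Units.val_one,
      show (-1 - 1 : ℚ_[2]) = -2 by norm_num, norm_neg] at this
    exact lt_irrefl _ this
  have h8 := (cyc_mod (2 ^ (r + 3)) (pow_dvd_pow 2 (Nat.le_add_left 3 r)) g).trans (val_of_one hg)
  obtain ⟨w, -, hw⟩ := sq8 ((cyc (2 ^ (r + 3)) g : ZMod (2 ^ (r + 3))).val : ℤ)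
    (by have := h8.symm.dvd; exact_mod_cast this) r
  have hw2 : (w : ZMod (2 ^ (r + 3))) * w = (cyc (2 ^ (r + 3)) g : ZMod (2 ^ (r + 3))) := by
    have := (ZMod.intCast_zmod_eq_zero_iff_dvd (w ^ 2 -
      ((cyc (2 ^ (r + 3)) g : ZMod (2 ^ (r + 3))).val : ℤ)) (2 ^ (r + 3))).2 (by exact_mod_cast hw)
    rw [Int.cast_sub, Int.cast_pow, Int.cast_natCast, ZMod.natCast_zmod_val, sub_eq_zero, sq] at this
    exact this
  have hwu : IsUnit (w : ZMod (2 ^ (r + 3))) :=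
    isUnit_of_mul_isUnit_left (by rw [hw2]; exact Units.isUnit _)
  obtain ⟨h, hh⟩ := cyc_surj (2 ^ (r + 3)) hwu.unit
  have e3 : cyc (2 ^ (r + 3)) (h * h) = cyc (2 ^ (r + 3)) g := by
    apply Units.ext
    rw [map_mul, hh, Units.val_mul, hwu.unit_spec, hw2]
  have e4 := hk (g * (h * h)⁻¹) (by rw [map_mul, map_inv, e3, mul_inv_cancel])
  have e5 := hp (g * (h * h)⁻¹) (h * h)
  rw [inv_mul_cancel_right, e4, hp, k1, add_zero] at e5
  exact e5

/-- **QUAD** -/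
theorem quad : ∃ s : GQ, Inert (Loc2.PP 2) s ∧ s ∈ W.dec (Loc2.PP 2) ∧ ∀ c, IsConj c →
    ∀ (F : Type) [Field F] [CharP F 2] (p : GQ → F), (∀ g h, p (g * h) = p g + p h) →
    (∃ U : Subgroup GQ, IsOpen (U : Set GQ) ∧ ∀ u ∈ U, p u = 0) →
    (∀ l : ℕ, l.Prime → l ≠ 2 → ∀ P : Ideal (𝓞 Qb), P.IsPrime → (l : 𝓞 Qb) ∈ P →
      ∀ s, Inert P s → p s = 0) → p c = 0 → p s = 0 → ∀ g, p g = 0 := by
  obtain ⟨s, hs, h5⟩ := H297.L3.inert_cyc (m := 2 ^ 3) (k := 3) (m' := 1) Nat.prime_two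
    (mul_one _).symm (Nat.coprime_one_right 2) (Loc2.PP_prime 2) (Loc2.p_mem_PP 2)
    ⟨5, 5, by decide, by decide⟩ (Nat.modEq_one)
  refine ⟨s, hs, W.inP_le_dec hs, fun c hc F _ _ p hp ho hu h1 h2 g => ?_⟩
  letI : Algebra (ZMod 2) F := ZMod.algebra F 2
  have k : ∀ g, cyc (2 ^ 3) g = 1 → p g = 0 := fun g hg =>
    (Module.forall_dual_apply_eq_zero_iff (ZMod 2) (p g)).1 fun φ =>
      ker8 (fun g => φ (p g)) (fun g h => by rw [hp, map_add])
        (ho.imp fun U hU => ⟨hU.1, fun u hu => by rw [hU.2 u hu, map_zero]⟩)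
        (fun l hl l2 P hP hlP s hs => by rw [hu l hl l2 P hP hlP s hs, map_zero]) hg
  have k8 : ∀ x y : ZMod (2 ^ 3), x * y = 1 →
      x = 1 ∨ x * -1 = 1 ∨ x * 5 = 1 ∨ x * -1 * 5 = 1 := by decide
  have c1 : (cyc (2 ^ 3) c : ZMod (2 ^ 3)) = -1 := cyc_conj hc
  have c2 : (cyc (2 ^ 3) s : ZMod (2 ^ 3)) = 5 := by rw [h5]
  rcases k8 _ _ (cyc (2 ^ 3) g).mul_inv with e | e | e | e
  · exact k g (Units.ext e)
  · have := k (g * c) (Units.ext (by rw [map_mul, Units.val_mul, c1]; exact e))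
    rwa [hp, h1, add_zero] at this
  · have := k (g * s) (Units.ext (by rw [map_mul, Units.val_mul, c2]; exact e))
    rwa [hp, h2, add_zero] at this
  · have := k (g * c * s) (Units.ext (by
      rw [map_mul, map_mul, Units.val_mul, Units.val_mul, c1, c2]; exact e))
    rwa [hp, hp, h1, h2, add_zero, add_zero] at this

end Vale.Agent.P022F.Quad
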