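import Vale.Agent.P022F.Wiles
import Vale.Agent.P022F.Quad
import Vale.Agent.P022E.As.Bas
import Vale.Agent.P022D.Fm.W3
import Vale.Agent.P022D.Sel.Adm
import Vale.Agent.P022D.Loc2.Obj

/-!
P022F: the good quotients are generated by two traces.
-/

set_option linter.all false

open IsLocalRing NumberField TrivSqZeroExt

noncomputable section

namespace Vale.Agent.P022F.Gen

open Vale.Agent.P022 Vale.Agent.P022.H443 Vale.Agent.P022.H346 Vale.Agent.P022D
open Vale.Agent.P022E.As (Tg cc tt dd yy ev0 mT Gw)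
open Vale.Agent.P022E.Loc (Pl Tm)
open Vale.Agent.P027M.S (Inert)

variable {O F : Type} [CommRing O] [Field F]

/-- `b` vanishes on an open subgroup -/
def Opn (b : GQ → F) : Prop := ∃ U : Subgroup GQ, IsOpen (U : Set GQ) ∧ ∀ u ∈ U, b u = 0

/-- `b` vanishes on the inertia groups at the odd primes outside `S` -/
def Unr (S : Finset ℕ) (b : GQ → F) : Prop := ∀ l : ℕ, l.Prime → l ≠ 2 → l ∉ S →
  ∀ P : Ideal (𝓞 Qb), P.IsPrime → (l : 𝓞 Qb) ∈ P → ∀ s, Inert P s → b s = 0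

/-- cocycles which vanish at the complex conjugations are coboundaries -/
def Unob (S : Finset ℕ) (χ ψ : GQ →* Fˣ) : Prop :=
  ∀ b : GQ → F, Cc χ ψ b → Opn b → Unr S b → (∀ c, IsConj c → b c = 0) → Cb χ ψ b

/-- additive maps unramified outside two are determined by two values -/
def QUAD : Prop := ∃ s ∈ W.dec (Loc2.PP 2), ∀ (F : Type) [Field F] [CharP F 2] (c : GQ),
  IsConj c → ∀ p : GQ → F, (∀ g h, p (g * h) = p g + p h) → Opn p → Unr ∅ p → p c = 0 →
    p s = 0 → ∀ g, p g = 0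

theorem quad : QUAD := by
  obtain ⟨s, -, h1, h2⟩ := Quad.quad
  exact ⟨s, h1, fun F _ _ c hc p hp ho hu => h2 c hc F p hp ho
    fun l hl h P hP hlP s hs => hu l hl h (Finset.notMem_empty l) P hP hlP s hs⟩

/-- the data -/
structure Hy [IsLocalRing O] (red : O →+* F) (L : Pl O) (T : Finset ℕ) (χ ψ : GQ →* Fˣ) :
    Prop where
  surj : Function.Surjective red
  ker : ∀ c, red c = 0 ↔ c ∈ maximalIdeal O
  tr : ∀ g, red (L.r g).trace = (χ g : F) + ψ g
  det : ∀ g, red (L.r g).det = (χ g : F) * ψ g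
  ne : ∃ g, χ g ≠ ψ g
  hT : ∀ l : ℕ, l.Prime → l ∈ T → l = 2 ∨ l ∈ L.W
  hP : ∀ l ∈ L.W, (L.P l).IsPrime ∧ (l : 𝓞 Qb) ∈ L.P l
  h2 : L.P 2 = Loc2.PP 2
  cj : IsConj L.c
  tm : ∀ l ∈ L.W, Tm l (L.P l) (L.τ l) (L.φ l)
  reg : ∀ l ∈ L.W, χ (L.g0 l) ≠ ψ (L.g0 l)
  u1 : Unob L.W χ ψ
  u2 : Unob L.W ψ χ

section add

variable [CharP F 2] {p : GQ → F}

theorem add1 (h : ∀ g k, p (g * k) = p g + p k) : p 1 = 0 := by
  have := h 1 1
  rw [mul_one] at this
  linear_combination -this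

theorem addsq (h : ∀ g k, p (g * k) = p g + p k) (g : GQ) : p (g * g) = 0 := by
  rw [h, CharTwo.add_self_eq_zero]

theorem addcj (h : ∀ g k, p (g * k) = p g + p k) (g s : GQ) : p (g * s * g⁻¹) = p s := by
  have := h g g⁻¹
  rw [mul_inv_cancel, add1 h] at this
  rw [h, h]
  linear_combination -this

/-- from the generator to the inertia groups -/
theorem addin (h : ∀ g k, p (g * k) = p g + p k) (ho : Opn p) {l : ℕ} (hl : l.Prime)
    {P Q : Ideal (𝓞 Qb)} (hP : P.IsPrime) (h1 : (l : 𝓞 Qb) ∈ P) {τ φ : GQ} (ht : Tm l P τ φ)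
    (h0 : p τ = 0) (hQ : Q.IsPrime) (h2 : (l : 𝓞 Qb) ∈ Q) {s : GQ} (hs : Inert Q s) : p s = 0 := by
  let f : GQ →* Multiplicative F := MonoidHom.mk' (fun g => Multiplicative.ofAdd (p g))
    fun g k => congrArg Multiplicative.ofAdd (h g k)
  have hf : IsOpen {g : GQ | f g = 1} := by
    obtain ⟨U, hU, hp⟩ := ho
    have := galQb
    exact Subgroup.isOpen_mono (H₁ := U) (H₂ := f.ker) (fun u hu => congrArg Multiplicative.ofAdd
      (hp u hu)) hU
  obtain ⟨N, hN⟩ := ht.tame _ f hf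
  obtain ⟨g, hg⟩ := Fm.W3.conj_in hl hP h1 (s := s) ⟨Q, hQ, h2, hs⟩
  obtain ⟨k, n, hn, e⟩ := hN.cyc _ hg
  obtain ⟨m, ⟨j, rfl⟩, hm⟩ := hN.odd n hn
  have e1 : f τ = 1 := congrArg Multiplicative.ofAdd h0
  have e2 : f n * f n = 1 := by
    rw [← map_mul]
    exact congrArg Multiplicative.ofAdd (addsq h n)
  rw [pow_succ, pow_mul, sq, e2, one_pow, one_mul] at hm
  have e3 : f (g * s * g⁻¹) = 1 := by rw [e, map_mul, map_pow, e1, one_pow, hm, one_mul]
  rw [← addcj h g s]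
  exact congrArg Multiplicative.toAdd e3

end add

theorem sq1 [CharP F 2] {x : Fˣ} (h : x * x = 1) : x = 1 := by
  have h1 : (x : F) * x = 1 := congrArg Units.val h
  have h2 : ((x : F) - 1) ^ 2 = 0 := by
    have two : (2 : F) = 0 := CharTwo.two_eq_zero
    linear_combination h1 + (1 - (x : F)) * two
  exact Units.ext (sub_eq_zero.1 (pow_eq_zero_iff two_ne_zero |>.1 h2))

theorem cc_conj [CharP F 2] {χ ψ : GQ →* Fˣ} {b : GQ → F} (h : Cc χ ψ b) {c c' : GQ}
    (hc : IsConj c) (hc' : IsConj c') (h0 : b c = 0) : b c' = 0 := by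
  obtain ⟨t, e⟩ := Sel.AdmA.conj_conj hc hc'
  have a1 : χ c = 1 := sq1 (by rw [← map_mul, Loc2.conj_sq hc, map_one])
  have a2 : ψ c' = 1 := sq1 (by rw [← map_mul, Loc2.conj_sq hc', map_one])
  have := congrArg b e
  rw [h, h, a1, a2, h0, Units.val_one, one_mul, mul_one, zero_mul, add_zero] at this
  have h3 : (χ t : F) * b c' = 0 := by linear_combination -this
  exact (mul_eq_zero.1 h3).resolve_left (χ t).ne_zero

/-- an element with the same additive values and distinct eigenvalues -/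
theorem shift [CharP F 2] {χ ψ : GQ →* Fˣ} (h : ∃ g, χ g ≠ ψ g) (s : GQ) :
    ∃ g, χ g ≠ ψ g ∧ ∀ p : GQ → F, (∀ g k, p (g * k) = p g + p k) → p g = p s := by
  by_cases e : χ s = ψ s
  · obtain ⟨g, hg⟩ := h
    refine ⟨s * (g * g), fun e1 => hg ?_, fun p hp => by rw [hp, addsq hp, add_zero]⟩
    rw [map_mul, map_mul ψ, e, mul_right_inj, map_mul, map_mul] at e1
    have : χ g * (ψ g)⁻¹ = 1 := sq1 (by
      rw [mul_mul_mul_comm, e1, ← mul_inv, mul_inv_cancel])
    exact mul_inv_eq_one.1 this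
  · exact ⟨s, e, fun _ _ => rfl⟩

variable [IsLocalRing O] [CharP F 2] {red : O →+* F} {L : Pl O} {T : Finset ℕ} {χ ψ : GQ →* Fˣ}
  {ϖ : O}

/-- **the tangent space** -/
theorem tanG (H : Hy red L T χ ψ) : ∃ g₁ g₂ : GQ, ∀ a : Ideal (Tg O),
    Gw ϖ L T ∅ 0 a → ∀ φ : Tg O →+* DualNumber F, (∀ u ∈ a, φ u = 0) →
    (∀ c, φ (cc c) = inl (red c)) → (φ (tt g₁)).snd = 0 → (φ (tt g₂)).snd = 0 →
    ∀ u, (φ u).snd = 0 := by
  obtain ⟨s, hs, hq⟩ := quad
  obtain ⟨g₁, n1, e1⟩ := shift H.ne L.c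
  obtain ⟨g₂, n2, e2⟩ := shift H.ne s
  refine ⟨g₁, g₂, fun a h φ ha hc z1 z2 => ?_⟩
  have two : (2 : F) = 0 := CharTwo.two_eq_zero
  have eq : ∀ {x y : Tg O}, x - y ∈ a → φ x = φ y := fun hx => by
    have := ha _ hx
    rwa [map_sub, sub_eq_zero] at this
  have nil : ∀ {x : Tg O} {c : O}, (∃ k : ℕ, (x - cc c) ^ k ∈ a) → (φ x).fst = red c := by
    rintro x c ⟨k, hk⟩
    have := congrArg fst (ha _ hk)
    rw [map_pow, fst_pow, fst_zero, map_sub, fst_sub, hc, fst_inl] at this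
    exact sub_eq_zero.1 (eq_zero_of_pow_eq_zero this)
  have cst : ∀ {x : Tg O} {c : O}, x - cc c ∈ a → (φ x).snd = 0 := fun hx => by
    rw [eq hx, hc, snd_inl]
  let d0 : GQ →* DualNumber F :=
    { toFun := fun g => φ (dd g)
      map_one' := (eq h.d1).trans (map_one φ)
      map_mul' := fun g k => (eq (h.dm g k)).trans (map_mul φ _ _) }
  have T0 : TF (fun g => φ (tt g)) d0.toHomUnits :=
    ⟨(eq h.t1).trans (map_ofNat φ 2), fun g k => eq (h.tc g k), fun g k => by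
      have := eq (h.tm g k)
      rwa [map_mul, map_add, map_mul] at this⟩
  have opn : ∀ {b : GQ → F}, (∀ n, (∀ g, φ (tt (g * n)) = φ (tt g)) → b n = 0) → Opn b :=
    fun hb => by
      obtain ⟨U, hU, hu⟩ := h.opn
      exact ⟨U, hU, fun u hu' => hb u fun g => eq (hu u hu' g)⟩
  have unr : ∀ {b : GQ → F}, (∀ n, (∀ g, φ (tt (g * n)) = φ (tt g)) → b n = 0) → Unr L.W b :=
    fun hb l hl h2 hW P hP hlP s hs => hb s fun g => eq (h.unr l hl
      (fun hT => (H.hT l hl hT).elim h2 hW) (Finset.notMem_empty l) P hP hlP s hs g)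
  obtain ⟨g₀, h0⟩ := H.ne
  obtain ⟨p, q, hp, hq', hn, ht, hd⟩ := tan0 T0 χ ψ (fun g => (nil (h.nilt g)).trans (H.tr g))
    (fun g => (nil (h.nild g)).trans (H.det g)) h0 (Loc2.conj_sq H.cj)
    (fun b hb h1 h2 => H.u1 b hb (opn h1) (unr h1) fun c hc => cc_conj hb H.cj hc h2)
    (fun b hb h1 h2 => H.u2 b hb (opn h1) (unr h1) fun c hc => cc_conj hb H.cj hc h2)
  have tT : ∀ g ∈ L.TT, (χ g : F) * p g + ψ g * q g = 0 := fun g hg =>
    (ht g).symm.trans (cst (h.clt g hg))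
  have tD : ∀ g ∈ L.DD, p g + q g = 0 := fun g hg => by
    have := (hd g).symm.trans (cst (h.cld g hg))
    exact (mul_eq_zero.1 this).resolve_left (mul_ne_zero (χ g).ne_zero (ψ g).ne_zero)
  have both : ∀ g, χ g ≠ ψ g → (χ g : F) * p g + ψ g * q g = 0 → p g + q g = 0 → p g = 0 :=
    fun g n1 n2 n3 => by
      have : ((χ g : F) - ψ g) * p g = 0 := by linear_combination n2 - (ψ g : F) * n3
      exact (mul_eq_zero.1 this).resolve_left (sub_ne_zero.2 fun e => n1 (Units.ext e))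
  have tau : ∀ l ∈ L.W, p (L.τ l) = 0 ∧ q (L.τ l) = 0 := fun l hl => by
    have a1 := tT _ ⟨l, hl, Or.inl rfl⟩
    have a2 := tT _ ⟨l, hl, Or.inr (Or.inl rfl)⟩
    have a3 := tT _ ⟨l, hl, Or.inr (Or.inr rfl)⟩
    have a4 := tD _ (Or.inr (Or.inr (Or.inr ⟨l, hl, rfl⟩)))
    have a5 := both _ (H.reg l hl) a3 a4
    have a6 : q (L.g0 l) = 0 := by linear_combination a4 - a5
    rw [hp, hq', a5, a6, map_mul, map_mul, Units.val_mul, Units.val_mul] at a2
    have a7 : ((χ (L.g0 l) : F) - ψ (L.g0 l)) * (χ (L.τ l) * p (L.τ l)) = 0 := by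
      linear_combination a2 - (ψ (L.g0 l) : F) * a1
    have a8 := (mul_eq_zero.1 ((mul_eq_zero.1 a7).resolve_left
      (sub_ne_zero.2 fun e => H.reg l hl (Units.ext e)))).resolve_left (χ _).ne_zero
    rw [a8, mul_zero, zero_add] at a1
    exact ⟨a8, (mul_eq_zero.1 a1).resolve_left (ψ _).ne_zero⟩
  have un0 : ∀ {b : GQ → F}, (∀ g k, b (g * k) = b g + b k) → Opn b → Unr L.W b →
      (∀ l ∈ L.W, b (L.τ l) = 0) → Unr ∅ b := fun hb ho hu h0 l hl h2 _ P hP hlP s hs => by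
    by_cases hW : l ∈ L.W
    · exact addin hb ho hl (H.hP l hW).1 (H.hP l hW).2 (H.tm l hW) (h0 l hW) hP hlP hs
    · exact hu l hl h2 hW P hP hlP s hs
  have op := opn fun n k => (hn n k).1
  have up := un0 hp op (unr fun n k => (hn n k).1) fun l hl => (tau l hl).1
  have ad : ∀ g k, p (g * k) + q (g * k) = (p g + q g) + (p k + q k) := fun g k => by
    rw [hp, hq']; ring
  have z0 : ∀ n, (∀ g, φ (tt (g * n)) = φ (tt g)) → p n + q n = 0 := fun n k => by
    rw [(hn n k).1, (hn n k).2, add_zero]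
  have pq : ∀ g, p g + q g = 0 := hq F L.c H.cj (fun g => p g + q g) ad (opn z0)
    (un0 ad (opn z0) (unr z0) fun l hl => by rw [(tau l hl).1, (tau l hl).2, add_zero])
    (tD _ (Or.inr (Or.inl rfl))) (tD _ (Or.inl (H.h2 ▸ hs)))
  have p0 : ∀ g, p g = 0 := hq F L.c H.cj p hp op up
    ((e1 p hp).symm.trans (both _ n1 ((ht _).symm.trans z1) (pq _)))
    ((e2 p hp).symm.trans (both _ n2 ((ht _).symm.trans z2) (pq _)))
  have q0 : ∀ g, q g = 0 := fun g => by linear_combination pq g - p0 g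
  have gen : ∀ i, (φ (MvPolynomial.X i)).snd = 0 := by
    rintro (g | g | i)
    · exact (ht g).trans (by rw [p0, q0, mul_zero, mul_zero, add_zero])
    · exact (hd g).trans (by rw [pq, mul_zero])
    · rw [show φ (MvPolynomial.X (Sum.inr (Sum.inr i))) = 0 from ha _ (h.yz i (Nat.zero_le i)),
        snd_zero]
  intro u
  induction u using MvPolynomial.induction_on with
  | C c => rw [show φ (MvPolynomial.C c) = inl (red c) from hc c, snd_inl]
  | add u v hu hv => rw [map_add, snd_add, hu, hv, add_zero]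
  | mul_X u i hu => rw [map_mul, DualNumber.snd_mul, hu, gen, mul_zero, zero_mul, add_zero]

end Vale.Agent.P022F.Gen
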