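import Vale.Agent.P022.H472.Lit2

/-!
# P022F: Eisenstein series with bounded coefficients, analytic part
-/

set_option linter.all false

open Complex UpperHalfPlane EisensteinSeries Matrix Filter Topology
open scoped MatrixGroups ModularForm Manifold UpperHalfPlane

noncomputable section

namespace Vale.Agent.P022F.Eis

/-- `∑ φ(c, d) (c z + d) ^ (-k)` -/
def Gs (k : ℤ) (φ : (Fin 2 → ℤ) → ℂ) (z : ℍ) : ℂ := ∑' x, φ x * eisSummand k x z

variable {k : ℤ} {φ : (Fin 2 → ℤ) → ℂ}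

theorem summable (hk : 3 ≤ k) (hφ : ∀ x, ‖φ x‖ ≤ 1) (z : ℍ) :
    Summable fun x => φ x * eisSummand k x z := by
  refine Summable.of_norm_bounded (summable_norm_eisSummand hk z) fun x => ?_
  rw [norm_mul]
  exact mul_le_of_le_one_left (norm_nonneg _) (hφ x)

/-- right multiplication by `γ` -/
def vE (γ : SL(2, ℤ)) : (Fin 2 → ℤ) ≃ (Fin 2 → ℤ) where
  toFun x := x ᵥ* (γ : Matrix (Fin 2) (Fin 2) ℤ)
  invFun x := x ᵥ* ((γ⁻¹ : SL(2, ℤ)) : Matrix (Fin 2) (Fin 2) ℤ)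
  left_inv v := by
    beta_reduce
    rw [vecMul_vecMul]
    have : (γ : Matrix (Fin 2) (Fin 2) ℤ) * ((γ⁻¹ : SL(2, ℤ)) : Matrix (Fin 2) (Fin 2) ℤ) = 1 :=
      congrArg Subtype.val (mul_inv_cancel γ)
    rw [this, vecMul_one]
  right_inv v := by
    beta_reduce
    rw [vecMul_vecMul]
    have : ((γ⁻¹ : SL(2, ℤ)) : Matrix (Fin 2) (Fin 2) ℤ) * (γ : Matrix (Fin 2) (Fin 2) ℤ) = 1 :=
      congrArg Subtype.val (inv_mul_cancel γ)
    rw [this, vecMul_one]

theorem slash (k : ℤ) (φ : (Fin 2 → ℤ) → ℂ) (γ : SL(2, ℤ)) :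
    Gs k (fun x => φ (vE γ x)) ∣[k] γ = Gs k φ := by
  ext1 z
  rw [ModularForm.SL_slash_apply, _root_.zpow_neg,
    mul_inv_eq_iff_eq_mul₀ (zpow_ne_zero _ <| denom_ne_zero _ z), Gs, Gs,
    ← (vE γ).tsum_eq (fun x => φ x * eisSummand k x z), ← tsum_mul_right]
  refine tsum_congr fun x => ?_
  rw [eisSummand_SL2_apply]
  change _ = φ (vE γ x) * eisSummand k (x ᵥ* (γ : Matrix (Fin 2) (Fin 2) ℤ)) z * _
  ring

theorem slash' (k : ℤ) (φ : (Fin 2 → ℤ) → ℂ) (γ : SL(2, ℤ)) :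
    Gs k φ ∣[k] γ = Gs k (fun x => φ ((vE γ).symm x)) := by
  rw [← slash k (fun x => φ ((vE γ).symm x)) γ]
  simp only [Equiv.symm_apply_apply]

theorem bound (hk : 3 ≤ k) (hφ : ∀ x, ‖φ x‖ ≤ 1) {A B : ℝ} (hB : 0 < B) {z : ℍ}
    (hz : z ∈ verticalStrip A B) (x : Fin 2 → ℤ) :
    ‖φ x * eisSummand k x z‖ ≤ r ⟨⟨A, B⟩, hB⟩ ^ (-k : ℝ) * ‖x‖ ^ (-k : ℝ) := by
  have hk' : (0 : ℝ) ≤ k := by exact_mod_cast (by omega : (0 : ℤ) ≤ k)
  rw [norm_mul]
  refine (mul_le_of_le_one_left (norm_nonneg _) (hφ x)).trans ?_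
  have h := summand_bound_of_mem_verticalStrip hk' x hB hz
  rw [eisSummand, norm_zpow, ← Real.rpow_intCast, Int.cast_neg]
  exact h

theorem sumB (hk : 3 ≤ k) (c : ℝ) : Summable fun x : Fin 2 → ℤ => c * ‖x‖ ^ (-k : ℝ) := by
  have hk' : (2 : ℝ) < k := by exact_mod_cast (by omega : (2 : ℤ) < k)
  exact (summable_one_div_norm_rpow hk').mul_left c

theorem tlu (hk : 3 ≤ k) (hφ : ∀ x, ‖φ x‖ ≤ 1) :
    TendstoLocallyUniformly (fun (s : Finset (Fin 2 → ℤ)) (z : ℍ) =>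
      ∑ x ∈ s, φ x * eisSummand k x z) (Gs k φ) atTop := by
  simp only [tendstoLocallyUniformly_iff_forall_isCompact]
  intro K hK
  obtain ⟨A, B, hB, hK'⟩ := subset_verticalStrip_of_isCompact hK
  exact (tendstoUniformlyOn_tsum (hu := sumB hk (r ⟨⟨A, B⟩, hB⟩ ^ (-k : ℝ)))
    (fun p z hz => bound hk hφ hB hz p)).mono hK'

theorem tluOn (hk : 3 ≤ k) (hφ : ∀ x, ‖φ x‖ ≤ 1) :
    TendstoLocallyUniformlyOn (fun (s : Finset (Fin 2 → ℤ)) =>
      ↑ₕ(fun (z : ℍ) => ∑ x ∈ s, φ x * eisSummand k x z)) (↑ₕ(Gs k φ))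
        atTop {z : ℂ | 0 < z.im} := by
  rw [← upperHalfPlaneSet, ← range_coe, ← Set.image_univ]
  apply TendstoLocallyUniformlyOn.comp (s := ⊤) _ _ _ (OpenPartialHomeomorph.continuousOn_symm _)
  · simp only [Set.top_eq_univ, tendstoLocallyUniformlyOn_univ]
    exact tlu hk hφ
  · simp only [IsOpenEmbedding.toOpenPartialHomeomorph_target, Set.top_eq_univ,
      Set.mapsTo_range_iff, Set.mem_univ, forall_const]

theorem holo (hk : 3 ≤ k) (hφ : ∀ x, ‖φ x‖ ≤ 1) :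
    MDifferentiable 𝓘(ℂ) 𝓘(ℂ) (Gs k φ) := by
  rw [UpperHalfPlane.mdifferentiable_iff]
  refine (tluOn hk hφ).differentiableOn (Eventually.of_forall fun s => ?_)
    isOpen_upperHalfPlaneSet
  exact DifferentiableOn.fun_sum fun x _ =>
    (eisSummand_extension_differentiableOn k x).const_mul (φ x)

theorem bdd (hk : 3 ≤ k) (hφ : ∀ x, ‖φ x‖ ≤ 1) : IsBoundedAtImInfty (Gs k φ) := by
  rw [UpperHalfPlane.isBoundedAtImInfty_iff]
  refine ⟨∑' x : Fin 2 → ℤ, r ⟨⟨((1 : ℕ) : ℝ), 2⟩, two_pos⟩ ^ (-k : ℝ) * ‖x‖ ^ (-k : ℝ), 2,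
    fun z hz => ?_⟩
  obtain ⟨n, hn⟩ := ModularGroup_T_zpow_mem_verticalStrip z (N := 1) one_pos
  rw [← slash k φ (ModularGroup.T ^ (((1 : ℕ) : ℤ) * n)), ModularForm.SL_slash_apply]
  have hd : denom (ModularGroup.T ^ (((1 : ℕ) : ℤ) * n) : SL(2, ℤ)) z = 1 := by
    rw [ModularGroup.denom_apply, ModularGroup.coe_T_zpow]
    simp
  rw [hd, _root_.one_zpow, mul_one]
  exact tsum_of_norm_bounded (sumB hk _).hasSum fun x =>
    bound hk (fun x => hφ _) two_pos (verticalStrip_anti_right _ hz hn) x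

theorem lim (hk : 3 ≤ k) (hφ : ∀ x, ‖φ x‖ ≤ 1) (h : Gs k φ = 0) :
    ∑' d : ℤ, φ ![0, d] * (d : ℂ) ^ (-k) = 0 := by
  let z : ℕ → ℍ := fun n => ⟨⟨0, n + 1⟩, by positivity⟩
  have hz : ∀ n, z n ∈ verticalStrip 1 1 := by
    intro n
    constructor
    · change |(0 : ℝ)| ≤ 1
      simp
    · change (1 : ℝ) ≤ n + 1
      have : (0 : ℝ) ≤ n := Nat.cast_nonneg n
      linarith
  let g : (Fin 2 → ℤ) → ℂ := fun x => if x 0 = 0 then φ x * (x 1 : ℂ) ^ (-k) else 0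
  have h1 : ∀ x, Tendsto (fun n => φ x * eisSummand k x (z n)) atTop (𝓝 (g x)) := by
    intro x
    by_cases hx : x 0 = 0
    · simp only [g, if_pos hx, eisSummand, hx, Int.cast_zero, zero_mul, zero_add]
      exact tendsto_const_nhds
    · simp only [g, if_neg hx]
      rw [← mul_zero (φ x)]
      refine Tendsto.const_mul _ ?_
      rw [tendsto_zero_iff_norm_tendsto_zero]
      have h2 : Tendsto (fun n => ‖(x 0 : ℂ) * (z n : ℂ) + x 1‖) atTop atTop := by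
        refine tendsto_atTop_mono (fun n => ?_) tendsto_natCast_atTop_atTop
        refine le_trans ?_ (Complex.abs_im_le_norm _)
        have e : ((x 0 : ℂ) * (z n : ℂ) + x 1).im = x 0 * (n + 1) := by
          simp [z]
        rw [e, abs_mul]
        have h3 : (1 : ℝ) ≤ |(x 0 : ℝ)| := by exact_mod_cast Int.one_le_abs hx
        have h4 : (0 : ℝ) ≤ n := Nat.cast_nonneg n
        rw [abs_of_nonneg (by linarith : (0 : ℝ) ≤ n + 1)]
        nlinarith
      have h5 := (tendsto_zpow_atTop_zero (𝕜 := ℝ) (n := -k) (by omega)).comp h2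
      refine h5.congr fun n => ?_
      simp only [Function.comp_apply, eisSummand, norm_zpow]
  have h6 := tendsto_tsum_of_dominated_convergence
    (sumB hk (r ⟨⟨1, 1⟩, one_pos⟩ ^ (-k : ℝ))) h1
    (Eventually.of_forall fun n x => bound hk hφ one_pos (hz n) x)
  have h7 : (fun n => ∑' x, φ x * eisSummand k x (z n)) = fun _ => 0 := by
    funext n
    exact congrFun h (z n)
  rw [h7] at h6
  have h8 : ∑' x, g x = 0 := (tendsto_nhds_unique tendsto_const_nhds h6).symm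
  have inj : Function.Injective fun d : ℤ => (![0, d] : Fin 2 → ℤ) := fun a b hab => by
    simpa using congrFun hab 1
  rw [← inj.tsum_eq (f := g)] at h8
  · simpa [g] using h8
  · intro x hx
    have hx0 : x 0 = 0 := by
      by_contra h0
      exact hx (if_neg h0)
    refine ⟨x 1, ?_⟩
    funext i
    fin_cases i
    · simpa using hx0.symm
    · simp

theorem sum_ne (a : ℤ → ℂ) (h0 : a 0 = 0) (h1 : a 1 = 1) (h2 : a (-1) = 1)
    (hb : ∀ d : ℤ, ‖a d‖ ≤ 1 / (d : ℝ) ^ 2) : ∑' d, a d ≠ 0 := by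
  intro h
  have hs : Summable a :=
    Summable.of_norm_bounded (Real.summable_one_div_int_pow.2 (by norm_num : 1 < 2)) hb
  have h3 := hs.hasSum.nat_add_neg
  rw [h, h0, add_zero] at h3
  have h4 := (hasSum_nat_add_iff' 2).2 h3
  have h5 := (hasSum_nat_add_iff' 2).2 (hasSum_zeta_two.mul_left 2)
  have h6 := h4.norm_le_of_bounded h5 fun n => by
    refine (norm_add_le _ _).trans ?_
    have e1 := hb ((n + 2 : ℕ) : ℤ)
    have e2 := hb (-((n + 2 : ℕ) : ℤ))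
    rw [Int.cast_neg, neg_sq] at e2
    rw [Int.cast_natCast] at e1 e2
    linarith
  simp only [Finset.sum_range_succ, Finset.range_zero, Finset.sum_empty, Nat.cast_zero,
    Nat.cast_one, neg_zero, h0, h1, h2] at h6
  have h7 : ‖(0 : ℂ) - (0 + (0 + 0) + (1 + 1))‖ = 2 := by norm_num
  rw [h7] at h6
  have h8 := Real.pi_lt_d2
  have h9 := Real.pi_pos
  norm_num at h6
  nlinarith

theorem ne_zero (hk : 3 ≤ k) (hφ : ∀ x, ‖φ x‖ ≤ 1) (h1 : φ ![0, 1] = 1)
    (h2 : φ ![0, -1] = (-1) ^ k) : Gs k φ ≠ 0 := by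
  intro h
  refine sum_ne (fun d => φ ![0, d] * (d : ℂ) ^ (-k)) ?_ ?_ ?_ ?_ (lim hk hφ h)
  · simp only [Int.cast_zero]
    rw [_root_.zero_zpow _ (by omega), mul_zero]
  · simp [h1]
  · simp only [h2, Int.cast_neg, Int.cast_one]
    rw [← zpow_add₀ (by norm_num), add_neg_cancel, zpow_zero]
  · intro d
    rw [norm_mul]
    refine (mul_le_of_le_one_left (norm_nonneg _) (hφ _)).trans ?_
    by_cases hd : d = 0
    · subst hd
      simp only [Int.cast_zero]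
      rw [_root_.zero_zpow _ (by omega)]
      simp
    · have h3 : (1 : ℝ) ≤ |(d : ℝ)| := by exact_mod_cast Int.one_le_abs hd
      rw [norm_zpow, Complex.norm_intCast, ← sq_abs, one_div, ← zpow_ofNat, ← _root_.zpow_neg]
      exact zpow_le_zpow_right₀ h3 (by omega)

end Vale.Agent.P022F.Eis
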