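import Vale.Agent.P022F.Eis0
import Vale.Agent.P022.H220.SerT

/-!
# P022F: the Hecke operators on Eisenstein series
-/

set_option linter.all false

open Complex UpperHalfPlane EisensteinSeries Matrix Filter Topology CongruenceSubgroup
open scoped MatrixGroups ModularForm Manifold UpperHalfPlane

noncomputable section

namespace Vale.Agent.P022F.Eis

open Vale.Agent.P022

variable {φ : (Fin 2 → ℤ) → ℂ}

theorem vec_eq (x : Fin 2 → ℤ) : x = ![x 0, x 1] := by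
  funext i
  fin_cases i <;> simp

/-- a sum along an injective map -/
theorem hs_inj {h : (Fin 2 → ℤ) → ℂ} (A : (Fin 2 → ℤ) → (Fin 2 → ℤ))
    (hA : Function.Injective A) (p : (Fin 2 → ℤ) → Prop) [DecidablePred p]
    (hp : ∀ y, p y ↔ y ∈ Set.range A) {s : ℂ} :
    HasSum (fun x => h (A x)) s ↔ HasSum (fun y => if p y then h y else 0) s := by
  rw [← hA.hasSum_iff (f := fun y => if p y then h y else 0)
    (fun y hy => if_neg fun h' => hy ((hp y).1 h'))]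
  have : ((fun y => if p y then h y else 0) ∘ A) = fun x => h (A x) := by
    funext x
    exact if_pos ((hp _).2 ⟨x, rfl⟩)
  rw [this]

theorem eis_scale (κ : ℕ) (x y : Fin 2 → ℤ) (z z' : ℍ) (c : ℂ) (hc : c ≠ 0)
    (h : (y 0 : ℂ) * z + y 1 = c * (x 0 * z' + x 1)) :
    eisSummand ((κ + 1 : ℕ) : ℤ) x z' = c ^ (κ + 1) * eisSummand ((κ + 1 : ℕ) : ℤ) y z := by
  rw [eisSummand, eisSummand, h, mul_zpow, ← mul_assoc, _root_.zpow_neg c, zpow_natCast,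
    mul_inv_cancel₀ (pow_ne_zero _ hc), one_mul]

theorem hs_up {κ ℓ : ℕ} (hk : 3 ≤ κ + 1) (hℓ : ℓ.Prime) (hφ : ∀ x, ‖φ x‖ ≤ 1) (b : ℂ) (j : ℕ)
    (h : ∀ c d : ℤ, φ ![c, d] = b * φ ![c, c * j + d * ℓ]) (z : ℍ) :
    HasSum (fun y : Fin 2 → ℤ => if (ℓ : ℤ) ∣ y 1 - y 0 * j then
      (ℓ : ℂ) ^ κ * b * (φ y * eisSummand ((κ + 1 : ℕ) : ℤ) y z) else 0)
      ((Gs ((κ + 1 : ℕ) : ℤ) φ ∣[((κ + 1 : ℕ) : ℤ)] (up ℓ hℓ.ne_zero j)) z) := by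
  have hp0 : (ℓ : ℂ) ≠ 0 := by exact_mod_cast hℓ.ne_zero
  have hp1 : (ℓ : ℤ) ≠ 0 := by exact_mod_cast hℓ.ne_zero
  obtain ⟨z', e1, e2⟩ := H220.slash_tri (f := Gs ((κ + 1 : ℕ) : ℤ) φ) (a := 1)
    (b := (j : ℚ)) (d := (ℓ : ℚ)) (by simpa using hℓ.ne_zero) one_pos
    (by exact_mod_cast hℓ.pos) κ z
  rw [up, e2]
  refine (hs_inj (h := fun y => (ℓ : ℂ) ^ κ * b * (φ y * eisSummand ((κ + 1 : ℕ) : ℤ) y z))
    (fun x => ![x 0, x 0 * j + x 1 * ℓ]) ?_ _ ?_).1 ?_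
  · intro x y hxy
    have h0 : x 0 = y 0 := by simpa using congrFun hxy 0
    have h1 : x 0 * j + x 1 * ℓ = y 0 * j + y 1 * ℓ := by simpa using congrFun hxy 1
    rw [h0, add_right_inj] at h1
    rw [vec_eq x, vec_eq y, h0, mul_right_cancel₀ hp1 h1]
  · intro y
    constructor
    · rintro ⟨d, hd⟩
      refine ⟨![y 0, d], ?_⟩
      rw [vec_eq y]
      simp only [cons_val_zero, cons_val_one]
      rw [show y 0 * j + d * ℓ = y 1 by linear_combination -hd]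
    · rintro ⟨x, rfl⟩
      exact ⟨x 1, by simp only [cons_val_zero, cons_val_one]; ring⟩
  · have h2 := (summable (k := ((κ + 1 : ℕ) : ℤ)) (by exact_mod_cast hk) hφ z').hasSum.mul_left
      (((1 : ℚ) : ℂ) ^ κ / ((ℓ : ℚ) : ℂ))
    refine h2.congr_fun fun x => ?_
    rw [eis_scale κ x ![x 0, x 0 * j + x 1 * ℓ] z z' ℓ hp0 (by
      rw [e1]
      simp only [cons_val_zero, cons_val_one]
      push_cast
      field_simp
      ring)]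
    have h3 : φ x = b * φ ![x 0, x 0 * j + x 1 * ℓ] := by
      rw [← h, ← vec_eq]
    rw [h3]
    push_cast
    field_simp
    ring

theorem hs_dn {κ ℓ : ℕ} (hk : 3 ≤ κ + 1) (hℓ : ℓ.Prime) (hφ : ∀ x, ‖φ x‖ ≤ 1) (a b : ℂ)
    (h : ∀ c d : ℤ, φ ![ℓ * c, d] = a * φ ![c, d]) (z : ℍ) :
    HasSum (fun y : Fin 2 → ℤ => if (ℓ : ℤ) ∣ y 0 then
      (ℓ : ℂ) ^ κ * b * (φ y * eisSummand ((κ + 1 : ℕ) : ℤ) y z) else 0)
      ((((a * b) • Gs ((κ + 1 : ℕ) : ℤ) φ) ∣[((κ + 1 : ℕ) : ℤ)] (dn ℓ hℓ.ne_zero)) z) := by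
  have hp1 : (ℓ : ℤ) ≠ 0 := by exact_mod_cast hℓ.ne_zero
  obtain ⟨z', e1, e2⟩ := H220.slash_tri (f := (a * b) • Gs ((κ + 1 : ℕ) : ℤ) φ) (a := (ℓ : ℚ))
    (b := 0) (d := 1) (by simpa using hℓ.ne_zero) (by exact_mod_cast hℓ.pos) one_pos κ z
  rw [dn, e2]
  refine (hs_inj (h := fun y => (ℓ : ℂ) ^ κ * b * (φ y * eisSummand ((κ + 1 : ℕ) : ℤ) y z))
    (fun x => ![ℓ * x 0, x 1]) ?_ _ ?_).1 ?_
  · intro x y hxy
    have h0 : ℓ * x 0 = ℓ * y 0 := by simpa only [cons_val_zero] using congrFun hxy 0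
    have h1 : x 1 = y 1 := by simpa using congrFun hxy 1
    rw [vec_eq x, vec_eq y, h1, mul_left_cancel₀ hp1 h0]
  · intro y
    constructor
    · rintro ⟨c, hc⟩
      refine ⟨![c, y 1], ?_⟩
      rw [vec_eq y]
      simp only [cons_val_zero, cons_val_one]
      rw [hc]
    · rintro ⟨x, rfl⟩
      exact ⟨x 0, by simp only [cons_val_zero]⟩
  · have h2 := ((summable (k := ((κ + 1 : ℕ) : ℤ)) (by exact_mod_cast hk) hφ
      z').hasSum.mul_left (a * b)).mul_left (((ℓ : ℚ) : ℂ) ^ κ / ((1 : ℚ) : ℂ))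
    refine h2.congr_fun fun x => ?_
    rw [eis_scale κ x ![ℓ * x 0, x 1] z z' 1 one_ne_zero (by
      rw [e1]
      simp only [cons_val_zero, cons_val_one]
      push_cast
      ring), h, ← vec_eq]
    push_cast
    ring

theorem hs_sc {κ ℓ : ℕ} (hk : 3 ≤ κ + 1) (hℓ : ℓ.Prime) (hφ : ∀ x, ‖φ x‖ ≤ 1) (a b : ℂ)
    (h : ∀ c d : ℤ, b * φ ![ℓ * c, ℓ * d] = a * φ ![c, d]) (z : ℍ) :
    HasSum (fun y : Fin 2 → ℤ => if (ℓ : ℤ) ∣ y 0 ∧ (ℓ : ℤ) ∣ y 1 then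
      (ℓ : ℂ) ^ (κ + 1) * b * (φ y * eisSummand ((κ + 1 : ℕ) : ℤ) y z) else 0)
      (a * Gs ((κ + 1 : ℕ) : ℤ) φ z) := by
  have hp0 : (ℓ : ℂ) ≠ 0 := by exact_mod_cast hℓ.ne_zero
  have hp1 : (ℓ : ℤ) ≠ 0 := by exact_mod_cast hℓ.ne_zero
  refine (hs_inj (h := fun y => (ℓ : ℂ) ^ (κ + 1) * b * (φ y * eisSummand ((κ + 1 : ℕ) : ℤ) y z))
    (fun x => ![ℓ * x 0, ℓ * x 1]) ?_ _ ?_).1 ?_
  · intro x y hxy
    have h0 : ℓ * x 0 = ℓ * y 0 := by simpa only [cons_val_zero] using congrFun hxy 0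
    have h1 : ℓ * x 1 = ℓ * y 1 := by
      simpa only [cons_val_one, cons_val_zero] using congrFun hxy 1
    rw [vec_eq x, vec_eq y, mul_left_cancel₀ hp1 h0, mul_left_cancel₀ hp1 h1]
  · intro y
    constructor
    · rintro ⟨⟨c, hc⟩, d, hd⟩
      refine ⟨![c, d], ?_⟩
      rw [vec_eq y]
      simp only [cons_val_zero, cons_val_one]
      rw [hc, hd]
    · rintro ⟨x, rfl⟩
      exact ⟨⟨x 0, by simp only [cons_val_zero]⟩,
        ⟨x 1, by simp only [cons_val_zero, cons_val_one]⟩⟩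
  · have h2 := (summable (k := ((κ + 1 : ℕ) : ℤ)) (by exact_mod_cast hk) hφ z).hasSum.mul_left a
    refine h2.congr_fun fun x => ?_
    rw [eis_scale κ x ![ℓ * x 0, ℓ * x 1] z z ℓ hp0 (by
      simp only [cons_val_zero, cons_val_one]
      push_cast
      ring)]
    have h3 := h (x 0) (x 1)
    rw [← vec_eq] at h3
    linear_combination ((ℓ : ℂ) ^ (κ + 1) *
      eisSummand ((κ + 1 : ℕ) : ℤ) ![ℓ * x 0, ℓ * x 1] z) * h3

/-- the number of sublattices of index `ℓ` which contain a vector -/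
theorem count {ℓ : ℕ} (hℓ : ℓ.Prime) (c d : ℤ) (w : ℂ) :
    (∑ j : Fin ℓ, if (ℓ : ℤ) ∣ d - c * (j : ℕ) then w else 0) + (if (ℓ : ℤ) ∣ c then w else 0) =
      w + if (ℓ : ℤ) ∣ c ∧ (ℓ : ℤ) ∣ d then ℓ * w else 0 := by
  haveI := Fact.mk hℓ
  by_cases hc : (ℓ : ℤ) ∣ c
  · have h1 : ∀ j : Fin ℓ, (ℓ : ℤ) ∣ d - c * (j : ℕ) ↔ (ℓ : ℤ) ∣ d := fun j =>
      dvd_sub_left (hc.mul_right _)
    simp only [h1, hc, if_true, true_and, Finset.sum_const, Finset.card_univ, Fintype.card_fin,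
      nsmul_eq_mul]
    split_ifs <;> ring
  · have hc' : (c : ZMod ℓ) ≠ 0 := fun h => hc ((ZMod.intCast_zmod_eq_zero_iff_dvd c ℓ).1 h)
    have h1 : ∀ j : Fin ℓ, (ℓ : ℤ) ∣ d - c * (j : ℕ) ↔
        j = ⟨((d : ZMod ℓ) / c).val, ZMod.val_lt _⟩ := by
      intro j
      rw [← ZMod.intCast_zmod_eq_zero_iff_dvd]
      push_cast
      rw [sub_eq_zero, Fin.ext_iff]
      change _ ↔ (j : ℕ) = ((d : ZMod ℓ) / c).val
      constructor
      · intro h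
        rw [h, mul_div_cancel_left₀ _ hc', ZMod.val_cast_of_lt j.2]
      · intro h
        rw [h, ZMod.natCast_zmod_val, mul_div_cancel₀ _ hc']
    simp only [h1, hc, if_false, false_and, Finset.sum_ite_eq', Finset.mem_univ, if_true]

/-- the Hecke operator -/
theorem tFun_eq {N κ : ℕ} (hk : 3 ≤ κ + 1) (ℓ : PA N) (hφ : ∀ x, ‖φ x‖ ≤ 1) (a b : ℂ)
    (hD : dFun N (κ + 1) ℓ (Gs ((κ + 1 : ℕ) : ℤ) φ) = (a * b) • Gs ((κ + 1 : ℕ) : ℤ) φ)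
    (h1 : ∀ c d : ℤ, φ ![ℓ.1 * c, d] = a * φ ![c, d])
    (h2 : ∀ (c d : ℤ) (j : ℕ), φ ![c, d] = b * φ ![c, c * j + d * ℓ.1]) :
    tFun N (κ + 1) ℓ (Gs ((κ + 1 : ℕ) : ℤ) φ) =
      (a + b * (ℓ.1 : ℂ) ^ κ) • Gs ((κ + 1 : ℕ) : ℤ) φ := by
  funext z
  have hℓ := ℓ.2.1
  have s1 := (hasSum_sum (fun (j : Fin ℓ.1) (_ : j ∈ (Finset.univ : Finset (Fin ℓ.1))) =>
    hs_up hk hℓ hφ b j (fun c d => h2 c d j) z)).add (hs_dn hk hℓ hφ a b h1 z)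
  have s2 := ((summable (k := ((κ + 1 : ℕ) : ℤ)) (by exact_mod_cast hk) hφ z).hasSum.mul_left
    ((ℓ.1 : ℂ) ^ κ * b)).add (hs_sc hk hℓ hφ a b (fun c d => by
      rw [← h1, h2 (ℓ.1 * c) d 0]
      simp only [Nat.cast_zero, mul_zero, zero_add, mul_comm d]) z)
  have s3 := s1.unique (s2.congr_fun fun y => by
    rw [count hℓ]
    congr 1
    split_ifs
    · ring
    · rfl)
  rw [tFun, hD, Pi.add_apply, Finset.sum_apply, s3, Pi.smul_apply, smul_eq_mul, Gs]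
  ring

end Vale.Agent.P022F.Eis
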