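import Vale.Agent.P022D.As.Act
import Vale.Agent.P022D.R.Gas
import Vale.Agent.P022D.CA.Cpl
import Vale.Agent.P022D.Core.Defs

/-!
# P022F: the end game without patching (modules over a power series ring in two variables)
-/

set_option linter.all false

open IsLocalRing Filter

noncomputable section

namespace Vale.Agent.P022F.End0

open Vale.Agent.P022D
open Vale.Agent.P022D.As (Dir Cmp Ad gr mem_gr)
open Vale.Agent.P022D.R (evl Van)
open Vale.Agent.P022D.Core (Coef)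

section ps
variable {O σ : Type} [CommRing O] [IsDomain O] [IsDiscreteValuationRing O] [Fintype σ]

/-- compactness -/
theorem cpt [Coef O] {α : Type} [Nonempty α] (A : α → Set (MvPowerSeries σ O))
    (dir : ∀ i j, ∃ k, A k ⊆ A i ∧ A k ⊆ A j) (ne : ∀ i, (A i).Nonempty)
    (cl : ∀ i, ∃ k : ℕ, ∀ x ∈ A i, ∀ y, x - y ∈ maximalIdeal (MvPowerSeries σ O) ^ k → y ∈ A i) :
    ∃ y, ∀ i, y ∈ A i := by
  letI : Preorder α := Preorder.lift A
  obtain ⟨U, hU⟩ := R.exists_ultra (α := α) dir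
  choose x hx using ne
  haveI := CA.Cpl.isAdicCompleteV (σ := σ) (Coef.cpl (O := O))
  haveI := Coef.fin (O := O)
  have hf : Finite (MvPowerSeries σ O ⧸ maximalIdeal (MvPowerSeries σ O)) :=
    CA.Cpl.finite_residue (σ := σ) (V := O)
  obtain ⟨y, hy⟩ := R.ulim_adic U x (maximalIdeal (MvPowerSeries σ O)) fun k =>
    Ideal.finite_quotient_pow (IsNoetherian.noetherian _) k
  refine ⟨y, fun i => ?_⟩
  obtain ⟨k, hk⟩ := cl i
  obtain ⟨p, h1, h2⟩ := ((hU i).and (hy k)).exists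
  exact hk _ (h1 (hx p)) y h2

theorem dim_le {K : Type} [Field K] : ringKrullDim (MvPowerSeries (Fin 2) K) ≤ 2 := by
  classical
  have e : maximalIdeal (MvPowerSeries (Fin 2) K) =
      Ideal.span (Set.range (MvPowerSeries.X : Fin 2 → MvPowerSeries (Fin 2) K)) := by
    refine le_antisymm (fun f hf => ?_) (Ideal.span_le.2 ?_)
    · rw [CA.Cpl.mem_max_iff, maximalIdeal_eq_bot, Ideal.mem_bot] at hf
      obtain ⟨g, hg, -⟩ := CA.Cpl.exists_decompV f hf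
      rw [hg]
      exact Ideal.sum_mem _ fun s _ => Ideal.mul_mem_right _ _ (Ideal.subset_span ⟨s, rfl⟩)
    · rintro _ ⟨s, rfl⟩
      rw [SetLike.mem_coe, CA.Cpl.mem_max_iff, MvPowerSeries.constantCoeff_X]
      exact Ideal.zero_mem _
  refine (ringKrullDim_le_spanFinrank_maximalIdeal _).trans ?_
  have h1 := Submodule.spanFinrank_span_le_ncard_of_finite (R := MvPowerSeries (Fin 2) K)
    (Set.finite_range (MvPowerSeries.X : Fin 2 → MvPowerSeries (Fin 2) K))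
  have h2 : (Set.range (MvPowerSeries.X : Fin 2 → MvPowerSeries (Fin 2) K)).ncard ≤ 2 := by
    rw [← Set.image_univ]
    refine (Set.ncard_image_le).trans ?_
    rw [Set.ncard_univ, Nat.card_fin]
  rw [e]
  exact_mod_cast h1.trans h2

theorem dvd_iff {ϖ : O} (hϖ : Irreducible ϖ) (f : MvPowerSeries σ O) :
    MvPowerSeries.C ϖ ∣ f ↔ MvPowerSeries.map (residue O) f = 0 := by
  constructor
  · rintro ⟨g, rfl⟩
    rw [map_mul, MvPowerSeries.map_C, (residue_eq_zero_iff ϖ).2 hϖ.not_isUnit, map_zero, zero_mul]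
  · intro h
    have : ∀ d, ∃ c, MvPowerSeries.coeff d f = ϖ * c := fun d => by
      have h1 := congrArg (MvPowerSeries.coeff d) h
      rw [MvPowerSeries.coeff_map, map_zero, residue_eq_zero_iff, hϖ.maximalIdeal_eq,
        Ideal.mem_span_singleton] at h1
      exact h1
    choose c hc using this
    let g : MvPowerSeries σ O := fun d => c d
    refine ⟨g, ?_⟩
    ext d
    rw [MvPowerSeries.coeff_C_mul, hc]
    rfl

theorem map_surj : Function.Surjective (MvPowerSeries.map (σ := σ) (residue O)) := fun f => by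
  choose c hc using fun d => residue_surjective (R := O) (MvPowerSeries.coeff d f)
  let g : MvPowerSeries σ O := fun d => c d
  refine ⟨g, ?_⟩
  ext d
  rw [MvPowerSeries.coeff_map, ← hc]
  rfl

theorem dvd_of_pow {ϖ : O} (hϖ : Irreducible ϖ) {f : MvPowerSeries σ O} {k : ℕ}
    (h : MvPowerSeries.C ϖ ∣ f ^ k) : MvPowerSeries.C ϖ ∣ f := by
  rw [dvd_iff hϖ] at h ⊢
  rw [map_pow] at h
  exact pow_eq_zero_iff' |>.1 h |>.1

/-- a prime of dimension two over the uniformiser -/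
theorem dvd_of_dim {ϖ : O} (hϖ : Irreducible ϖ) {𝔭 : Ideal (MvPowerSeries (Fin 2) O)}
    (h0 : MvPowerSeries.C ϖ ∈ 𝔭) (h2 : (2 : WithBot ℕ∞) ≤ ringKrullDim (_ ⧸ 𝔭))
    {f : MvPowerSeries (Fin 2) O} (hf : f ∈ 𝔭) : MvPowerSeries.C ϖ ∣ f := by
  by_contra hn
  rw [dvd_iff hϖ] at hn
  have hk : RingHom.ker (MvPowerSeries.map (σ := Fin 2) (residue O)) ≤
      RingHom.ker (Ideal.Quotient.mk 𝔭) := fun g hg => by
    obtain ⟨c, rfl⟩ := (dvd_iff hϖ g).2 hg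
    exact Ideal.Quotient.eq_zero_iff_mem.2 (𝔭.mul_mem_right _ h0)
  let φ := RingHom.liftOfSurjective _ (map_surj (O := O) (σ := Fin 2)) ⟨_, hk⟩
  have hφ : ∀ g, φ (MvPowerSeries.map (residue O) g) = Ideal.Quotient.mk 𝔭 g := fun g =>
    RingHom.liftOfRightInverse_comp_apply _ _ _ _ g
  have hs : Function.Surjective φ := fun y => by
    obtain ⟨g, rfl⟩ := Ideal.Quotient.mk_surjective y
    exact ⟨_, hφ g⟩
  have h3 := ringKrullDim_succ_le_of_surjective φ hs (mem_nonZeroDivisors_of_ne_zero hn)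
    ((hφ f).trans (Ideal.Quotient.eq_zero_iff_mem.2 hf))
  have h4 : (2 : WithBot ℕ∞) + 1 ≤ 2 := (add_le_add_left h2 1).trans (h3.trans dim_le)
  exact absurd h4 (by decide)

/-- finitely many elements suffice -/
theorem chev [Coef O] {ϖ : O} (hϖ : Irreducible ϖ) {W : Type} [AddCommGroup W]
    [Module (MvPowerSeries σ O) W]
    (dis : ∀ w : W, ∃ k : ℕ, ∀ u ∈ maximalIdeal (MvPowerSeries σ O) ^ k, u • w = 0)
    (V : Set W) (j : ℕ)
    (h : ∀ f : MvPowerSeries σ O, (∀ w ∈ V, f • w = 0) → MvPowerSeries.C ϖ ^ j ∣ f) :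
    ∃ s : Finset V, ∀ u : MvPowerSeries σ O, (∀ w ∈ s, u • (w : W) = 0) →
      ϖ ^ j ∣ MvPowerSeries.constantCoeff u := by
  classical
  by_contra hn
  push Not at hn
  choose k hk using dis
  obtain ⟨y, hy⟩ := cpt (O := O) (σ := σ) (fun s : Finset V =>
    {u | (∀ w ∈ s, u • (w : W) = 0) ∧ ¬ ϖ ^ j ∣ MvPowerSeries.constantCoeff u})
    (fun s t => ⟨s ∪ t, fun u hu => ⟨fun w hw => hu.1 w (Finset.mem_union_left _ hw), hu.2⟩,
      fun u hu => ⟨fun w hw => hu.1 w (Finset.mem_union_right _ hw), hu.2⟩⟩) hn fun s => by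
      refine ⟨j + s.sup fun w => k w, fun x hx y hxy => ⟨fun w hw => ?_, fun hd => hx.2 ?_⟩⟩
      · have h1 : k w ≤ j + s.sup fun w => k w :=
          (Finset.le_sup (f := fun w : V => k w) hw).trans (Nat.le_add_left _ _)
        have h2 := hk w _ (Ideal.pow_le_pow_right h1 hxy)
        rwa [sub_smul, hx.1 w hw, zero_sub, neg_eq_zero] at h2
      · have h2 := CA.Cpl.pow_le_JI _ (Ideal.pow_le_pow_right (Nat.le_add_right _ _) hxy) 0
        rw [map_zero, Nat.sub_zero, hϖ.maximalIdeal_eq, Ideal.span_singleton_pow,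
          Ideal.mem_span_singleton, map_sub] at h2
        have h3 := dvd_add h2 hd
        rwa [show MvPowerSeries.constantCoeff y = MvPowerSeries.coeff 0 y from rfl,
          sub_add_cancel] at h3
  refine (hy ∅).2 ?_
  have h4 := map_dvd MvPowerSeries.constantCoeff
    (h y fun w hw => (hy {⟨w, hw⟩}).1 ⟨w, hw⟩ (Finset.mem_singleton_self _))
  rwa [map_pow, MvPowerSeries.constantCoeff_C] at h4

end ps

section mod
variable {P : Type} [CommRing P]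

/-- division by the uniformiser -/
theorem flat_dvd {W : Type} [AddCommGroup W] [Module P W] (π : P) (n : ℕ)
    (fl : ∀ w : W, π • w = 0 → ∃ w' : W, w = π ^ n • w')
    (h1 : ∀ g : P, (∀ w : W, π • w = 0 → g • w = 0) → π ∣ g) :
    ∀ j ≤ n + 1, ∀ f : P, (∀ w : W, π ^ j • w = 0 → f • w = 0) → π ^ j ∣ f := by
  intro j
  induction j with
  | zero => intro _ f _; rw [pow_zero]; exact one_dvd f
  | succ j ih =>
    intro hj f hf
    obtain ⟨g, rfl⟩ := ih (by omega) f fun w hw => hf w (by rw [pow_succ', mul_smul, hw, smul_zero])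
    rw [pow_succ]
    refine mul_dvd_mul_left _ (h1 g fun w hw => ?_)
    obtain ⟨w', rfl⟩ := fl w hw
    obtain ⟨d, rfl⟩ := Nat.exists_eq_add_of_le (show j ≤ n by omega)
    have h2 := hf (π ^ d • w') (by rw [← hw, smul_smul, smul_smul]; congr 1; ring)
    rw [← h2, smul_smul, smul_smul]
    congr 1
    ring

/-- a power of `g` kills the module -/
def Nl (g : P) (Y : Type) [AddCommGroup Y] [Module P Y] : Prop := ∃ k : ℕ, ∀ w : Y, g ^ k • w = 0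

variable {A B C : Type} [AddCommGroup A] [Module P A] [AddCommGroup B] [Module P B]
  [AddCommGroup C] [Module P C] {g : P}

theorem Nl.inj (h : Nl g B) (f : A →ₗ[P] B) (hf : Function.Injective f) : Nl g A :=
  h.imp fun k hk w => hf (by rw [map_smul, hk, map_zero])

theorem nl_iff (f : A →ₗ[P] B) (f' : B →ₗ[P] C) (h1 : Function.Injective f)
    (h2 : Function.Exact f f') (h3 : Function.Surjective f') : Nl g B ↔ Nl g A ∧ Nl g C := by
  refine ⟨fun h => ⟨h.inj f h1, h.imp fun k hk w => ?_⟩, fun ⟨⟨a, ha⟩, b, hb⟩ => ⟨a + b, fun w => ?_⟩⟩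
  · obtain ⟨w, rfl⟩ := h3 w
    rw [← map_smul, hk, map_zero]
  · obtain ⟨v, hv⟩ := (h2 (g ^ b • w)).1 (by rw [map_smul, hb])
    rw [pow_add, mul_smul, ← hv, ← map_smul, ha, map_zero]

end mod

section sys
variable {O T σ : Type} [CommRing O] [IsDomain O] [IsDiscreteValuationRing O] [CommRing T]
  [Fintype σ]

/-- a family of ideals whose quotients are generated by the elements `v s` -/
structure Sys (ϖ : O) (ι : O →+* T) (ev : T →+* O) (v : σ → T) (𝔊 : Set (Ideal T)) : Prop where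
  irr : Irreducible ϖ
  ec : ∀ c, ev (ι c) = c
  e0 : ∀ s, ev (v s) = 0
  inf : ∀ a ∈ 𝔊, ∀ b ∈ 𝔊, a ⊓ b ∈ 𝔊
  pk : ∀ k : ℕ, (Ideal.span {ϖ ^ (k + 1)}).comap ev ∈ 𝔊
  nil0 : ∀ a ∈ 𝔊, ∃ k : ℕ, ι ϖ ^ k ∈ a
  nil : ∀ a ∈ 𝔊, ∀ s, ∃ k : ℕ, v s ^ k ∈ a
  gen : ∀ a ∈ 𝔊, ∀ p, ∃ f : MvPolynomial σ O, p - MvPolynomial.eval₂Hom ι v f ∈ a

/-- the evaluation modulo `a` -/
def Ph (ι : O →+* T) (v : σ → T) (a : Ideal T) : MvPowerSeries σ O →+* T ⧸ a :=
  evl ((Ideal.Quotient.mk a).comp ι) fun s => Ideal.Quotient.mk a (v s)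

/-- the correspondences -/
def GG (ι : O →+* T) (v : σ → T) (𝔊 : Set (Ideal T)) : Set (Subring (MvPowerSeries σ O × T)) :=
  {Γ | ∃ a ∈ 𝔊, Γ = gr (Ph ι v a) (Ideal.Quotient.mk a)}

/-- every element is killed by an ideal of the family -/
def Gd (𝔊 : Set (Ideal T)) (Y : Type) [AddCommGroup Y] [Module T Y] : Prop :=
  ∀ w : Y, ∃ a ∈ 𝔊, ∀ t ∈ a, t • w = 0

variable {ϖ : O} {ι : O →+* T} {ev : T →+* O} {v : σ → T} {𝔊 : Set (Ideal T)} {a b : Ideal T}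

theorem Sys.van (h : Sys ϖ ι ev v 𝔊) (ha : a ∈ 𝔊) :
    ∃ n, Van ((Ideal.Quotient.mk a).comp ι) (fun s => Ideal.Quotient.mk a (v s)) n := by
  have h1 : Ideal.span (Set.range fun s => Ideal.Quotient.mk a (v s)) ≤ (⊥ : Ideal _).radical := by
    refine Ideal.span_le.2 ?_
    rintro _ ⟨s, rfl⟩
    obtain ⟨k, hk⟩ := h.nil a ha s
    exact ⟨k, by rw [← map_pow, Ideal.mem_bot, Ideal.Quotient.eq_zero_iff_mem]; exact hk⟩
  obtain ⟨n, hn⟩ := Ideal.exists_pow_le_of_le_radical_of_fg h1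
    (Submodule.fg_span (Set.finite_range _))
  exact ⟨n, R.van_of_pow _ _ _ (le_bot_iff.1 hn) fun s => Ideal.subset_span ⟨s, rfl⟩⟩

theorem Sys.ker (h : Sys ϖ ι ev v 𝔊) (ha : a ∈ 𝔊) :
    ∃ k : ℕ, ∀ u ∈ maximalIdeal (MvPowerSeries σ O) ^ k, Ph ι v a u = 0 := by
  obtain ⟨n, hn⟩ := h.van ha
  obtain ⟨m, hm⟩ := h.nil0 a ha
  refine ⟨n + m, fun u hu => R.evl_eq_zero hn fun d hd => ?_⟩
  have h1 := Ideal.pow_le_pow_right (show m ≤ n + m - d.degree by omega) (CA.Cpl.pow_le_JI _ hu d)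
  rw [h.irr.maximalIdeal_eq, Ideal.span_singleton_pow, Ideal.mem_span_singleton] at h1
  obtain ⟨c, hc⟩ := h1
  rw [RingHom.comp_apply, Ideal.Quotient.eq_zero_iff_mem, hc, map_mul, map_pow]
  exact a.mul_mem_right _ hm

theorem Sys.fac (h : Sys ϖ ι ev v 𝔊) (ha : a ∈ 𝔊) (e : a ≤ b) {u : MvPowerSeries σ O} {t : T}
    (k : Ph ι v a u = Ideal.Quotient.mk a t) : Ph ι v b u = Ideal.Quotient.mk b t := by
  obtain ⟨n, hn⟩ := h.van ha
  have h1 := R.map_evl hn (Ideal.Quotient.factor e) u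
  rw [show evl _ _ u = Ph ι v a u from rfl, k] at h1
  exact h1.symm

theorem Sys.sur (h : Sys ϖ ι ev v 𝔊) (ha : a ∈ 𝔊) (t : T) :
    ∃ u, Ph ι v a u = Ideal.Quotient.mk a t := by
  obtain ⟨n, hn⟩ := h.van ha
  obtain ⟨f, hf⟩ := h.gen a ha t
  refine ⟨f, (R.evl_coe hn f).trans ?_⟩
  rw [Ideal.Quotient.eq.2 hf, MvPolynomial.map_eval₂Hom]

theorem Sys.cst (h : Sys ϖ ι ev v 𝔊) (ha : a ∈ 𝔊) (c : O) :
    Ph ι v a (MvPowerSeries.C c) = Ideal.Quotient.mk a (ι c) := by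
  obtain ⟨n, hn⟩ := h.van ha
  exact R.evl_C hn c

theorem Sys.pt (h : Sys ϖ ι ev v 𝔊) (k : ℕ) {u : MvPowerSeries σ O} {t : T}
    (e : Ph ι v ((Ideal.span {ϖ ^ (k + 1)}).comap ev) u = Ideal.Quotient.mk _ t) :
    ϖ ^ (k + 1) ∣ MvPowerSeries.constantCoeff u - ev t := by
  have h1 : (fun s => Ideal.Quotient.mk ((Ideal.span {ϖ ^ (k + 1)}).comap ev) (v s)) =
      fun _ => 0 := funext fun s => Ideal.Quotient.eq_zero_iff_mem.2 (by
        rw [Ideal.mem_comap, h.e0]; exact Ideal.zero_mem _)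
  rw [Ph, h1, R.evl_zero, RingHom.comp_apply, Ideal.Quotient.eq, Ideal.mem_comap, map_sub, h.ec,
    Ideal.mem_span_singleton] at e
  exact e

theorem Sys.dir (h : Sys ϖ ι ev v 𝔊) : Dir (GG ι v 𝔊) where
  sur := by
    rintro _ ⟨a, ha, rfl⟩ f
    obtain ⟨t, ht⟩ := Ideal.Quotient.mk_surjective (Ph ι v a f)
    exact ⟨t, mem_gr.2 ht.symm⟩
  dir := by
    rintro _ ⟨a, ha, rfl⟩ _ ⟨b, hb, rfl⟩
    exact ⟨_, ⟨_, h.inf a ha b hb, rfl⟩,
      fun x hx => h.fac (h.inf a ha b hb) inf_le_left hx,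
      fun x hx => h.fac (h.inf a ha b hb) inf_le_right hx⟩

theorem Sys.ne (h : Sys ϖ ι ev v 𝔊) : (GG ι v 𝔊).Nonempty := ⟨_, _, h.pk 0, rfl⟩

theorem Sys.mu [Coef O] (h : Sys ϖ ι ev v 𝔊) (t : T) :
    ∃ u, ∀ a ∈ 𝔊, Ph ι v a u = Ideal.Quotient.mk a t := by
  haveI : Nonempty 𝔊 := ⟨⟨_, h.pk 0⟩⟩
  obtain ⟨y, hy⟩ := cpt (O := O) (σ := σ)
    (fun a : 𝔊 => {u | Ph ι v a.1 u = Ideal.Quotient.mk a.1 t})
    (fun a b => ⟨⟨_, h.inf _ a.2 _ b.2⟩, fun x hx => h.fac (h.inf _ a.2 _ b.2) inf_le_left hx,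
      fun x hx => h.fac (h.inf _ a.2 _ b.2) inf_le_right hx⟩) (fun a => h.sur a.2 t) fun a => by
      obtain ⟨k, hk⟩ := h.ker a.2
      refine ⟨k, fun x hx y hxy => ?_⟩
      have h1 := hk _ hxy
      rw [map_sub, sub_eq_zero] at h1
      exact h1.symm.trans hx
  exact ⟨y, fun a ha => hy ⟨a, ha⟩⟩

variable {Y : Type} [AddCommGroup Y] [Module T Y]

theorem ad_of {w : Y} (h : ∀ t ∈ a, t • w = 0) : Ad (gr (Ph ι v a) (Ideal.Quotient.mk a)) w :=
  fun t ht => h t (Ideal.Quotient.eq_zero_iff_mem.1 ((mem_gr.1 ht).symm.trans (map_zero _)))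

theorem Sys.mod (h : Sys ϖ ι ev v 𝔊) (hY : Gd 𝔊 Y) :
    ∃ _ : Module (MvPowerSeries σ O) Y, Cmp (GG ι v 𝔊) Y :=
  h.dir.exists_mod fun w => by
    obtain ⟨a, ha, e⟩ := hY w
    exact ⟨_, ⟨a, ha, rfl⟩, ad_of e⟩

variable [Module (MvPowerSeries σ O) Y]

theorem act (hc : Cmp (GG ι v 𝔊) Y) {u : MvPowerSeries σ O} {t : T}
    (e : ∀ a ∈ 𝔊, Ph ι v a u = Ideal.Quotient.mk a t) (w : Y) : u • w = t • w :=
  hc.all (by rintro _ ⟨a, ha, rfl⟩; exact e a ha) w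

theorem Sys.act_pow (h : Sys ϖ ι ev v 𝔊) (hc : Cmp (GG ι v 𝔊) Y) (k : ℕ) (w : Y) :
    (MvPowerSeries.C ϖ : MvPowerSeries σ O) ^ k • w = ι ϖ ^ k • w :=
  act hc (fun a ha => by rw [map_pow, map_pow, h.cst ha]) w

theorem Sys.dis (h : Sys ϖ ι ev v 𝔊) (hc : Cmp (GG ι v 𝔊) Y) (w : Y) :
    ∃ k : ℕ, ∀ u ∈ maximalIdeal (MvPowerSeries σ O) ^ k, u • w = 0 := by
  obtain ⟨_, ⟨a, ha, rfl⟩, e⟩ := hc w
  obtain ⟨k, hk⟩ := h.ker ha
  exact ⟨k, fun u hu => (e u 0 (mem_gr.2 ((hk u hu).trans (map_zero _).symm))).trans (zero_smul _ _)⟩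

end sys

section two
variable {O T : Type} [CommRing O] [IsDomain O] [IsDiscreteValuationRing O] [Coef O] [CommRing T]
  {ϖ : O} {ι : O →+* T} {ev : T →+* O} {v : Fin 2 → T} {𝔊 : Set (Ideal T)}
  {Y : Type} [AddCommGroup Y] [Module T Y] [Module (MvPowerSeries (Fin 2) O) Y]

/-- the annihilator of a big module -/
theorem Sys.ann (h : Sys ϖ ι ev v 𝔊) (hc : Cmp (GG ι v 𝔊) Y) (h0 : ∀ w : Y, ι ϖ • w = 0)
    (big : (∀ (u : MvPowerSeries (Fin 2) O) (s : Finset Y), ∃ p : T, ∀ w ∈ s, u • w = p • w) →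
      (∀ u ∈ maximalIdeal (MvPowerSeries (Fin 2) O), ∀ w : Y, ∃ k : ℕ, u ^ k • w = 0) →
      (∀ p : T, ∃ u : MvPowerSeries (Fin 2) O, (p ∈ (maximalIdeal O).comap ev →
        u ∈ maximalIdeal (MvPowerSeries (Fin 2) O)) ∧ ∀ w : Y, u • w = p • w) →
      ∃ 𝔭 : Ideal (MvPowerSeries (Fin 2) O), 𝔭.IsPrime ∧ Module.annihilator _ Y ≤ 𝔭 ∧
        (2 : WithBot ℕ∞) ≤ ringKrullDim (_ ⧸ 𝔭))
    {g : MvPowerSeries (Fin 2) O} (hg : Nl g Y) : MvPowerSeries.C ϖ ∣ g := by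
  refine (big (fun u s => ?_) (fun u hu w => ?_) fun p => ?_).elim fun 𝔭 ⟨_, h1, h2⟩ => ?_
  rotate_left 3
  · obtain ⟨k, hk⟩ := hg
    refine dvd_of_pow h.irr (k := k) (dvd_of_dim h.irr (h1 (Module.mem_annihilator.2 fun w => ?_))
      h2 (h1 (Module.mem_annihilator.2 hk)))
    have := h.act_pow hc 1 w
    rwa [pow_one, pow_one, h0] at this
  · obtain ⟨Γ, h1, h2⟩ := hc.fin h.dir h.ne s
    obtain ⟨t, ht⟩ := h.dir.sur Γ h1 u
    exact ⟨t, fun w hw => h2 w hw u t ht⟩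
  · obtain ⟨k, hk⟩ := h.dis hc w
    exact ⟨k, hk _ (Ideal.pow_mem_pow hu k)⟩
  · obtain ⟨u, hu⟩ := h.mu p
    refine ⟨u, fun hp => ?_, act hc hu⟩
    have h1 := h.pt 0 (hu _ (h.pk 0))
    rw [zero_add, pow_one, ← Ideal.mem_span_singleton, ← h.irr.maximalIdeal_eq] at h1
    rw [CA.Cpl.mem_max_iff, ← sub_add_cancel (MvPowerSeries.constantCoeff u) (ev p)]
    exact Ideal.add_mem _ h1 hp

/-- the end: finitely many elements detect the point -/
theorem Sys.fin (h : Sys ϖ ι ev v 𝔊) (hc : Cmp (GG ι v 𝔊) Y) (n : ℕ)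
    (fl : ∀ w : Y, ι ϖ • w = 0 → ∃ w' : Y, w = ι ϖ ^ n • w')
    (h1 : ∀ g : MvPowerSeries (Fin 2) O, (∀ w : Y, ι ϖ • w = 0 → g • w = 0) →
      MvPowerSeries.C ϖ ∣ g) :
    ∃ s : Finset {w : Y | ι ϖ ^ n • w = 0}, ∀ p : T, (∀ w ∈ s, p • (w : Y) = 0) →
      ϖ ^ n ∣ ev p := by
  have e1 : ∀ w : Y, (MvPowerSeries.C ϖ : MvPowerSeries (Fin 2) O) • w = ι ϖ • w := fun w => by
    have := h.act_pow hc 1 w
    rwa [pow_one, pow_one] at this
  have h2 := flat_dvd (W := Y) (MvPowerSeries.C ϖ : MvPowerSeries (Fin 2) O) n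
    (fun w hw => (fl w (e1 w ▸ hw)).imp fun w' e => e.trans (h.act_pow hc n w').symm)
    (fun g hg => h1 g fun w hw => hg w ((e1 w).trans hw)) n (Nat.le_succ n)
  obtain ⟨s, hs⟩ := chev h.irr (h.dis hc) {w : Y | ι ϖ ^ n • w = 0} n
    fun f hf => h2 f fun w hw => hf w ((h.act_pow hc n w).symm.trans hw)
  refine ⟨s, fun p hp => ?_⟩
  obtain ⟨u, hu⟩ := h.mu p
  have h3 := hs u fun w hw => (act hc hu _).trans (hp w hw)
  have h4 := (pow_dvd_pow ϖ (Nat.le_succ n)).trans (h.pt n (hu _ (h.pk n)))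
  have h5 := dvd_sub h3 h4
  rwa [sub_sub_cancel] at h5

end two

end Vale.Agent.P022F.End0
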