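import Vale.Agent.P022F.End0
import Vale.Agent.P022E.As.Defs2

/-!
# P022F: from the forms side to the conclusion when two traces generate
-/

set_option linter.all false

open IsLocalRing Filter NumberField

noncomputable section

namespace Vale.Agent.P022F.End0

open Vale.Agent.P022 Vale.Agent.P022E Vale.Agent.P022E.R Vale.Agent.P022E.As
open Vale.Agent.P022E.Core (Coef)
open Vale.Agent.P027M.S (Inert mx)
open Vale.Agent.P022E.Sel (M2)
open Vale.Agent.P022E.Loc (Pl)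
open Vale.Agent.P022D.As (Cmp)

section gw
variable {O : Type} [CommRing O] {ϖ : O} {L : Pl O} {T Q : Finset ℕ} {r : ℕ}
  {a b : Ideal (Tg O)}

theorem evc (ρ : GQ →* M2 O) (c : O) : ev0 ρ (cc c) = c := MvPolynomial.eval₂Hom_C _ _ c
theorem evt (ρ : GQ →* M2 O) (g : GQ) : ev0 ρ (tt g) = (ρ g).trace :=
  MvPolynomial.eval₂Hom_X' _ _ _
theorem evd (ρ : GQ →* M2 O) (g : GQ) : ev0 ρ (dd g) = (ρ g).det :=
  MvPolynomial.eval₂Hom_X' _ _ _
theorem evy (ρ : GQ →* M2 O) (i : ℕ) : ev0 ρ (yy i) = 0 := MvPolynomial.eval₂Hom_X' _ _ _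

theorem pow_inf {x : Tg O} (h : ∃ k : ℕ, x ^ k ∈ a) (h' : ∃ k : ℕ, x ^ k ∈ b) :
    ∃ k : ℕ, x ^ k ∈ a ⊓ b := by
  obtain ⟨i, hi⟩ := h
  obtain ⟨j, hj⟩ := h'
  exact ⟨i + j, by rw [pow_add]; exact ⟨a.mul_mem_right _ hi, b.mul_mem_left _ hj⟩⟩

theorem gw_inf (h : Gw ϖ L T Q r a) (h' : Gw ϖ L T Q r b) : Gw ϖ L T Q r (a ⊓ b) where
  fin := by
    have := h.fin
    have := h'.fin
    refine Finite.of_injective (fun x : Tg O ⧸ a ⊓ b =>
      (Ideal.Quotient.factor (inf_le_left : a ⊓ b ≤ a) x,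
        Ideal.Quotient.factor (inf_le_right : a ⊓ b ≤ b) x)) fun x y e => ?_
    obtain ⟨x, rfl⟩ := Ideal.Quotient.mk_surjective x
    obtain ⟨y, rfl⟩ := Ideal.Quotient.mk_surjective y
    exact Ideal.Quotient.eq.2 ⟨Ideal.Quotient.eq.1 (congrArg Prod.fst e),
      Ideal.Quotient.eq.1 (congrArg Prod.snd e)⟩
  nil0 := pow_inf h.nil0 h'.nil0
  nilt g := pow_inf (h.nilt g) (h'.nilt g)
  nild g := pow_inf (h.nild g) (h'.nild g)
  nily i := pow_inf (h.nily i) (h'.nily i)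
  t1 := ⟨h.t1, h'.t1⟩
  tc g k := ⟨h.tc g k, h'.tc g k⟩
  tm g k := ⟨h.tm g k, h'.tm g k⟩
  d1 := ⟨h.d1, h'.d1⟩
  dm g k := ⟨h.dm g k, h'.dm g k⟩
  opn := by
    obtain ⟨U, h1, h2⟩ := h.opn
    obtain ⟨V, h3, h4⟩ := h'.opn
    exact ⟨U ⊓ V, h1.inter h3, fun u hu g => ⟨h2 u hu.1 g, h4 u hu.2 g⟩⟩
  unr l h1 h2 h3 P h4 h5 s h6 g := ⟨h.unr l h1 h2 h3 P h4 h5 s h6 g, h'.unr l h1 h2 h3 P h4 h5 s h6 g⟩
  clt g hg := ⟨h.clt g hg, h'.clt g hg⟩
  cld g hg := ⟨h.cld g hg, h'.cld g hg⟩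
  yz i hi := ⟨h.yz i hi, h'.yz i hi⟩

theorem tr_id (ρ : GQ →* M2 O) (g h : GQ) :
    (ρ g).trace * (ρ h).trace = (ρ (g * h)).trace + (ρ h).det * (ρ (g * h⁻¹)).trace := by
  have e : ρ g = ρ (g * h⁻¹) * ρ h := by rw [← map_mul, inv_mul_cancel_right]
  rw [map_mul ρ g h, e]
  generalize ρ (g * h⁻¹) = A
  generalize ρ h = B
  simp only [Matrix.trace_fin_two, Matrix.det_fin_two, Matrix.mul_apply, Fin.sum_univ_two]
  ring

end gw

section main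
variable {O F : Type} [CommRing O] [IsDomain O] [IsDiscreteValuationRing O] [Coef O] [Field F]
  {ϖ : O} {S : Dat O F} {L : Pl O}

/-- the point gives good ideals -/
theorem gw_pk (hϖ : Irreducible ϖ) {T : Finset ℕ}
    (cont : ∀ k : ℕ, IsOpen {g : GQ | (L.r g).map (Ideal.Quotient.mk (maximalIdeal O ^ k)) = 1})
    (unr : ∀ l : ℕ, l.Prime → l ∉ T → ∀ P : Ideal (𝓞 Qb), P.IsPrime → (l : 𝓞 Qb) ∈ P →
      ∀ s, Inert P s → L.r s = 1) (k : ℕ) : Gw ϖ L T ∅ 0 (pk ϖ L.r k) := by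
  have hm : maximalIdeal O ^ (k + 1) = Ideal.span {ϖ ^ (k + 1)} := by
    rw [hϖ.maximalIdeal_eq, Ideal.span_singleton_pow]
  have z : ∀ {x : Tg O}, ev0 L.r x = 0 → x ∈ pk ϖ L.r k := fun {x} hx => by
    show ev0 L.r x ∈ Ideal.span {ϖ ^ (k + 1)}
    rw [hx]; exact Ideal.zero_mem _
  have zt : ∀ g, tt g - cc (L.r g).trace ∈ pk ϖ L.r k := fun g =>
    z (by rw [map_sub, evt, evc, sub_self])
  have zd : ∀ g, dd g - cc (L.r g).det ∈ pk ϖ L.r k := fun g =>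
    z (by rw [map_sub, evd, evc, sub_self])
  refine ⟨?_, ⟨k + 1, ?_⟩, fun g => ⟨1, by rw [pow_one]; exact zt g⟩,
    fun g => ⟨1, by rw [pow_one]; exact zd g⟩, fun i => ⟨1, by rw [pow_one]; exact z (evy _ i)⟩,
    z ?_, fun g h => z ?_, fun g h => z ?_, z ?_, fun g h => z ?_, ?_,
    fun l h1 h2 _ P h4 h5 s h6 g => z ?_, fun g _ => zt g, fun g _ => zd g,
    fun i _ => z (evy _ i)⟩
  · haveI : Finite (O ⧸ maximalIdeal O) := Coef.fin (O := O)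
    haveI : Finite (O ⧸ Ideal.span {ϖ ^ (k + 1)}) :=
      hm ▸ Ideal.finite_quotient_pow (IsNoetherian.noetherian _) (k + 1)
    exact Finite.of_injective _ (Ideal.quotientMap_injective (I := Ideal.span {ϖ ^ (k + 1)})
      (f := ev0 L.r))
  · show ev0 L.r _ ∈ Ideal.span {ϖ ^ (k + 1)}
    rw [map_pow, evc]
    exact Ideal.mem_span_singleton_self _
  · rw [map_sub, evt, map_one, Matrix.trace_one, map_ofNat, Fintype.card_fin, Nat.cast_ofNat,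
      sub_self]
  · rw [map_sub, evt, evt, map_mul, map_mul, Matrix.trace_mul_comm, sub_self]
  · rw [map_sub, map_add, map_mul, map_mul, evt, evt, evt, evt, evd, tr_id, sub_self]
  · rw [map_sub, evd, map_one, map_one, Matrix.det_one, sub_self]
  · rw [map_sub, map_mul, evd, evd, evd, map_mul, Matrix.det_mul, sub_self]
  · let f : M2 O →+* M2 (O ⧸ maximalIdeal O ^ (k + 1)) :=
      (Ideal.Quotient.mk (maximalIdeal O ^ (k + 1))).mapMatrix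
    refine ⟨(f.toMonoidHom.comp L.r).ker, cont (k + 1), fun u hu g => ?_⟩
    have hu' : f (L.r u) = 1 := hu
    show ev0 L.r _ ∈ Ideal.span {ϖ ^ (k + 1)}
    rw [map_sub, evt, evt, ← hm, ← Ideal.Quotient.eq]
    have e : ∀ A : M2 O, Ideal.Quotient.mk (maximalIdeal O ^ (k + 1)) A.trace = (f A).trace :=
      fun A => AddMonoidHom.map_trace (Ideal.Quotient.mk (maximalIdeal O ^ (k + 1))) A
    rw [e, e, map_mul, map_mul, hu', mul_one]
  · rw [map_sub, evt, evt, map_mul, unr l h1 h2 P h4 h5 s h6, mul_one, sub_self]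

theorem exists_a {l : ℕ} (h : l.Prime) (h2 : l ≠ 2) :
    (∃ a u, l = 2 ^ (a + 1) * (2 * u + 1) + 1) ∧ ∃ a v, l + 1 = 2 ^ (a + 1) * (2 * v + 1) := by
  have key : ∀ m : ℕ, m ≠ 0 → Even m → ∃ a u, m = 2 ^ (a + 1) * (2 * u + 1) := fun m h0 he => by
    obtain ⟨a, n, ⟨u, rfl⟩, rfl⟩ := Nat.exists_eq_two_pow_mul_odd h0
    rcases a with _ | a
    · rw [pow_zero, one_mul] at he
      exact absurd he (Nat.not_even_iff_odd.2 ⟨u, rfl⟩)
    · exact ⟨a, u, rfl⟩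
  obtain ⟨m, hm⟩ := h.odd_of_ne_two h2
  have h1 := h.two_le
  refine ⟨?_, key _ (by omega) ⟨m + 1, by omega⟩⟩
  obtain ⟨a, u, e⟩ := key (2 * m) (by omega) ⟨m, by omega⟩
  exact ⟨a, u, by rw [← e, hm]⟩

variable {I : Type} {Y0 : I → Type} {W0 : Type} [∀ i, AddCommGroup (Y0 i)]
  [∀ i, Module (Tg O) (Y0 i)] [AddCommGroup W0] [Module (Tg O) W0] {ses : I → I → I → Prop}
  {ig : I} {iJ : Finset L.C → I}

/-- **the end game** -/
theorem out2' (hϖ : Irreducible ϖ) (hC : ∀ l ∈ L.C, l.Prime ∧ l ≠ 2)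
    (hpk : ∀ k, Gw ϖ L S.T ∅ 0 (pk ϖ L.r k)) (v : Fin 2 → Tg O) (hv : ∀ s, ev0 L.r (v s) = 0)
    (nil : ∀ a, Gw ϖ L S.T ∅ 0 a → ∀ s, ∃ k : ℕ, v s ^ k ∈ a)
    (gen : ∀ a, Gw ϖ L S.T ∅ 0 a → ∀ p, ∃ f : MvPolynomial (Fin 2) O,
      p - MvPolynomial.aeval v f ∈ a)
    (H : HD2 ϖ S L Y0 W0 ses ig iJ) : Out2 ϖ L W0 := by
  classical
  intro j
  have hS : Sys ϖ (MvPolynomial.C : O →+* Tg O) (ev0 L.r) v {a | Gw ϖ L S.T ∅ 0 a} :=
    ⟨hϖ, evc _, hv, fun _ ha _ hb => gw_inf ha hb, hpk, fun _ ha => ha.nil0, nil, gen⟩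
  have gd : ∀ (Y : Type) [AddCommGroup Y] [Module (Tg O) Y], Gm ϖ L S.T ∅ 0 Y →
      Gd {a | Gw ϖ L S.T ∅ 0 a} Y := fun Y _ _ h w =>
    ⟨_, h w, fun t ht => (Ideal.mem_torsionOf_iff _ _).1 ht⟩
  obtain ⟨b, c, n₀, A, hl⟩ := H.lev 0
  obtain ⟨τ, φ, Yb, Wc, _, _, _, _, V⟩ := hl j Fin.elim0 (fun i => i.elim0) fun i => i.elim0
  have eQ : (Finset.univ.image (Fin.elim0 : Fin 0 → ℕ)) = ∅ := by simp
  have eD : (Dq Fin.elim0 φ : Tg O) ^ c = 1 := by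
    rw [Vale.Agent.P022D.As.Dq, Fin.prod_univ_zero, one_pow]
  choose iY cY using fun i => hS.mod (gd (Yb i) (eQ ▸ V.gm i))
  obtain ⟨iW, cW⟩ := hS.mod (gd Wc (eQ ▸ V.gmC))
  obtain ⟨i0, c0⟩ := hS.mod (gd (Y0 (iJ Finset.univ)) (H.gm0 _))
  choose a u ha using fun l : L.C => (exists_a (hC l l.2).1 (hC l l.2).2).1
  choose a' u' ha' using fun l : L.C => (exists_a (hC l l.2).1 (hC l l.2).2).2
  obtain ⟨s, hs⟩ := hS.fin cW j V.flat fun g hg => by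
    refine hS.ann c0 (H.pi0 _) (H.big Finset.univ (fun l _ => Finset.mem_univ l) _) ?_
    obtain ⟨β, -, hβ, -⟩ := V.fib (iJ Finset.univ)
    refine Nl.inj ?_ (c0.lin hS.dir (cY _) (β.comp (LinearMap.pi fun _ => LinearMap.id)))
      ((injective_iff_map_eq_zero _).2 fun w hw => ?_)
    swap
    · have h1 := hβ _ hw
      rw [eD, one_smul] at h1
      exact congrFun h1 ∅
    have h1 := H.comb a a' (fun l => ⟨_, ha l⟩) (fun l => ⟨_, ha' l⟩)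
      (fun i => if Nl g (Yb i) then 0 else ⊤) (fun i j k h => by
        obtain ⟨f, f', h1, h2, h3⟩ := V.ex i j k h
        have h4 := nl_iff (g := g) ((cY i).lin hS.dir (cY j) f) ((cY j).lin hS.dir (cY k) f')
          h1 h2 h3
        by_cases hi : Nl g (Yb i) <;> by_cases hk : Nl g (Yb k) <;> simp [h4, hi, hk])
      Finset.univ
    have h2 : Nl g (Yb ig) := by
      obtain ⟨e, h3, h4⟩ := V.red
      refine ⟨1, fun w => h3 ?_⟩
      rw [pow_one, map_zero]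
      exact (((cY ig).lin hS.dir cW e).map_smul g w).trans (hg _ ((h4 _).1 ⟨w, rfl⟩))
    by_contra h3
    have h4 : mul2 a a' Finset.univ ≠ 0 := by
      rw [Vale.Agent.P022D.As.mul2]
      exact Finset.prod_ne_zero_iff.2 fun l _ => by split_ifs <;> positivity
    rw [if_pos h2, if_neg h3, ENat.mul_top (by exact_mod_cast h4)] at h1
    exact absurd h1 (by simp)
  choose t _ ht using fun w : {w : Wc | (MvPolynomial.C ϖ : Tg O) ^ j • w = 0} =>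
    V.desc j le_rfl w w.2 (by rintro (i | i) <;> exact i.elim0)
  refine ⟨s.biUnion t, fun p hp => hs p fun w hw => ?_⟩
  have h1 := ht w p fun x hx => hp x (Finset.mem_biUnion.2 ⟨w, hw, hx⟩)
  rwa [eD, one_mul] at h1

/-- **the end game**, two traces generate -/
theorem out2 (hϖ : Irreducible ϖ) (hC : ∀ l ∈ L.C, l.Prime ∧ l ≠ 2)
    (cont : ∀ k : ℕ, IsOpen {g : GQ | (L.r g).map (Ideal.Quotient.mk (maximalIdeal O ^ k)) = 1})
    (unr : ∀ l : ℕ, l.Prime → l ∉ S.T → ∀ P : Ideal (𝓞 Qb), P.IsPrime → (l : 𝓞 Qb) ∈ P →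
      ∀ s, Inert P s → L.r s = 1)
    (gen : ∃ g1 g2 : GQ, ∀ a, Gw ϖ L S.T ∅ 0 a → ∀ p, ∃ f : MvPolynomial (Fin 2) O,
      p - MvPolynomial.aeval ![tt g1 - cc (L.r g1).trace, tt g2 - cc (L.r g2).trace] f ∈ a)
    (H : HD2 ϖ S L Y0 W0 ses ig iJ) : Out2 ϖ L W0 := by
  obtain ⟨g1, g2, gen⟩ := gen
  refine out2' hϖ hC (gw_pk hϖ cont unr) _ (fun s => ?_) (fun a ha s => ?_) gen H
  · fin_cases s
    · exact (map_sub _ _ _).trans (by rw [evt, evc, sub_self])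
    · exact (map_sub _ _ _).trans (by rw [evt, evc, sub_self])
  · fin_cases s
    exacts [ha.nilt g1, ha.nilt g2]

end main

end Vale.Agent.P022F.End0
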