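import Vale.Agent.P022D.R.Defs
import Vale.Agent.P022D.G.Frob

/-!
# P022F: the small consequences of absolute irreducibility
-/

set_option linter.all false

open scoped MatrixGroups

noncomputable section

namespace Vale.Agent.P022F.G6

open Vale.Agent.P022 Vale.Agent.P022D Vale.Agent.P022D.R
open Vale.Agent.P027M.S (mx)

variable {F : Type} [Field F] {ρ : GQ →* GL (Fin 2) F}

theorem mx_mul (g h : GQ) : mx ρ (g * h) = mx ρ g * mx ρ h :=
  congrArg Units.val (map_mul ρ g h)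

theorem mx_one : mx ρ 1 = 1 := congrArg Units.val (map_one ρ)

theorem mx_det (g : GQ) : (mx ρ g).det ≠ 0 :=
  ((Matrix.isUnit_iff_isUnit_det _).1 (ρ g).isUnit).ne_zero

/-- both off diagonal entries are non zero, inside any submonoid -/
theorem ex_bc (H : Submonoid GQ) (hb : ∃ g ∈ H, mx ρ g 0 1 ≠ 0) (hc : ∃ g ∈ H, mx ρ g 1 0 ≠ 0) :
    ∃ g ∈ H, mx ρ g 0 1 ≠ 0 ∧ mx ρ g 1 0 ≠ 0 := by
  obtain ⟨g, hg, b⟩ := hb
  obtain ⟨k, hk, c⟩ := hc
  by_cases e : mx ρ g 1 0 = 0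
  · by_cases e' : mx ρ k 0 1 = 0
    · have d := mx_det (ρ := ρ) g
      have d' := mx_det (ρ := ρ) k
      rw [Matrix.det_fin_two, e, mul_zero, sub_zero, mul_ne_zero_iff] at d
      rw [Matrix.det_fin_two, e', zero_mul, sub_zero, mul_ne_zero_iff] at d'
      refine ⟨g * k, H.mul_mem hg hk, ?_, ?_⟩
      · rw [mx_mul, Matrix.mul_apply, Fin.sum_univ_two, e', mul_zero, zero_add]
        exact mul_ne_zero b d'.2
      · rw [mx_mul, Matrix.mul_apply, Fin.sum_univ_two, e, zero_mul, zero_add]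
        exact mul_ne_zero d.2 c
    · exact ⟨k, hk, e', c⟩
  · exact ⟨g, hg, b, e⟩

/-- the image spans the matrix algebra -/
theorem span_of {g0 g1 : GQ} (d01 : mx ρ g0 0 1 = 0) (d10 : mx ρ g0 1 0 = 0)
    (dne : mx ρ g0 0 0 ≠ mx ρ g0 1 1) (n01 : mx ρ g1 0 1 ≠ 0) (n10 : mx ρ g1 1 0 ≠ 0)
    {X : Matrix (Fin 2) (Fin 2) F} (a0 : X.trace = 0) (a1 : (mx ρ g0 * X).trace = 0)
    (a2 : (mx ρ g1 * X).trace = 0) (a3 : (mx ρ g0 * mx ρ g1 * X).trace = 0) : X = 0 := by
  simp only [Matrix.trace_fin_two, Matrix.mul_apply, Fin.sum_univ_two, d01, d10,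
    zero_mul, mul_zero, add_zero, zero_add] at a0 a1 a2 a3
  have hd := sub_ne_zero.2 dne
  have b0 : X 0 0 = 0 := by
    refine mul_left_cancel₀ hd ?_
    linear_combination a1 - mx ρ g0 1 1 * a0
  have b1 : X 1 1 = 0 := by linear_combination a0 - b0
  rw [b0, b1] at a2 a3
  have b2 : X 1 0 = 0 := by
    refine mul_left_cancel₀ n01 (mul_left_cancel₀ hd ?_)
    linear_combination a3 - mx ρ g0 1 1 * a2
  have b3 : X 0 1 = 0 := by
    refine mul_left_cancel₀ n10 ?_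
    linear_combination a2 - mx ρ g1 0 1 * b2
  ext i j
  fin_cases i <;> fin_cases j
  exacts [b0, b3, b2, b1]

theorem tr_pow {A : Type} [CommRing A] (h2 : (2 : A) = 0) {X : Matrix (Fin 2) (Fin 2) A}
    (h : X.trace = 0) (k : ℕ) : (X ^ k).trace = 0 := by
  have e : X * X = (-X.det) • 1 := by
    rw [Matrix.trace_fin_two] at h
    ext i j
    fin_cases i <;> fin_cases j <;>
      simp [Matrix.mul_apply, Fin.sum_univ_two, Matrix.det_fin_two]
    · linear_combination X 0 0 * h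
    · linear_combination X 0 1 * h
    · linear_combination X 1 0 * h
    · linear_combination X 1 1 * h
  induction k using Nat.twoStepInduction with
  | zero => rw [pow_zero, Matrix.trace_one, Fintype.card_fin, Nat.cast_ofNat, h2]
  | one => rwa [pow_one]
  | more k a _ => rw [pow_add, sq, e, Matrix.mul_smul, mul_one, Matrix.trace_smul, a, smul_zero]

/-- a Frobenius element with non zero trace -/
theorem ex_frob0 [CharP F 2] (opn : IsOpen {g : GQ | ρ g = 1}) {g : GQ} (ne : (mx ρ g).trace ≠ 0)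
    (A : Finset ℕ) :
    ∃ (l : ℕ) (φ : GQ), l.Prime ∧ l ∉ A ∧ IsFrob l φ ∧ (mx ρ φ).trace ≠ 0 := by
  obtain ⟨l, φ, k, h1, h2, h3, h4⟩ := G.frob ρ.ker inferInstance opn g A
  refine ⟨l, φ, h1, h2, h3, fun e => ne ?_⟩
  have a : mx ρ g = mx ρ φ ^ k := by
    rw [MonoidHom.mem_ker, map_mul, map_inv, inv_mul_eq_one, map_pow] at h4
    unfold mx
    rw [h4, Units.val_pow_eq_pow_val]
  rw [a]
  exact tr_pow CharTwo.two_eq_zero e k

variable {O : Type} [CommRing O] (S : Dat O F)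

theorem tr_g0 [CharP F 2] : (mx S.rb S.g0).trace ≠ 0 := fun e => S.dne (by
  rw [Matrix.trace_fin_two] at e
  exact (eq_neg_of_add_eq_zero_left e).trans (CharTwo.neg_eq _))

theorem ex_frob [CharP F 2] (opn : IsOpen {g : GQ | S.rb g = 1}) (A : Finset ℕ) :
    ∃ (l : ℕ) (φ : GQ), l.Prime ∧ l ∉ A ∧ IsFrob l φ ∧ (mx S.rb φ).trace ≠ 0 :=
  ex_frob0 opn (tr_g0 S) A

variable {S}

theorem span (h10 : mx S.rb S.g1 1 0 ≠ 0) {X : Matrix (Fin 2) (Fin 2) F}
    (h : ∀ g, (mx S.rb g * X).trace = 0) : X = 0 :=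
  span_of S.d01 S.d10 S.dne S.n01 h10 (by simpa [mx_one] using h 1) (h _) (h _)
    (by rw [← mx_mul]; exact h _)

/-- the traces separate -/
theorem tr_sep (h10 : mx S.rb S.g1 1 0 ≠ 0) {s : GQ}
    (h : ∀ g, (mx S.rb (g * s)).trace = (mx S.rb g).trace) : mx S.rb s = 1 :=
  sub_eq_zero.1 (span h10 fun g => by
    rw [mul_sub, mul_one, Matrix.trace_sub, ← mx_mul, h, sub_self])

theorem res_tr (h10 : mx S.rb S.g1 1 0 ≠ 0) {s : GQ} (hs : mx S.rb s ≠ 1) :
    ∃ g, (mx S.rb (g * s)).trace ≠ (mx S.rb g).trace := by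
  by_contra hc
  push Not at hc
  exact hs (tr_sep h10 hc)

/-- the centraliser consists of scalars -/
theorem cent (h10 : mx S.rb S.g1 1 0 ≠ 0) {X : Matrix (Fin 2) (Fin 2) F}
    (h : ∀ g, mx S.rb g * X = X * mx S.rb g) : X 0 1 = 0 ∧ X 1 0 = 0 ∧ X 0 0 = X 1 1 := by
  have a := congrFun (congrFun (h S.g0) 0) 1
  have b := congrFun (congrFun (h S.g0) 1) 0
  have c := congrFun (congrFun (h S.g1) 0) 1
  simp only [Matrix.mul_apply, Fin.sum_univ_two, S.d01, S.d10, zero_mul, mul_zero, add_zero,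
    zero_add] at a b c
  have hd := sub_ne_zero.2 S.dne
  have e1 : X 0 1 = 0 := mul_left_cancel₀ hd (by linear_combination a)
  have e2 : X 1 0 = 0 := mul_left_cancel₀ hd (by linear_combination -b)
  rw [e1] at c
  exact ⟨e1, e2, mul_left_cancel₀ S.n01 (by linear_combination -c)⟩

end Vale.Agent.P022F.G6
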