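import Vale.Agent.P022D.Gma.Rep

/-!
P022F: the entries of a two-dimensional trace function with respect to a regular element.
-/

set_option linter.all false

noncomputable section

namespace Vale.Agent.P022F.Gm

open Vale.Agent.P022.H346 Vale.Agent.P022D.Gma

variable {G B : Type} [Group G] [CommRing B]

/-- the second diagonal entry -/
def en2 (t : G → B) (g₀ : G) (β u : B) (g : G) : B := t g - ent t g₀ β u g

/-- the products of off-diagonal entries -/
def xx (t : G → B) (g₀ : G) (β u : B) (g h : G) : B :=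
  ent t g₀ β u (g * h) - ent t g₀ β u g * ent t g₀ β u h

/-- the rules of a generalised matrix algebra -/
structure GM (t : G → B) (d : G →* Bˣ) (a b : G → B) (x : G → G → B) : Prop where
  sum : ∀ g, a g + b g = t g
  a1 : a 1 = 1
  b1 : b 1 = 1
  am : ∀ g h, a (g * h) = a g * a h + x g h
  bm : ∀ g h, b (g * h) = b g * b h + x h g
  cl : ∀ g g' h, x (g * g') h = a g * x g' h + b g' * x g h
  cr : ∀ g h h', x g (h * h') = a h' * x g h + b h * x g h'
  det : ∀ g, a g * b g - x g g = d g
  sw : ∀ g h g' h', x g h * x g' h' = x g h' * x g' h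

theorem gm {t : G → B} {d : G →* Bˣ} (T : TF t d) (g₀ : G) {α β u : B}
    (hs : α + β = t g₀) (hp : α * β = d g₀) (hu : (α - β) * u = 1) :
    GM t d (ent t g₀ β u) (en2 t g₀ β u) (xx t g₀ β u) ∧ ent t g₀ β u g₀ = α ∧
      en2 t g₀ β u g₀ = β ∧ (∀ h, xx t g₀ β u g₀ h = 0) ∧ ∀ g, xx t g₀ β u g g₀ = 0 := by
  obtain ⟨A, _, _, L, π, h, hL, hπ⟩ := exists_ch T
  set e : A := u • (π g₀ - β • 1) with he
  have sq : ∀ g, π g * π g = t g • π g - (d g : B) • 1 := fun g => by
    have := congrArg (π g * ·) (hπ g)
    simp only [mul_add, mul_smul_comm, ← map_mul π g g⁻¹, mul_inv_cancel, map_one,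
      mul_one] at this
    rw [← this, add_sub_cancel_right]
  have hg : π g₀ * π g₀ = (α + β) • π g₀ - (α * β) • 1 := by rw [hs, hp, sq]
  have hge : π g₀ * e = α • e := by
    rw [he, mul_smul_comm, mul_sub, hg, mul_smul_comm, mul_one, smul_comm α u]
    congr 1
    module
  have hgg : π g₀ = (α - β) • e + β • 1 := by
    rw [he, smul_smul, hu, one_smul, sub_add_cancel]
  have hee : e * e = e := by
    conv_lhs => rw [he, smul_mul_assoc, sub_mul, ← he, hge, smul_mul_assoc, one_mul, ← sub_smul,
      smul_smul, mul_comm u, hu, one_smul]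
  have hx : ∀ g, L (π g * e) = ent t g₀ β u g := by
    intro g
    rw [he, mul_smul_comm, mul_sub, mul_smul_comm, mul_one, ← map_mul, map_smul, map_sub, map_smul,
      hL, hL, ent, smul_eq_mul, smul_eq_mul, mul_comm]
  have h1 : L e = 1 := by
    have := hx 1
    rw [map_one, one_mul, ent, one_mul, T.one, ← hs] at this
    rw [this]
    linear_combination hu
  clear_value e
  obtain ⟨f, hf⟩ : ∃ f : A, f = 1 - e := ⟨_, rfl⟩
  have ef1 : e + f = 1 := by rw [hf, add_sub_cancel]
  have hff : f * f = f := by
    rw [hf, sub_mul, one_mul, mul_sub, mul_one, hee, sub_self, sub_zero]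
  have h2 : L f = 1 := by
    rw [hf, map_sub, h.one, h1]; ring
  have ef : e * f = 0 := by rw [hf, mul_sub, mul_one, hee, sub_self]
  have fe : f * e = 0 := by rw [hf, sub_mul, one_mul, hee, sub_self]
  have se : ∀ y, e * y * e = L (y * e) • e := h.sand hee h1
  have sf : ∀ y, f * y * f = L (y * f) • f := h.sand hff h2
  have sp : ∀ y z : A, L (y * z) = L (y * e * z) + L (y * f * z) := fun y z => by
    rw [← map_add, ← add_mul, ← mul_add, ef1, mul_one]
  have hy : ∀ g, L (π g * f) = en2 t g₀ β u g := fun g => by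
    rw [hf, mul_sub, mul_one, map_sub, hL, hx, en2]
  have kE : ∀ y z : A, L (y * e * (z * e)) = L (y * e) * L (z * e) := fun y z => by
    rw [show y * e * (z * e) = y * (e * z * e) by simp only [mul_assoc], se, mul_smul_comm,
      map_smul, smul_eq_mul, mul_comm]
  have kF : ∀ y z : A, L (y * f * (z * f)) = L (y * f) * L (z * f) := fun y z => by
    rw [show y * f * (z * f) = y * (f * z * f) by simp only [mul_assoc], sf, mul_smul_comm,
      map_smul, smul_eq_mul, mul_comm]
  have hz : ∀ g k, L (π g * f * (π k * e)) = xx t g₀ β u g k := fun g k => by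
    have := sp (π g) (π k * e)
    rw [kE, ← mul_assoc, ← map_mul π, hx, hx, hx] at this
    rw [xx, this, add_sub_cancel_left]
  have a0 : ent t g₀ β u g₀ = α := by rw [← hx, hge, map_smul, h1, smul_eq_mul, mul_one]
  refine ⟨⟨fun g => by rw [en2, add_sub_cancel], ?_, ?_, fun g k => by rw [xx, add_sub_cancel],
    fun g k => ?_, fun g g' k => ?_, fun g k k' => ?_, fun g => ?_, fun g k g' k' => ?_⟩, a0,
    by rw [en2, a0, ← hs, add_sub_cancel_left], fun k => ?_, fun g => ?_⟩
  · rw [← hx, map_one, one_mul, h1]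
  · rw [← hy, map_one, one_mul, h2]
  · rw [← hy, ← hy, ← hy, ← hz, map_mul π, mul_assoc, sp, kF, add_comm, h.comm (π g * e)]
  · rw [← hz, ← hz, ← hz, ← hx, ← hy, map_mul π, mul_assoc, mul_assoc, sp,
      show π g * e * (π g' * (f * (π k * e))) = π g * e * (π g' * f * π k * e) by
        simp only [mul_assoc], kE,
      show π g * f * (π g' * (f * (π k * e))) = π g * (f * π g' * f) * (π k * e) by
        simp only [mul_assoc], sf, mul_smul_comm, smul_mul_assoc, map_smul, smul_eq_mul]
    simp only [mul_assoc]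
  · rw [← hz, ← hz, ← hz, ← hx, ← hy, map_mul π,
      show π g * f * (π k * π k' * e) = π g * f * π k * (π k' * e) by simp only [mul_assoc], sp,
      kE, show π g * f * π k * f * (π k' * e) = π g * (f * π k * f) * (π k' * e) by
        simp only [mul_assoc], sf, mul_smul_comm, smul_mul_assoc, map_smul, smul_eq_mul,
      mul_comm (L (π k' * e))]
    simp only [mul_assoc]
  · have := congrArg (fun y => L (y * e)) (sq g)
    simp only [sub_mul, smul_mul_assoc, one_mul, map_sub, map_smul, smul_eq_mul, h1] at this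
    rw [← map_mul π, hx, hx] at this
    rw [xx, en2, this]
    ring
  · rw [← hz, ← hz, ← hz, ← hz]
    have k1 : ∀ y z y' z' : A, L (y * f * (z * e)) * L (y' * f * (z' * e)) =
        L (y * f * (z * e) * (y' * f * (z' * e))) := fun y z y' z' => by
      rw [← mul_assoc (y * f), ← mul_assoc (y' * f), kE]
    have k2 : ∀ y z y' z' : A, L (y * f * (z * e) * (y' * f * (z' * e))) =
        L (z * e * y' * f) * L (z' * e * y * f) := fun y z y' z' => by
      rw [← kF, show y * f * (z * e) * (y' * f * (z' * e)) = y * f * (z * e * y' * f * (z' * e)) by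
        simp only [mul_assoc], h.comm (y * f)]
      simp only [mul_assoc]
    rw [k1, k2, h.comm (π g * f), h.comm (π g' * f), mul_comm]
    simp only [mul_assoc]
  · rw [← hz, hgg, add_mul, add_mul, smul_mul_assoc, ef, smul_zero, zero_mul, zero_add,
      smul_mul_assoc, smul_mul_assoc, one_mul, map_smul, h.comm f, mul_assoc, ef, mul_zero,
      map_zero, smul_zero]
  · rw [← hz, hge, mul_smul_comm, mul_assoc, fe, mul_zero, smul_zero, map_zero]

section inv

variable {t : G → B} {g₀ : G} {β u : B} {s s' : G}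

theorem ent_congr (h : ∀ y, t (s * y) = t (s' * y)) : ent t g₀ β u s = ent t g₀ β u s' := by
  have := h 1
  rw [mul_one, mul_one] at this
  rw [ent, ent, h, this]

theorem en2_congr (h : ∀ y, t (s * y) = t (s' * y)) : en2 t g₀ β u s = en2 t g₀ β u s' := by
  have := h 1
  rw [mul_one, mul_one] at this
  rw [en2, en2, ent_congr h, this]

theorem xx_congr_left (h : ∀ y, t (s * y) = t (s' * y)) (k : G) :
    xx t g₀ β u s k = xx t g₀ β u s' k := by
  rw [xx, xx, ent_congr h, ent_congr (s := s * k) (s' := s' * k) fun y => by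
    rw [mul_assoc, mul_assoc, h]]

theorem xx_congr_right (h : ∀ z y, t (z * s * y) = t (z * s' * y)) (k : G) :
    xx t g₀ β u k s = xx t g₀ β u k s' := by
  rw [xx, xx, ent_congr (h k), ent_congr (s := s) (s' := s') fun y => by
    simpa only [one_mul] using h 1 y]

end inv

theorem GM.x1 {t : G → B} {d : G →* Bˣ} {a b : G → B} {x : G → G → B} (h : GM t d a b x) (g : G) :
    x 1 g = 0 ∧ x g 1 = 0 := by
  have h1 := h.am 1 g
  have h2 := h.am g 1
  rw [one_mul, h.a1, one_mul] at h1
  rw [mul_one, h.a1, mul_one] at h2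
  exact ⟨by linear_combination -h1, by linear_combination -h2⟩

end Vale.Agent.P022F.Gm
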