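import Mathlib

/-!
P022F: generators from tangent vectors.
-/

set_option linter.all false

noncomputable section

namespace Vale.Agent.P022F.Nak

open TrivSqZeroExt

variable {O T F : Type} [CommRing O] [CommRing T] [Algebra O T] [Field F]

theorem tan (π : T →+* F) (hs : ∀ y : F, ∃ o : O, π (algebraMap O T o) = y) (J : Ideal T)
    (hJ : J ≤ RingHom.ker π) (h2 : ∀ y z, π y = 0 → π z = 0 → y * z ∈ J)
    (hO : ∀ o, π (algebraMap O T o) = 0 → algebraMap O T o ∈ J) {y : T} (hy : π y = 0)
    (hn : y ∉ J) : ∃ φ : T →+* DualNumber F, (∀ r, (φ r).fst = π r) ∧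
      (∀ o, (φ (algebraMap O T o)).snd = 0) ∧ (∀ r ∈ J, φ r = 0) ∧ (φ y).snd ≠ 0 := by
  let σ : F →+* T ⧸ J := (π.comp (algebraMap O T)).liftOfSurjective hs
    ⟨(Ideal.Quotient.mk J).comp (algebraMap O T), fun o ho =>
      Ideal.Quotient.eq_zero_iff_mem.2 (hO o ho)⟩
  have hσ : ∀ o, σ (π (algebraMap O T o)) = Ideal.Quotient.mk J (algebraMap O T o) := fun o =>
    (π.comp (algebraMap O T)).liftOfSurjective_comp_apply hs _ o
  letI : Algebra F (T ⧸ J) := σ.toAlgebra
  have sm : ∀ (c : F) (z : T ⧸ J), c • z = σ c * z := fun _ _ => rfl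
  have hy' : Ideal.Quotient.mk J y ∉ Submodule.span F {(1 : T ⧸ J)} := by
    rw [Submodule.mem_span_singleton]
    rintro ⟨c, hc⟩
    obtain ⟨o, rfl⟩ := hs c
    rw [sm, mul_one, hσ, Ideal.Quotient.eq] at hc
    have h1 := hJ hc
    rw [RingHom.mem_ker, map_sub, hy, sub_zero] at h1
    exact hn (by simpa using J.sub_mem (hO o h1) hc)
  obtain ⟨f, hf, hf1⟩ := Submodule.exists_le_ker_of_notMem hy'
  have f1 : f 1 = 0 := hf1 (Submodule.mem_span_singleton_self _)
  have fσ : ∀ c, f (σ c) = 0 := fun c => by rw [← mul_one (σ c), ← sm, map_smul, f1, smul_zero]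
  let φ : T →+* DualNumber F :=
    { toFun := fun r => ⟨π r, f (Ideal.Quotient.mk J r)⟩
      map_one' := by
        ext
        · exact map_one π
        · show f _ = 0
          rw [map_one, f1]
      map_zero' := by
        ext
        · exact map_zero π
        · show f _ = 0
          rw [map_zero, map_zero]
      map_add' := fun r s => by
        ext
        · exact map_add π r s
        · show f _ = f _ + f _
          rw [map_add, map_add]
      map_mul' := fun r s => by
        ext
        · exact map_mul π r s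
        · refine Eq.trans ?_ (DualNumber.snd_mul _ _).symm
          show f _ = π r * f _ + f _ * π s
          obtain ⟨o, ho⟩ := hs (π r)
          obtain ⟨o', ho'⟩ := hs (π s)
          have e := Ideal.Quotient.eq_zero_iff_mem.2 (h2 (r - algebraMap O T o)
            (s - algebraMap O T o') (by rw [map_sub, ho, sub_self])
            (by rw [map_sub, ho', sub_self]))
          rw [map_mul, map_sub, map_sub, ← hσ, ← hσ, ho, ho'] at e
          have e2 : Ideal.Quotient.mk J (r * s) = π r • Ideal.Quotient.mk J s +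
              π s • Ideal.Quotient.mk J r - σ (π r * π s) := by
            rw [map_mul, map_mul, sm, sm]
            linear_combination e
          rw [e2, map_sub, map_add, map_smul, map_smul, fσ, smul_eq_mul, smul_eq_mul]
          ring }
  refine ⟨φ, fun _ => rfl, fun o => ?_, fun r hr => ?_, hf⟩
  · show f _ = 0
    rw [← hσ, fσ]
  · ext
    · exact hJ hr
    · show f _ = 0
      rw [Ideal.Quotient.eq_zero_iff_mem.2 hr, map_zero]

/-- **NAK** -/
theorem nak (π : T →+* F) (hs : ∀ y : F, ∃ o : O, π (algebraMap O T o) = y) (a : Ideal T)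
    (ha : a ≤ RingHom.ker π) {N : ℕ} (hN : RingHom.ker π ^ N ≤ a) {ι : Type} (x : ι → T)
    (h : ∀ φ : T →+* DualNumber F, (∀ r, (φ r).fst = π r) →
      (∀ o, (φ (algebraMap O T o)).snd = 0) → (∀ r ∈ a, φ r = 0) → (∀ i, (φ (x i)).snd = 0) →
      ∀ r, (φ r).snd = 0) (p : T) :
    ∃ f : MvPolynomial ι O, p - MvPolynomial.aeval x f ∈ a := by
  obtain ⟨m, hm⟩ : ∃ m, m = RingHom.ker π := ⟨_, rfl⟩
  have mm : ∀ r, r ∈ m ↔ π r = 0 := fun r => by rw [hm, RingHom.mem_ker]
  rw [← hm] at ha hN
  obtain ⟨n, hn⟩ : ∃ n : Ideal T,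
    n = Ideal.span {z | π z = 0 ∧ ∃ f : MvPolynomial ι O, MvPolynomial.aeval x f = z} := ⟨_, rfl⟩
  have nm : n ≤ m := by
    rw [hn, Ideal.span_le]
    exact fun z hz => (mm z).2 hz.1
  have nA : ∀ f : MvPolynomial ι O, π (MvPolynomial.aeval x f) = 0 →
      MvPolynomial.aeval x f ∈ n := fun f hf => by
    rw [hn]
    exact Ideal.subset_span ⟨hf, f, rfl⟩
  have c1 : m ≤ a ⊔ n ⊔ m * m := fun y hy => by
    by_contra hy'
    obtain ⟨φ, f1, f2, f3, f4⟩ := tan π hs (a ⊔ n ⊔ m * m)
      (hm ▸ sup_le (sup_le ha nm) Ideal.mul_le_left)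
      (fun y z hy hz => Ideal.mem_sup_right (Ideal.mul_mem_mul ((mm y).2 hy) ((mm z).2 hz)))
      (fun o ho => Ideal.mem_sup_left (Ideal.mem_sup_right (by
        have := nA (MvPolynomial.C o)
        rw [MvPolynomial.aeval_C] at this
        exact this ho))) ((mm y).1 hy) hy'
    refine f4 (h φ f1 f2 (fun r hr => f3 r (Ideal.mem_sup_left (Ideal.mem_sup_left hr)))
      (fun i => ?_) y)
    obtain ⟨o, ho⟩ := hs (π (x i))
    have := nA (MvPolynomial.X i - MvPolynomial.C o)
    rw [map_sub, MvPolynomial.aeval_C, MvPolynomial.aeval_X] at this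
    have e := f3 _ (Ideal.mem_sup_left (Ideal.mem_sup_right (this (by
      rw [map_sub, ho, sub_self]))))
    rw [map_sub, sub_eq_zero] at e
    rw [e, f2]
  have c2 : ∀ k, m ≤ a ⊔ n ⊔ m ^ k := fun k => by
    induction k with
    | zero => rw [pow_zero, Ideal.one_eq_top]; exact le_sup_of_le_right le_top
    | succ k ih =>
      refine c1.trans (sup_le le_sup_left ?_)
      refine (Ideal.mul_mono_left ih).trans ?_
      rw [Ideal.sup_mul, pow_succ]
      exact sup_le_sup_right Ideal.mul_le_left _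
  have c3 : m ≤ a ⊔ n := (c2 N).trans (sup_le le_rfl (hN.trans le_sup_left))
  have c4 : ∀ k (r : T), ∃ f : MvPolynomial ι O, r - MvPolynomial.aeval x f ∈ a ⊔ m ^ k := by
    intro k
    induction k with
    | zero => exact fun r => ⟨0, by rw [pow_zero, Ideal.one_eq_top, sup_top_eq]; trivial⟩
    | succ k ih =>
      have c5 : ∀ z ∈ n, ∀ t : T, ∃ f : MvPolynomial ι O,
          t * z - MvPolynomial.aeval x f ∈ a ⊔ m ^ (k + 1) := by
        intro z hz
        rw [hn] at hz
        induction hz using Submodule.span_induction with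
        | mem z hz =>
          intro t
          obtain ⟨hz, g, rfl⟩ := hz
          obtain ⟨f, hf⟩ := ih t
          refine ⟨f * g, ?_⟩
          rw [map_mul, ← sub_mul]
          have := Ideal.mul_mem_mul hf ((mm _).2 hz)
          rw [Ideal.sup_mul, ← pow_succ] at this
          exact (sup_le_sup_right Ideal.mul_le_left _ : a * m ⊔ m ^ (k + 1) ≤ a ⊔ m ^ (k + 1)) this
        | zero => exact fun t => ⟨0, by rw [mul_zero, map_zero, sub_zero]; exact zero_mem _⟩
        | add z z' _ _ h1 h2 =>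
          intro t
          obtain ⟨f, hf⟩ := h1 t
          obtain ⟨g, hg⟩ := h2 t
          exact ⟨f + g, by rw [mul_add, map_add, add_sub_add_comm]; exact add_mem hf hg⟩
        | smul s z _ h1 =>
          intro t
          rw [smul_eq_mul, ← mul_assoc]
          exact h1 _
      intro r
      obtain ⟨o, ho⟩ := hs (π r)
      obtain ⟨u, hu, z, hz, e⟩ := Submodule.mem_sup.1
        (c3 ((mm (r - algebraMap O T o)).2 (by rw [map_sub, ho, sub_self])))
      obtain ⟨f, hf⟩ := c5 z hz 1
      refine ⟨f + MvPolynomial.C o, ?_⟩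
      have e2 : r - MvPolynomial.aeval x (f + MvPolynomial.C o) =
          u + (1 * z - MvPolynomial.aeval x f) := by
        rw [map_add, MvPolynomial.aeval_C]
        linear_combination -e
      rw [e2]
      exact add_mem (Ideal.mem_sup_left hu) hf
  obtain ⟨f, hf⟩ := c4 N p
  exact ⟨f, sup_le le_rfl hN hf⟩

/-- an ideal which is nil modulo an ideal of finite index is nilpotent modulo it -/
theorem nilp (a m : Ideal T) [Finite (T ⧸ a)] (h : ∀ r ∈ m, ∃ k : ℕ, r ^ k ∈ a) :
    ∃ N : ℕ, m ^ N ≤ a := by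
  obtain ⟨N, hN⟩ := IsNoetherianRing.isNilpotent_nilradical (T ⧸ a)
  refine ⟨N, ?_⟩
  have h1 : m.map (Ideal.Quotient.mk a) ≤ nilradical (T ⧸ a) := by
    rw [Ideal.map_le_iff_le_comap]
    intro r hr
    obtain ⟨k, hk⟩ := h r hr
    exact ⟨k, by rw [← map_pow]; exact Ideal.Quotient.eq_zero_iff_mem.2 hk⟩
  have h2 := Ideal.pow_right_mono h1 N
  rw [hN, ← Ideal.map_pow, Ideal.zero_eq_bot, Ideal.map_le_iff_le_comap] at h2
  intro r hr
  exact Ideal.Quotient.eq_zero_iff_mem.1 (h2 hr)

end Vale.Agent.P022F.Nak
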