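import Vale.Agent.P022F.WRel
import Vale.Agent.P022F.Pt.Base

/-!
P022F: the triangular local data satisfy the hypotheses of the forms side.
-/

set_option linter.all false

namespace Vale.Agent.P022F

open Vale.Agent.P022D.R
open Vale.Agent.P022E.Loc (Pl)

theorem okP {O F : Type} [CommRing O] [IsLocalRing O] [Field F] [CharP F 2] {S : Dat O F}
    {L : Pl O} (h : OkF L S) : L.OkF S :=
  ⟨h.ker, ⟨h.dh.opn⟩, h.det, h.hT, h.dj, h.pr, h.hP, h.h2, h.cj, h.tm, h.dg, h.ad, h.reg, h.uni,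
    h.lift, h.cont, h.odd, h.ty, fun _ hl => (h.nC hl).elim,
    fun _ hl _ _ _ hc _ _ _ _ hm hw ha hb _ hx _ hI => WR.wlocI hc h hl hm hw ha hb hx hI⟩

end Vale.Agent.P022F
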