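import Vale.Agent.P022.H20.GalDef
import Vale.Agent.P027M.S.Defs

/-!
P022F: the condition that all cocycles with local conditions are coboundaries does not depend on
the coefficient field; matching of pairs of characters; embeddings of residue fields.
-/

set_option linter.all false

open NumberField

noncomputable section

namespace Vale.Agent.P022F.Ub

open Vale.Agent.P022
open Vale.Agent.P027M.S (Inert)

section gen

variable {G F K : Type} [Group G] [Field F] [Field K]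

/-- all cocycles whose zero set has the property `Z` are coboundaries -/
def Un (Z : Set G → Prop) (ψ : G →* Fˣ) : Prop :=
  ∀ b : G → F, (∀ g h, b (g * h) = b g + ψ g * b h) → Z {g | b g = 0} →
    ∃ m : F, ∀ g, b g = ((ψ g : F) - 1) * m

theorem Un.down {Z : Set G → Prop} (j : F →+* K) {ψ : G →* Fˣ} {ψ' : G →* Kˣ}
    (hψ : ∀ g, (ψ' g : K) = j (ψ g)) (h : Un Z ψ') : Un Z ψ := by
  intro b hb hZ
  obtain ⟨m, hm⟩ := h (fun g => j (b g)) (fun g k => by simp only [hb, map_add, map_mul, hψ])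
    (by simpa only [map_eq_zero] using hZ)
  by_cases h1 : ∃ g₀, (ψ g₀ : F) - 1 ≠ 0
  · obtain ⟨g₀, h0⟩ := h1
    refine ⟨b g₀ / ((ψ g₀ : F) - 1), fun g => j.injective ?_⟩
    have e0 := hm g₀
    have e1 := hm g
    have h2 : j ((ψ g₀ : F) - 1) ≠ 0 := (map_ne_zero j).2 h0
    simp only [hψ] at e0 e1
    rw [map_mul, map_div₀, e0, e1]
    simp only [map_sub, map_one] at h2 ⊢
    field_simp
  · refine ⟨0, fun g => j.injective ?_⟩
    have e1 := hm g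
    have h2 : (ψ g : F) - 1 = 0 := by
      by_contra h
      exact h1 ⟨g, h⟩
    simp only [hψ] at e1
    rw [e1, mul_zero, map_zero, ← map_one j, ← map_sub, h2, map_zero, zero_mul]

theorem Un.up {Z : Set G → Prop} (hZ : ∀ s s', s ⊆ s' → Z s → Z s') (j : F →+* K) {ψ : G →* Fˣ}
    {ψ' : G →* Kˣ} (hψ : ∀ g, (ψ' g : K) = j (ψ g)) (h : Un Z ψ) : Un Z ψ' := by
  intro b hb hz
  letI : Algebra F K := j.toAlgebra
  have sm : ∀ (x : F) (y : K), j x * y = x • y := fun x y => (Algebra.smul_def x y).symm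
  have key : ∀ φ : Module.Dual F K, ∃ m : F, ∀ g, φ (b g) = ((ψ g : F) - 1) * m := fun φ =>
    h (fun g => φ (b g)) (fun g k => by
      simp only [hb, map_add, hψ, sm, map_smul, smul_eq_mul])
      (hZ _ _ (fun g (hg : b g = 0) => show φ (b g) = 0 by rw [hg, map_zero]) hz)
  by_cases h1 : ∃ g₀, (ψ g₀ : F) - 1 ≠ 0
  · obtain ⟨g₀, h0⟩ := h1
    have h2 : j ((ψ g₀ : F) - 1) ≠ 0 := (map_ne_zero j).2 h0
    refine ⟨b g₀ / j ((ψ g₀ : F) - 1), fun g => ?_⟩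
    have e : j ((ψ g₀ : F) - 1) * b g - j ((ψ g : F) - 1) * b g₀ = 0 := by
      refine (Module.forall_dual_apply_eq_zero_iff F _).1 fun φ => ?_
      obtain ⟨m, hm⟩ := key φ
      rw [sm, sm, map_sub, map_smul, map_smul, hm, hm, smul_eq_mul, smul_eq_mul]
      ring
    rw [hψ, ← map_one j, ← map_sub, ← mul_div_assoc, eq_div_iff h2]
    linear_combination e
  · refine ⟨0, fun g => ?_⟩
    rw [mul_zero]
    refine (Module.forall_dual_apply_eq_zero_iff F _).1 fun φ => ?_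
    obtain ⟨m, hm⟩ := key φ
    have h2 : (ψ g : F) - 1 = 0 := by
      by_contra h
      exact h1 ⟨g, h⟩
    rw [hm, h2, zero_mul]

/-- two pairs of characters with the same sum -/
theorem pair {χ₁ χ₂ μ₁ μ₂ : G →* Kˣ} (h : ∀ g, (μ₁ g : K) + μ₂ g = χ₁ g + χ₂ g)
    (hne : χ₁ ≠ χ₂) : (μ₁ = χ₁ ∧ μ₂ = χ₂) ∨ (μ₁ = χ₂ ∧ μ₂ = χ₁) := by
  have hd : ∀ g, (μ₁ g : K) * μ₂ g * (χ₁ g + χ₂ g) = χ₁ g * χ₂ g * (χ₁ g + χ₂ g) := fun g => by
    have h1 := h g⁻¹
    have h2 := h g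
    simp only [map_inv, Units.val_inv_eq_inv_val] at h1
    have a1 := (μ₁ g).ne_zero
    have a2 := (μ₂ g).ne_zero
    have a3 := (χ₁ g).ne_zero
    have a4 := (χ₂ g).ne_zero
    field_simp at h1
    linear_combination -h1 + (χ₁ g * χ₂ g : K) * h2
  obtain ⟨g₀, hg₀⟩ : ∃ g₀, (χ₁ g₀ : K) ≠ χ₂ g₀ := by
    by_contra hc
    exact hne (MonoidHom.ext fun g => Units.ext (by
      by_contra h
      exact hc ⟨g, h⟩))
  have fin : ∀ {ν₁ ν₂ : G →* Kˣ}, (∀ g, (μ₁ g : K) + μ₂ g = ν₁ g + ν₂ g) → μ₁ = ν₁ → μ₂ = ν₂ :=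
    fun hh e => MonoidHom.ext fun g => Units.ext (by
      have := hh g
      rw [e] at this
      exact add_left_cancel this)
  by_cases e1 : μ₁ = χ₁
  · exact Or.inl ⟨e1, fin h e1⟩
  by_cases e2 : μ₁ = χ₂
  · exact Or.inr ⟨e2, fin (fun g => (h g).trans (add_comm _ _)) e2⟩
  exfalso
  have k1 : ∀ s g, ((μ₂ s : K) - μ₁ s) * μ₂ g =
      ((χ₁ s : K) - μ₁ s) * χ₁ g + ((χ₂ s : K) - μ₁ s) * χ₂ g := fun s g => by
    have a := h (s * g)
    simp only [map_mul, Units.val_mul] at a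
    linear_combination a - (μ₁ s : K) * h g
  have k2 : ∀ s s' g, ((χ₁ s : K) - μ₁ s) * (χ₁ s' - μ₂ s') * χ₁ g +
      ((χ₂ s : K) - μ₁ s) * (χ₂ s' - μ₂ s') * χ₂ g = 0 := fun s s' g => by
    have a := k1 s (s' * g)
    simp only [map_mul, Units.val_mul] at a
    linear_combination -a + (μ₂ s' : K) * k1 s g
  have k3 : ∀ s s', ((χ₁ s : K) - μ₁ s) * (χ₁ s' - μ₂ s') = 0 ∧
      ((χ₂ s : K) - μ₁ s) * (χ₂ s' - μ₂ s') = 0 := fun s s' => by
    have a := k2 s s' 1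
    have b := k2 s s' g₀
    simp only [map_one, Units.val_one, mul_one] at a
    have c : ((χ₁ s : K) - μ₁ s) * (χ₁ s' - μ₂ s') * (χ₁ g₀ - χ₂ g₀) = 0 := by
      linear_combination b - (χ₂ g₀ : K) * a
    have c' := (mul_eq_zero.1 c).resolve_right (sub_ne_zero.2 hg₀)
    exact ⟨c', by linear_combination a - c'⟩
  obtain ⟨s₁, hs₁⟩ : ∃ s, (χ₁ s : K) - μ₁ s ≠ 0 := by
    by_contra hc
    exact e1 (MonoidHom.ext fun g => Units.ext (by
      by_contra h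
      exact hc ⟨g, sub_ne_zero.2 (Ne.symm h)⟩))
  obtain ⟨s₂, hs₂⟩ : ∃ s, (χ₂ s : K) - μ₁ s ≠ 0 := by
    by_contra hc
    exact e2 (MonoidHom.ext fun g => Units.ext (by
      by_contra h
      exact hc ⟨g, sub_ne_zero.2 (Ne.symm h)⟩))
  have b1 := (mul_eq_zero.1 (k3 s₁ g₀).1).resolve_left hs₁
  have b2 := (mul_eq_zero.1 (k3 s₂ g₀).2).resolve_left hs₂
  exact hg₀ (by linear_combination b1 - b2)

end gen

variable {F K : Type} [Field F] [Field K]

/-- the cocycles which are locally constant, unramified outside `2` and `S` and vanish at the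
complex conjugations are coboundaries -/
def Unob (ψ : GQ →* Fˣ) (S : Set ℕ) : Prop :=
  ∀ b : GQ → F, (∀ g h, b (g * h) = b g + ψ g * b h) →
    (∃ U : Subgroup GQ, IsOpen (U : Set GQ) ∧ ∀ u ∈ U, b u = 0) →
    (∀ l : ℕ, l.Prime → l ≠ 2 → l ∉ S → ∀ P : Ideal (𝓞 Qb), P.IsPrime → (l : 𝓞 Qb) ∈ P →
      ∀ s, Inert P s → b s = 0) →
    (∀ c, IsConj c → b c = 0) → ∃ m : F, ∀ g, b g = ((ψ g : F) - 1) * m

/-- the local conditions on the zero set -/
def Zs (S : Set ℕ) (s : Set GQ) : Prop :=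
  (∃ U : Subgroup GQ, IsOpen (U : Set GQ) ∧ ∀ u ∈ U, u ∈ s) ∧
    (∀ l : ℕ, l.Prime → l ≠ 2 → l ∉ S → ∀ P : Ideal (𝓞 Qb), P.IsPrime → (l : 𝓞 Qb) ∈ P →
      ∀ g, Inert P g → g ∈ s) ∧ ∀ c, IsConj c → c ∈ s

theorem Zs.mono (S : Set ℕ) (s s' : Set GQ) (h : s ⊆ s') (z : Zs S s) : Zs S s' := by
  obtain ⟨⟨U, hU, h1⟩, h2, h3⟩ := z
  exact ⟨⟨U, hU, fun u hu => h (h1 u hu)⟩,
    fun l a b c P d e g f => h (h2 l a b c P d e g f), fun c hc => h (h3 c hc)⟩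

theorem unob_iff {ψ : GQ →* Fˣ} {S : Set ℕ} : Unob ψ S ↔ Un (Zs S) ψ :=
  ⟨fun h b hb z => h b hb z.1 z.2.1 z.2.2, fun h b hb z1 z2 z3 => h b hb ⟨z1, z2, z3⟩⟩

/-- **change of the coefficient field** -/
theorem unob_map (j : F →+* K) {ψ : GQ →* Fˣ} {ψ' : GQ →* Kˣ} (hψ : ∀ g, (ψ' g : K) = j (ψ g))
    (S : Set ℕ) : Unob ψ' S ↔ Unob ψ S := by
  rw [unob_iff, unob_iff]
  exact ⟨Un.down j hψ, Un.up (Zs.mono S) j hψ⟩

theorem Unob.anti {ψ : GQ →* Fˣ} {S S' : Set ℕ} (h : Unob ψ S)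
    (hS : ∀ l : ℕ, l.Prime → l ≠ 2 → l ∈ S' → l ∈ S) : Unob ψ S' :=
  fun b hb z1 z2 z3 => h b hb z1
    (fun l a a' c => z2 l a a' fun e => c (hS l a a' e)) z3

/-- **transfer**: `χ₁, χ₂` over `k`, `μ₁, μ₂` over `F`, both fields inside `K`, same sum -/
theorem transfer {k : Type} [Field k] (i : k →+* K) (j : F →+* K) {χ₁ χ₂ : GQ →* kˣ}
    {μ₁ μ₂ : GQ →* Fˣ} (h : ∀ g, j ((μ₁ g : F) + μ₂ g) = i ((χ₁ g : k) + χ₂ g)) (hne : χ₁ ≠ χ₂)
    {S : Set ℕ} (h1 : Unob (χ₁ * χ₂⁻¹) S) (h2 : Unob (χ₂ * χ₁⁻¹) S) :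
    Unob (μ₁ * μ₂⁻¹) S ∧ Unob (μ₂ * μ₁⁻¹) S ∧ ∀ g, μ₁ g = μ₂ g ↔ χ₁ g = χ₂ g := by
  let I : kˣ →* Kˣ := Units.map (i : k →* K)
  let J : Fˣ →* Kˣ := Units.map (j : F →* K)
  have hI : Function.Injective I := Units.map_injective i.injective
  have hJ : Function.Injective J := Units.map_injective j.injective
  have main : ∀ {a b : GQ →* kˣ} {c d : GQ →* Fˣ}, J.comp c = I.comp a → J.comp d = I.comp b →
      Unob (a * b⁻¹) S → Unob (c * d⁻¹) S := by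
    intro a b c d e1 e2 hu
    refine (unob_map j (ψ' := J.comp (c * d⁻¹)) (fun _ => rfl) S).1
      ((unob_map i (ψ := a * b⁻¹) (fun g => ?_) S).2 hu)
    have f1 : J (c g) = I (a g) := DFunLike.congr_fun e1 g
    have f2 : J (d g) = I (b g) := DFunLike.congr_fun e2 g
    change ((J (c g * (d g)⁻¹) : Kˣ) : K) = ((I (a g * (b g)⁻¹) : Kˣ) : K)
    rw [map_mul, map_mul, map_inv, map_inv, f1, f2]
  rcases pair (χ₁ := I.comp χ₁) (χ₂ := I.comp χ₂) (μ₁ := J.comp μ₁) (μ₂ := J.comp μ₂)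
    (fun g => by
      have := h g
      rw [map_add, map_add] at this
      exact this)
    (fun e => hne (MonoidHom.ext fun g => hI (DFunLike.congr_fun e g))) with ⟨e1, e2⟩ | ⟨e1, e2⟩
  · refine ⟨main e1 e2 h1, main e2 e1 h2, fun g => ?_⟩
    have f1 : J (μ₁ g) = I (χ₁ g) := DFunLike.congr_fun e1 g
    have f2 : J (μ₂ g) = I (χ₂ g) := DFunLike.congr_fun e2 g
    rw [← hJ.eq_iff, f1, f2, hI.eq_iff]
  · refine ⟨main e1 e2 h2, main e2 e1 h1, fun g => ?_⟩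
    have f1 : J (μ₁ g) = I (χ₂ g) := DFunLike.congr_fun e1 g
    have f2 : J (μ₂ g) = I (χ₁ g) := DFunLike.congr_fun e2 g
    rw [← hJ.eq_iff, f1, f2, hI.eq_iff, eq_comm]

/-- a common overfield: `O → k` and `O → F` are ring maps to fields with the same kernel -/
theorem common {O k : Type} [CommRing O] [Field k] (π : O →+* k) (ρ : O →+* F)
    (h : ∀ x, π x = 0 ↔ ρ x = 0) (hm : (RingHom.ker π).IsMaximal) :
    ∃ (K : Type) (_ : Field K) (i : k →+* K) (j : F →+* K), ∀ x, i (π x) = j (ρ x) := by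
  letI : Field (O ⧸ RingHom.ker π) := Ideal.Quotient.field _
  letI : Algebra (O ⧸ RingHom.ker π) k := (RingHom.kerLift π).toAlgebra
  letI : Algebra (O ⧸ RingHom.ker π) F :=
    (Ideal.Quotient.lift (RingHom.ker π) ρ fun a ha => (h a).1 ha).toAlgebra
  haveI : Nontrivial (TensorProduct (O ⧸ RingHom.ker π) k F) := inferInstance
  obtain ⟨m, hm'⟩ := Ideal.exists_maximal (TensorProduct (O ⧸ RingHom.ker π) k F)
  refine ⟨TensorProduct (O ⧸ RingHom.ker π) k F ⧸ m, Ideal.Quotient.field m,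
    (Ideal.Quotient.mk m).comp Algebra.TensorProduct.includeLeftRingHom,
    (Ideal.Quotient.mk m).comp
      (Algebra.TensorProduct.includeRight (R := O ⧸ RingHom.ker π) (A := k) (B := F)).toRingHom,
    fun x => ?_⟩
  have e1 : π x = algebraMap (O ⧸ RingHom.ker π) k (Ideal.Quotient.mk _ x) := rfl
  have e2 : ρ x = algebraMap (O ⧸ RingHom.ker π) F (Ideal.Quotient.mk _ x) := rfl
  rw [e1, e2]
  refine congrArg (Ideal.Quotient.mk m) ?_
  exact DFunLike.congr_fun (Algebra.TensorProduct.includeLeftRingHom_comp_algebraMap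
    (R := O ⧸ RingHom.ker π) (A := k) (B := F)) _

end Vale.Agent.P022F.Ub
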