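import Vale.Agent.P022D.Gma.Rep

/-!
P022F: the pseudo representation of Wiles attached to a trace function, and its first order
deformations in the residually split case.
-/

set_option linter.all false

noncomputable section

namespace Vale.Agent.P022F

open Vale.Agent.P022.H346 Vale.Agent.P022D.Gma

section wiles

variable {G B : Type} [Group G] [CommRing B]

/-- the identities of Wiles -/
structure Wi (t : G → B) (d : G →* Bˣ) (g₀ : G) (β u : B) (a δ : G → B) (x : G → G → B) :
    Prop where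
  tr : ∀ g, a g + δ g = t g
  det : ∀ g, (d g : B) = a g * δ g - x g g
  ma : ∀ g h, a (g * h) = a g * a h + x g h
  md : ∀ g h, δ (g * h) = δ g * δ h + x h g
  xl : ∀ g g' h, x (g * g') h = a g * x g' h + δ g' * x g h
  xr : ∀ g h h', x g (h * h') = x g h * a h' + δ h * x g h'
  x0 : ∀ h, x g₀ h = 0
  x1 : ∀ g, x g g₀ = 0
  fa : ∀ g, a g = (t (g * g₀) - β * t g) * u

theorem wiles {t : G → B} {d : G →* Bˣ} (T : TF t d) (g₀ : G) {α β u : B}
    (hs : α + β = t g₀) (hp : α * β = d g₀) (hu : (α - β) * u = 1) :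
    ∃ a δ x, Wi t d g₀ β u a δ x := by
  obtain ⟨A, _, _, L, π, h, hL, hπ⟩ := exists_ch T
  obtain ⟨e, he⟩ : ∃ e : A, e = u • (π g₀ - β • 1) := ⟨_, rfl⟩
  have sq : ∀ g, π g * π g = t g • π g - (d g : B) • 1 := fun g => by
    have := congrArg (π g * ·) (hπ g)
    simp only [mul_add, mul_smul_comm, ← map_mul π g g⁻¹, mul_inv_cancel, map_one,
      mul_one] at this
    rw [← this, add_sub_cancel_right]
  have hg : π g₀ * π g₀ = (α + β) • π g₀ - (α * β) • 1 := by rw [hs, hp, sq]
  have hge : π g₀ * e = α • e := by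
    rw [he, mul_smul_comm, mul_sub, hg, mul_smul_comm, mul_one, smul_comm α u]
    congr 1
    module
  have heg : e * π g₀ = α • e := by
    rw [he, smul_mul_assoc, sub_mul, hg, smul_mul_assoc, one_mul, smul_comm α u]
    congr 1
    module
  have hee : e * e = e := by
    have : e * e = u • (π g₀ * e - β • e) := by
      conv_lhs => lhs; rw [he]
      rw [smul_mul_assoc, sub_mul, smul_mul_assoc, one_mul]
    rw [this, hge, ← sub_smul, smul_smul, mul_comm u, hu, one_smul]
  have hx : ∀ g, L (π g * e) = (t (g * g₀) - β * t g) * u := by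
    intro g
    rw [he, mul_smul_comm, mul_sub, mul_smul_comm, mul_one, ← map_mul, map_smul, map_sub, map_smul,
      hL, hL, smul_eq_mul, smul_eq_mul, mul_comm]
  have h1 : L e = 1 := by
    have := hx 1
    rw [map_one, one_mul, one_mul, T.one, ← hs] at this
    rw [this]
    linear_combination hu
  obtain ⟨f, hf0⟩ : ∃ f : A, f = 1 - e := ⟨_, rfl⟩
  have hef : e + f = 1 := by rw [hf0, add_sub_cancel]
  have hf : f * f = f := by
    rw [hf0, sub_mul, one_mul, mul_sub, mul_one, hee, sub_self, sub_zero]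
  have h2 : L f = 1 := by
    rw [hf0, map_sub, h.one, h1]; ring
  have ef : e * f = 0 := by rw [hf0, mul_sub, mul_one, hee, sub_self]
  have fe : f * e = 0 := by rw [hf0, sub_mul, one_mul, hee, sub_self]
  have se := h.sand hee h1
  have sf := h.sand hf h2
  have ins : ∀ y z : A, y * z = y * e * z + y * f * z := fun y z => by
    rw [← add_mul, ← mul_add, hef, mul_one]
  have ce : ∀ y, L (y * e) = L (e * y * e) := fun y => by
    rw [se, map_smul, h1, smul_eq_mul, mul_one]
  have cf : ∀ y, L (y * f) = L (f * y * f) := fun y => by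
    rw [sf, map_smul, h2, smul_eq_mul, mul_one]
  have k1 : ∀ y z : A, L (y * e * z * e) = L (y * e) * L (z * e) := fun y z => by
    rw [mul_assoc y, mul_assoc y, se, mul_smul_comm, map_smul, smul_eq_mul, mul_comm]
  have k2 : ∀ y z : A, L (y * f * z * f) = L (y * f) * L (z * f) := fun y z => by
    rw [mul_assoc y, mul_assoc y, sf, mul_smul_comm, map_smul, smul_eq_mul, mul_comm]
  have ma : ∀ g k, L (π (g * k) * e) = L (π g * e) * L (π k * e) + L (π g * f * π k * e) :=
    fun g k => by rw [map_mul π, ins (π g) (π k), add_mul, map_add, k1]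
  refine ⟨fun g => L (π g * e), fun g => L (π g * f), fun g k => L (π g * f * π k * e),
    fun g => ?_, fun g => ?_, ma, fun g k => ?_, fun g g' k => ?_, fun g k k' => ?_, fun k => ?_,
    fun g => ?_, hx⟩
  · rw [← map_add, ← mul_add, hef, mul_one, hL]
  · have e1 := ma g g
    have e2 : L (π g * e) + L (π g * f) = t g := by rw [← map_add, ← mul_add, hef, mul_one, hL]
    rw [map_mul π, sq, sub_mul, smul_mul_assoc, smul_mul_assoc, one_mul, map_sub, map_smul, map_smul,
      h1, smul_eq_mul, smul_eq_mul, mul_one, ← e2] at e1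
    linear_combination -e1
  · rw [map_mul π, ins (π g) (π k), add_mul, map_add, k2, add_comm]
    congr 1
    rw [mul_assoc (π g * e), h.comm, ← mul_assoc]
  · have e1 : L (π g * e * π g' * f * π k * e) = L (π g * e) * L (π g' * f * π k * e) := by
      rw [← k1]; simp only [mul_assoc]
    have e2 : L (π g * f * π g' * f * π k * e) = L (π g' * f) * L (π g * f * π k * e) := by
      rw [mul_assoc (π g) f, mul_assoc (π g), sf, mul_smul_comm, smul_mul_assoc, smul_mul_assoc,
        map_smul, smul_eq_mul]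
    show L (π (g * g') * f * π k * e) = _
    rw [map_mul π, ins (π g) (π g'), add_mul, add_mul, add_mul, map_add, e1, e2]
  · have e1 : L (π g * f * (π k * e * π k') * e) = L (π g * f * π k * e) * L (π k' * e) := by
      rw [← k1]; simp only [mul_assoc]
    have e2 : L (π g * f * (π k * f * π k') * e) = L (π k * f) * L (π g * f * π k' * e) := by
      have : π g * f * (π k * f * π k') * e = π g * (f * π k * f) * π k' * e := by
        simp only [mul_assoc]
      rw [this, sf, mul_smul_comm, smul_mul_assoc, smul_mul_assoc, map_smul, smul_eq_mul]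
    show L (π g * f * π (k * k') * e) = _
    rw [map_mul π, ins (π k) (π k'), mul_add, add_mul, map_add, e1, e2]
  · show L (π g₀ * f * π k * e) = 0
    rw [h.comm, ← mul_assoc, ← mul_assoc, heg, smul_mul_assoc, ef, smul_zero, zero_mul, map_zero]
  · show L (π g * f * π g₀ * e) = 0
    rw [mul_assoc _ (π g₀), hge, mul_smul_comm, mul_assoc, fe, mul_zero, smul_zero, map_zero]

end wiles

section tan

variable {G F : Type} [Group G] [Field F]

/-- cocycles for the upper right corner -/
def Cc (χ ψ : G →* Fˣ) (b : G → F) : Prop :=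
  ∀ g h, b (g * h) = (χ g : F) * b h + b g * (ψ h : F)

/-- coboundaries -/
def Cb (χ ψ : G →* Fˣ) (b : G → F) : Prop := ∃ m : F, ∀ g, b g = m * ((χ g : F) - ψ g)

open TrivSqZeroExt in
/-- **first order deformations of `χ + ψ` are sums of characters** -/
theorem tan0 [CharP F 2] {t : G → DualNumber F} {d : G →* (DualNumber F)ˣ} (T : TF t d)
    (χ ψ : G →* Fˣ) (ht : ∀ g, (t g).fst = (χ g : F) + ψ g)
    (hd : ∀ g, (d g : DualNumber F).fst = (χ g : F) * ψ g) {g₀ c : G} (h0 : χ g₀ ≠ ψ g₀)
    (hc : c * c = 1)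
    (U1 : ∀ b, Cc χ ψ b → (∀ n, (∀ g, t (g * n) = t g) → b n = 0) → b c = 0 → Cb χ ψ b)
    (U2 : ∀ b, Cc ψ χ b → (∀ n, (∀ g, t (g * n) = t g) → b n = 0) → b c = 0 → Cb ψ χ b) :
    ∃ p q : G → F, (∀ g h, p (g * h) = p g + p h) ∧ (∀ g h, q (g * h) = q g + q h) ∧
      (∀ n, (∀ g, t (g * n) = t g) → p n = 0 ∧ q n = 0) ∧
      (∀ g, (t g).snd = χ g * p g + ψ g * q g) ∧
      ∀ g, (d g : DualNumber F).snd = χ g * ψ g * (p g + q g) := by
  have two : (2 : F) = 0 := CharP.cast_eq_zero F 2
  have hne : (χ g₀ : F) - ψ g₀ ≠ 0 := sub_ne_zero.2 fun e => h0 (Units.ext e)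
  obtain ⟨w, hw⟩ : ∃ w : F, ((χ g₀ : F) - ψ g₀) * w = 1 := ⟨_, mul_inv_cancel₀ hne⟩
  set s1 := (t g₀).snd
  set s2 := (d g₀ : DualNumber F).snd
  let α : DualNumber F := ⟨χ g₀, (χ g₀ * s1 - s2) * w⟩
  let β : DualNumber F := ⟨ψ g₀, (s2 - ψ g₀ * s1) * w⟩
  let u : DualNumber F := ⟨w, -w * w * (α.snd - β.snd)⟩
  have fα : α.fst = χ g₀ := rfl
  have fβ : β.fst = ψ g₀ := rfl
  have fu : u.fst = w := rfl
  have sα : α.snd = (χ g₀ * s1 - s2) * w := rfl
  have sβ : β.snd = (s2 - ψ g₀ * s1) * w := rfl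
  have su : u.snd = -w * w * (α.snd - β.snd) := rfl
  obtain ⟨a, δ, x, W⟩ := wiles T g₀ (α := α) (β := β) (u := u)
    (by
      ext
      · rw [fst_add, fα, fβ, ht]
      · rw [snd_add, sα, sβ]
        linear_combination s1 * hw)
    (by
      ext
      · rw [fst_mul, fα, fβ, hd]
      · rw [DualNumber.snd_mul, fα, fβ, sα, sβ]
        linear_combination s2 * hw)
    (by
      ext
      · rw [fst_mul, fst_sub, fα, fβ, fu, hw, fst_one]
      · rw [DualNumber.snd_mul, fst_sub, snd_sub, fα, fβ, fu, su, snd_one]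
        linear_combination (-w * (α.snd - β.snd)) * hw)
  have fa : ∀ g, (a g).fst = χ g := fun g => by
    rw [W.fa, fst_mul, fst_sub, fst_mul, ht, ht, fβ, fu, map_mul, map_mul, Units.val_mul,
      Units.val_mul]
    linear_combination (χ g : F) * hw
  have fd : ∀ g, (δ g).fst = ψ g := fun g => by
    have := congrArg fst (W.tr g)
    rw [fst_add, fa, ht] at this
    exact add_left_cancel this
  have fx : ∀ g h, (x g h).fst = 0 := fun g h => by
    have := congrArg fst (W.ma g h)
    rw [fst_add, fst_mul, fa, fa, fa, map_mul, Units.val_mul] at this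
    exact left_eq_add.1 this
  have a1 : a 1 = 1 := by
    have e1 := W.ma 1 g₀
    have e2 := W.x1 1
    rw [one_mul, e2, add_zero] at e1
    ext
    · rw [fa, map_one, Units.val_one, fst_one]
    · have := congrArg snd e1
      rw [DualNumber.snd_mul, fa, fa, map_one, Units.val_one, one_mul] at this
      have h2 : (a 1).snd * χ g₀ = 0 := by linear_combination -this
      rw [snd_one]
      exact (mul_eq_zero.1 h2).resolve_right (χ g₀).ne_zero
  have an : ∀ n, (∀ g, t (g * n) = t g) → (∀ g, a (g * n) = a g) ∧ ∀ g, a (n * g) = a g :=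
    fun n hn => ⟨fun g => by
      rw [W.fa, W.fa, hn, T.comm (g * n), ← mul_assoc, hn, T.comm g₀], fun g => by
      rw [W.fa, W.fa, T.comm n, hn, mul_assoc, T.comm n, hn]⟩
  have xn : ∀ n, (∀ g, t (g * n) = t g) → a n = 1 ∧ (∀ g, x g n = 0) ∧ ∀ g, x n g = 0 :=
    fun n hn => by
      have e : a n = 1 := by rw [← a1, ← (an n hn).1 1, one_mul]
      refine ⟨e, fun g => ?_, fun g => ?_⟩
      · have := W.ma g n
        rw [(an n hn).1, e, mul_one] at this
        exact left_eq_add.1 this
      · have := W.ma n g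
        rw [(an n hn).2, e, one_mul] at this
        exact left_eq_add.1 this
  have cχ : (χ c : F) * χ c = 1 := by rw [← Units.val_mul, ← map_mul, hc, map_one, Units.val_one]
  have xcc : (x c c).snd = 0 := by
    have := congrArg snd (W.ma c c)
    rw [hc, a1, snd_add, DualNumber.snd_mul, fa, snd_one] at this
    linear_combination -this - (χ c : F) * (a c).snd * two
  have xc : ∀ h, (x c h).snd = 0 := by
    obtain ⟨m, hm⟩ := U2 (fun h => (x c h).snd) (fun h h' => by
      show (x c (h * h')).snd = _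
      rw [W.xr, snd_add, DualNumber.snd_mul, DualNumber.snd_mul, fx, fx, fa, fd]
      ring) (fun n hn => by show (x c n).snd = 0; rw [(xn n hn).2.1, snd_zero]) xcc
    have h1 := hm g₀
    simp only [W.x1, snd_zero] at h1
    have h2 : m = 0 := by linear_combination w * h1 - m * hw
    intro h
    have := hm h
    rwa [h2, zero_mul] at this
  have xz : ∀ g h, x g h = 0 := fun g h => by
    obtain ⟨m, hm⟩ := U1 (fun g => (x g h).snd) (fun g g' => by
      show (x (g * g') h).snd = _
      rw [W.xl, snd_add, DualNumber.snd_mul, DualNumber.snd_mul, fx, fx, fa, fd]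
      ring) (fun n hn => by show (x n h).snd = 0; rw [(xn n hn).2.2, snd_zero]) (xc h)
    have h1 := hm g₀
    simp only [W.x0, snd_zero] at h1
    have h2 : m = 0 := by linear_combination (-w) * h1 - m * hw
    have := hm g
    rw [h2, zero_mul] at this
    ext
    · rw [fx, fst_zero]
    · rw [snd_zero]; exact this
  have iχ : ∀ g, (χ g : F) * ((χ g)⁻¹ : Fˣ) = 1 := fun g => Units.mul_inv _
  have iψ : ∀ g, (ψ g : F) * ((ψ g)⁻¹ : Fˣ) = 1 := fun g => Units.mul_inv _
  refine ⟨fun g => ((χ g)⁻¹ : Fˣ) * (a g).snd, fun g => ((ψ g)⁻¹ : Fˣ) * (δ g).snd,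
    fun g h => ?_, fun g h => ?_, fun n hn => ⟨?_, ?_⟩, fun g => ?_, fun g => ?_⟩
  · show _ * (a (g * h)).snd = _
    rw [W.ma, xz, add_zero, DualNumber.snd_mul, fa, fa, map_mul, mul_inv, Units.val_mul]
    linear_combination (((χ h)⁻¹ : Fˣ) * (a h).snd) * iχ g + (((χ g)⁻¹ : Fˣ) * (a g).snd) * iχ h
  · show _ * (δ (g * h)).snd = _
    rw [W.md, xz, add_zero, DualNumber.snd_mul, fd, fd, map_mul, mul_inv, Units.val_mul]
    linear_combination (((ψ h)⁻¹ : Fˣ) * (δ h).snd) * iψ g + (((ψ g)⁻¹ : Fˣ) * (δ g).snd) * iψ h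
  · show _ * (a n).snd = 0
    rw [(xn n hn).1, snd_one, mul_zero]
  · show _ * (δ n).snd = 0
    have e1 := congrArg snd (W.tr n)
    have e2 : t n = 2 := by rw [← T.one, ← hn 1, one_mul]
    have e3 : (2 : DualNumber F).snd = 0 := by
      rw [← one_add_one_eq_two, snd_add, snd_one, add_zero]
    rw [snd_add, (xn n hn).1, snd_one, zero_add, e2, e3] at e1
    rw [e1, mul_zero]
  · rw [← W.tr, snd_add]
    linear_combination (-(a g).snd) * iχ g - (δ g).snd * iψ g
  · rw [W.det, xz, sub_zero, DualNumber.snd_mul, fa, fd]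
    linear_combination (-(ψ g : F) * (a g).snd) * iχ g - (χ g : F) * (δ g).snd * iψ g

end tan

end Vale.Agent.P022F
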