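import Vale.Agent.P022F.Gm
import Vale.Agent.P022D.W.Odd

/-!
P022F: a trace function on a tame local group that is residually a sum of two different
characters is the trace of a diagonal representation.
-/

set_option linter.all false

noncomputable section

namespace Vale.Agent.P022F.Wl

open Vale.Agent.P022.H346 Vale.Agent.P022D.Gma Vale.Agent.P022D.W Vale.Agent.P022F.Gm

variable {G A F Γ : Type} [Group G] [CommRing A] [Field F] [Monoid Γ] {π : A →+* F} {ℓ : ℕ}
  {D I N H : Subgroup G} {τ φ g0 : G} {rb : G →* Mt F} {f : G →* Γ}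

theorem tame_of {Γ' : Type} [Monoid Γ'] (h : TameAt ℓ D I N τ φ f) {f' : G →* Γ'}
    (e : ∀ g k, f g = f k → f' g = f' k) : TameAt ℓ D I N τ φ f' := by
  refine ⟨h.ID, h.NI, h.tau, h.phi, h.cjI, h.cjN, fun p hp => ?_, h.cyc, h.rel, fun g hg => ?_⟩
  · obtain ⟨m, hm, k⟩ := h.odd p hp
    exact ⟨m, hm, by
      rw [← map_pow, e (p ^ m) 1 (by rw [map_pow, k, map_one]), map_one]⟩
  · obtain ⟨k, s, hs, q⟩ := h.gen g hg
    exact ⟨k, s, hs, e _ _ q⟩

theorem step (hW : WD ℓ D H g0 rb) (hA : LR π) (hT : TameAt ℓ D I N τ φ f) (hH : ∀ g, g ∈ H)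
    {a b β : G → A} (ha : ∀ g, π (a g) = rb g 0 0) (hb : ∀ g, π (b g) = rb g 1 1)
    (hc : ∀ g k, β (g * k) = a g * β k + b k * β g) (h1 : β 1 = 0) (h0 : β g0 = 0)
    (hf : ∀ g k, f g = f k → rb g = rb k ∧ β g = β k) (J : Ideal A) (hJ : ∀ g, β g ∈ J) :
    ∀ g ∈ D, β g ∈ RingHom.ker π * J := by
  set J' := RingHom.ker π * J with hJ'
  have hm : ∀ {x y : A}, π x = 0 → y ∈ J → x * y ∈ J' := fun hx hy => Ideal.mul_mem_mul hx hy
  have hu : IsUnit (a g0 - b g0) := hA.loc _ (by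
    rw [map_sub, ha, hb, sub_ne_zero]; exact hW.ne)
  have hadd : ∀ g k, rb g = 1 → rb k = 1 → β (g * k) - (β g + β k) ∈ J' := by
    intro g k eg ek
    have e : β (g * k) - (β g + β k) = (a g - 1) * β k + (b k - 1) * β g := by
      rw [hc]; ring
    rw [e]
    refine J'.add_mem (hm ?_ (hJ k)) (hm ?_ (hJ g))
    · rw [map_sub, ha, eg]; simp
    · rw [map_sub, hb, ek]; simp
  have hpow : ∀ g, rb g = 1 → ∀ n : ℕ, β (g ^ n) - n * β g ∈ J' := by
    intro g eg n
    induction n with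
    | zero => simp [h1]
    | succ n ih =>
      have := J'.add_mem (hadd (g ^ n) g (by rw [map_pow, eg, one_pow]) eg) ih
      rw [pow_succ]
      convert this using 1
      push_cast; ring
  have hodd : ∀ g, rb g = 1 → ∀ n : ℕ, Odd n → β (g ^ n) - β g ∈ J' := by
    rintro g eg _ ⟨n, rfl⟩
    have h2 : (2 * n : A) * β g ∈ J' :=
      hm (by rw [map_mul, map_ofNat, hW.two, zero_mul]) (hJ g)
    have := J'.add_mem (hpow g eg (2 * n + 1)) h2
    convert this using 1
    push_cast; ring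
  have hI : ∀ s ∈ I, rb s = 1 → β s ∈ J' := by
    intro s hs es
    obtain ⟨e, he, p, hp, eq⟩ := hT.conj_odd hW.odd hW.g0D hs
    have ep : rb p = 1 := by
      have := (hf _ _ eq).1
      rw [map_mul, map_mul, es, mul_one, ← map_mul, mul_inv_cancel, map_one, map_mul, map_pow, es,
        one_pow, mul_one] at this
      exact this.symm
    obtain ⟨m, hm', em⟩ := hT.odd p hp
    have k1 := hodd p ep m hm'
    rw [(hf (p ^ m) 1 (by rw [map_pow, em, map_one])).2, h1, zero_sub, neg_mem_iff] at k1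
    have k2 := hadd p (s ^ e) ep (by rw [map_pow, es, one_pow])
    have k3 := hodd s es e he
    have k4 : β (g0 * s * g0⁻¹) - β s ∈ J' := by
      rw [(hf _ _ eq).2]
      convert J'.add_mem (J'.add_mem k2 k3) k1 using 1
      ring
    have k5 : a g0 * β s = b g0 * β (g0 * s * g0⁻¹) := by
      have : β (g0 * s) = β (g0 * s * g0⁻¹ * g0) := by rw [inv_mul_cancel_right]
      rw [hc, hc _ g0, h0] at this
      simpa using this
    rw [← J'.unit_mul_mem_iff_mem hu]
    convert J'.mul_mem_left (b g0) k4 using 1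
    rw [sub_mul, mul_sub, k5]
  intro g hg
  obtain ⟨s, hs, eq⟩ := hT.comm_dec hg hW.g0D
  have es : rb s = 1 := by
    have k1 := (hf _ _ eq).1
    have k2 : rb (g0 * g) = rb (g * g0) := by
      rw [map_mul, map_mul]
      ext c c'
      by_cases hab : c = c'
      · subst hab
        obtain ⟨c'', hc''⟩ := exists_ne c
        rw [ent1 _ _ hc''.symm, ent1 _ _ hc''.symm, hW.off hc''.symm (hH g),
          hW.off hc''.symm hW.g0H]; ring
      · rw [ent2 _ _ hab, ent2 _ _ hab, hW.off hab (hH g), hW.off hab hW.g0H]; ring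
    rw [k2, mul_assoc, map_mul rb s] at k1
    calc rb s = rb s * rb (g * g0) * rb (g * g0)⁻¹ := by
          rw [mul_assoc, ← map_mul, mul_inv_cancel, map_one, mul_one]
      _ = 1 := by rw [← k1, ← map_mul, mul_inv_cancel, map_one]
  have k1 := (hf _ _ eq).2
  rw [hc, hc _ g0, hc, h0] at k1
  rw [← J'.unit_mul_mem_iff_mem hu]
  have e : (a g0 - b g0) * β g = ((a s - 1) * β g) * b g0 + β s * (b g * b g0) := by
    linear_combination k1
  rw [e]
  refine J'.add_mem (J'.mul_mem_right _ (hm ?_ (hJ g))) (J'.mul_mem_right _ (hI s hs es))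
  rw [map_sub, ha, es]; simp

theorem zero (hW : WD ℓ ⊤ H g0 rb) (hA : LR π) (hT : TameAt ℓ ⊤ I N τ φ f) (hH : ∀ g, g ∈ H)
    {a b β : G → A} (ha : ∀ g, π (a g) = rb g 0 0) (hb : ∀ g, π (b g) = rb g 1 1)
    (hc : ∀ g k, β (g * k) = a g * β k + b k * β g) (h1 : β 1 = 0) (h0 : β g0 = 0)
    (hf : ∀ g k, f g = f k → rb g = rb k ∧ β g = β k) (g : G) : β g = 0 := by
  have key : ∀ k : ℕ, ∀ g, β g ∈ RingHom.ker π ^ k := by
    intro k
    induction k with
    | zero => intro g; simp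
    | succ k ih =>
      rw [pow_succ']
      exact fun g => step hW hA hT hH ha hb hc h1 h0 hf _ ih g trivial
  obtain ⟨n, hn⟩ := hA.nil
  have := key n g
  rwa [hn, Ideal.mem_bot] at this

/-- **the local diagonal representation** -/
theorem locdiag (hW : WD ℓ ⊤ H g0 rb) (hA : LR π) (hT : TameAt ℓ ⊤ I N τ φ f) (hH : ∀ g, g ∈ H)
    (sur : Function.Surjective π) {t : G → A} {d : G →* Aˣ} (T : TF t d)
    (ht : ∀ g, π (t g) = trc rb g) (hd : ∀ g, π (d g) = dtm rb g)
    (hf : ∀ g k, f g = f k → ∀ y, t (g * y) = t (k * y)) :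
    ∃ σ : G →* Mt A, Lift π rb σ ∧ (∀ g, trc σ g = t g) ∧ (∀ g, dtm σ g = d g) ∧
      ∀ g k, (∀ y, t (g * y) = t (k * y)) → σ g = σ k := by
  have o01 : ∀ g, rb g 0 1 = 0 := fun g => (hW.dg g (hH g)).1
  have o10 : ∀ g, rb g 1 0 = 0 := fun g => (hW.dg g (hH g)).2
  have t' : ∀ g, π (t g) = rb g 0 0 + rb g 1 1 := fun g => by
    rw [ht, trc, Matrix.trace_fin_two]
  have d' : π (d g0) = rb g0 0 0 * rb g0 1 1 := by
    rw [hd, dtm, Matrix.det_fin_two, o01, zero_mul, sub_zero]
  have ne := sub_ne_zero.2 hW.ne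
  obtain ⟨a0, ha0⟩ := sur (rb g0 0 0)
  obtain ⟨α, h1, h2⟩ := rt_ex hA (t := t g0) (d := d g0) ha0 (by rw [t', d']; ring)
    (by rw [t']; convert ne using 1; ring)
  have hβ : π (t g0 - α) = rb g0 1 1 := by rw [map_sub, t', h2, add_sub_cancel_left]
  obtain ⟨u, hu⟩ := (hA.loc (α - (t g0 - α)) (by rw [map_sub, h2, hβ]; exact ne)).exists_right_inv
  obtain ⟨M, -, -, x0, -⟩ := gm T g0 (α := α) (β := t g0 - α) (u := u) (by ring)
    (by linear_combination -h1) hu
  have hu' := congrArg π hu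
  rw [map_mul, map_sub, h2, hβ, map_one] at hu'
  have ha : ∀ g, π (ent t g0 (t g0 - α) u g) = rb g 0 0 := fun g => by
    rw [ent, map_mul, map_sub, map_mul, hβ, t', t', map_mul,
      ent1 _ _ (show (0 : Fin 2) ≠ 1 by decide), ent1 _ _ (show (1 : Fin 2) ≠ 0 by decide), o01 g, o10 g]
    linear_combination (rb g 0 0) * hu'
  have hb : ∀ g, π (en2 t g0 (t g0 - α) u g) = rb g 1 1 := fun g => by
    rw [en2, map_sub, ha, t', add_sub_cancel_left]
  have hx : ∀ g k, xx t g0 (t g0 - α) u g k = 0 := fun g k =>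
    zero hW hA hT hH ha hb (β := fun g => xx t g0 (t g0 - α) u g k) (fun g g' => M.cl g g' k)
      (M.x1 k).1 (x0 k) (fun g g' e => ⟨by
        ext i j
        fin_cases i <;> fin_cases j
        · exact (ha g).symm.trans ((congrArg π (ent_congr (hf _ _ e))).trans (ha g'))
        · exact (o01 g).trans (o01 g').symm
        · exact (o10 g).trans (o10 g').symm
        · exact (hb g).symm.trans ((congrArg π (en2_congr (hf _ _ e))).trans (hb g')),
        xx_congr_left (hf _ _ e) k⟩) g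
  refine ⟨⟨⟨fun g => !![ent t g0 (t g0 - α) u g, 0; 0, en2 t g0 (t g0 - α) u g], ?_⟩,
    fun g k => ?_⟩, fun g => ?_, fun g => ?_, fun g => ?_, fun g k e => ?_⟩
  · show !![_, 0; 0, _] = _
    rw [M.a1, M.b1, Matrix.one_fin_two]
  · show !![_, 0; 0, _] = !![_, 0; 0, _] * !![_, 0; 0, _]
    rw [M.am, M.bm, hx, hx, Matrix.mul_fin_two]
    simp
  · ext i j
    fin_cases i <;> fin_cases j
    · exact ha g
    · exact (map_zero π).trans (o01 g).symm
    · exact (map_zero π).trans (o10 g).symm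
    · exact hb g
  · show Matrix.trace !![_, 0; 0, _] = _
    rw [Matrix.trace_fin_two_of, M.sum]
  · show Matrix.det !![_, 0; 0, _] = _
    rw [Matrix.det_fin_two_of, ← M.det, hx, mul_zero]
  · show !![_, 0; 0, _] = !![_, 0; 0, _]
    rw [ent_congr e, en2_congr e]

end Vale.Agent.P022F.Wl
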